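import Vale.Agent.P296.MathlibUsed
import Vale.Agent.P296.Final

set_option linter.all false

section

section

/-!
# P296 (Griffiths' positivity conjecture): definitions

Holomorphic vector bundles on a complex torus `ℂⁿ/Λ`, smooth Hermitian metrics, the Chern
curvature and Griffiths positivity, and ampleness.
-/

namespace Vale.Agent.P296

open Complex Matrix
open scoped ContDiff ComplexOrder

/-- The lattice `ℤ[i]ⁿ ⊂ ℂⁿ`; the quotient `ℂⁿ/ℤ[i]ⁿ` is the `n`-th power of the elliptic curve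
`ℂ/ℤ[i]`, an abelian variety. -/
def gaussLattice (n : ℕ) : AddSubgroup (Fin n → ℂ) where
  carrier := {z | ∀ k, ∃ a b : ℤ, z k = a + b * I}
  zero_mem' := fun k => ⟨0, 0, by simp⟩
  add_mem' := by
    intro x y hx hy k
    obtain ⟨a, b, h⟩ := hx k
    obtain ⟨c, d, h'⟩ := hy k
    exact ⟨a + c, b + d, by rw [Pi.add_apply, h, h']; push_cast; ring⟩
  neg_mem' := by
    intro x hx k
    obtain ⟨a, b, h⟩ := hx k
    exact ⟨-a, -b, by rw [Pi.neg_apply, h]; push_cast; ring⟩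

/-- The `(1,0)`-derivative `∂_ξ f (z) = (Df(z)ξ - i Df(z)(iξ)) / 2 = ∑ ξ_k ∂f/∂z_k`. -/
noncomputable def dHol {V : Type*} [NormedAddCommGroup V] [NormedSpace ℂ V]
    (f : V → ℂ) (z ξ : V) : ℂ :=
  (fderiv ℝ f z ξ - I * fderiv ℝ f z (I • ξ)) / 2

/-- The mixed second derivative (Levi form)
`∂_ξ ∂̄_ξ f (z) = (D²f(z)(ξ,ξ) + D²f(z)(iξ,iξ)) / 4 = ∑ ξ_j ξ̄_k ∂²f/∂z_j∂z̄_k`. -/
noncomputable def levi {V F : Type*} [NormedAddCommGroup V] [NormedSpace ℂ V]
    [NormedAddCommGroup F] [NormedSpace ℝ F] (f : V → F) (z ξ : V) : F :=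
  (4⁻¹ : ℝ) • (iteratedFDeriv ℝ 2 f z ![ξ, ξ] + iteratedFDeriv ℝ 2 f z ![I • ξ, I • ξ])

/-- A holomorphic vector bundle of rank `r` on the complex torus `ℂⁿ/Λ`, given by holomorphic
transition matrices: the open sets `U i ⊂ ℂⁿ` cover the torus, the bundle is trivialised over
`U i`, and for `l ∈ Λ`, `z ∈ U j`, `z + l ∈ U i` the vector with coordinates `v` in the
trivialisation `j` over `z` is the vector with coordinates `g i j l z *ᵥ v` in the
trivialisation `i` over `z + l` (the same point of the torus). -/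
structure TorusBundle {n : ℕ} (Λ : AddSubgroup (Fin n → ℂ)) (r : ℕ) where
  ι : Type
  U : ι → Set (Fin n → ℂ)
  isOpen_U : ∀ i, IsOpen (U i)
  cover : ∀ z, ∃ i, ∃ l ∈ Λ, z + l ∈ U i
  g : ι → ι → (Fin n → ℂ) → (Fin n → ℂ) → Matrix (Fin r) (Fin r) ℂ
  holo : ∀ i j, ∀ l ∈ Λ, ∀ a b,
    DifferentiableOn ℂ (fun z => g i j l z a b) {z | z ∈ U j ∧ z + l ∈ U i}
  g_self : ∀ i, ∀ z ∈ U i, g i i 0 z = 1
  cocycle : ∀ i j k, ∀ l ∈ Λ, ∀ m ∈ Λ, ∀ z ∈ U k, z + m ∈ U j → z + m + l ∈ U i →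
    g i j l (z + m) * g j k m z = g i k (l + m) z

variable {n r : ℕ} {Λ : AddSubgroup (Fin n → ℂ)}

/-- A smooth Hermitian metric on the bundle: over `z ∈ U i` the squared length of the vector
with coordinates `v` is `v* h(z) v`. -/
structure HermitianMetric (E : TorusBundle Λ r) where
  h : E.ι → (Fin n → ℂ) → Matrix (Fin r) (Fin r) ℂ
  smooth : ∀ i a b, ContDiffOn ℝ ∞ (fun z => h i z a b) (E.U i)
  posDef : ∀ i, ∀ z ∈ E.U i, (h i z).PosDef
  compat : ∀ i j, ∀ l ∈ Λ, ∀ z ∈ E.U j, z + l ∈ E.U i →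
    h j z = (E.g i j l z)ᴴ * h i (z + l) * E.g i j l z

/-- The Chern curvature of a Hermitian metric with Gram matrix `h(z)` in a holomorphic frame:
`⟨Θ(ξ,ξ̄)v, v⟩ = v* (-∂_ξ∂̄_ξ h + (∂_ξ h)* h⁻¹ (∂_ξ h)) v`. -/
noncomputable def chernCurvature (h : (Fin n → ℂ) → Matrix (Fin r) (Fin r) ℂ)
    (z ξ : Fin n → ℂ) (v : Fin r → ℂ) : ℂ :=
  let dh : Matrix (Fin r) (Fin r) ℂ := Matrix.of fun a b => dHol (fun w => h w a b) z ξ
  let ddh : Matrix (Fin r) (Fin r) ℂ := Matrix.of fun a b => levi (fun w => h w a b) z ξ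
  star v ⬝ᵥ ((dhᴴ * (h z)⁻¹ * dh - ddh) *ᵥ v)

/-- Strict Griffiths positivity of the Chern curvature. -/
def HermitianMetric.GriffithsPositive {E : TorusBundle Λ r} (H : HermitianMetric E) : Prop :=
  ∀ i, ∀ z ∈ E.U i, ∀ ξ : Fin n → ℂ, ξ ≠ 0 → ∀ v : Fin r → ℂ, v ≠ 0 →
    0 < (chernCurvature (H.h i) z ξ v).re

/-- A smooth Hermitian metric on the tautological line bundle `O(-1)` over `ℙ(E)` (one-dimensional
quotients of `E` = lines in the dual bundle `E*`), i.e. a smooth complex Finsler metric on `E*`: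
`F i (z, u)` is the squared length of the dual vector with coordinates (row vector) `u ≠ 0` over
`z ∈ U i`. -/
structure FinslerMetric (E : TorusBundle Λ r) where
  F : E.ι → (Fin n → ℂ) × (Fin r → ℂ) → ℝ
  smooth : ∀ i, ContDiffOn ℝ ∞ (F i) {p | p.1 ∈ E.U i ∧ p.2 ≠ 0}
  pos : ∀ i, ∀ z ∈ E.U i, ∀ u, u ≠ 0 → 0 < F i (z, u)
  homog : ∀ i, ∀ z ∈ E.U i, ∀ u, u ≠ 0 → ∀ t : ℂ, t ≠ 0 → F i (z, t • u) = ‖t‖ ^ 2 * F i (z, u)
  compat : ∀ i j, ∀ l ∈ Λ, ∀ z ∈ E.U j, z + l ∈ E.U i → ∀ u, u ≠ 0 →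
    F j (z, u ᵥ* E.g i j l z) = F i (z + l, u)

/-- `E` is ample: the line bundle `O(1)` over `ℙ(E)` carries a smooth Hermitian metric with
positive curvature. The curvature form of the metric dual to `F` is `i∂∂̄ log F`; it is required
to be positive in every direction `(ξ, w)` which is not tangent to the fibre of
`E* \ 0 → ℙ(E)`. -/
def TorusBundle.IsAmple (E : TorusBundle Λ r) : Prop :=
  ∃ F : FinslerMetric E, ∀ i, ∀ z ∈ E.U i, ∀ u : Fin r → ℂ, u ≠ 0 →
    ∀ (ξ : Fin n → ℂ) (w : Fin r → ℂ), (¬ (ξ = 0 ∧ ∃ c : ℂ, w = c • u)) →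
      0 < levi (fun p => Real.log (F.F i p)) (z, u) (ξ, w)

end Vale.Agent.P296
end
end

section

section

/-!
# P296: calculus of the Levi form (T1)
-/

namespace Vale.Agent.P296

open Complex
open scoped ContDiff Topology

section basic

variable {V F : Type*} [NormedAddCommGroup V] [NormedSpace ℂ V] [NormedAddCommGroup F]
  [NormedSpace ℝ F]

lemma levi_eq' (f : V → F) (x ζ : V) :
    levi f x ζ = (4⁻¹ : ℝ) • (fderiv ℝ (fderiv ℝ f) x ζ ζ
      + fderiv ℝ (fderiv ℝ f) x (I • ζ) (I • ζ)) := by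
  unfold levi
  rw [iteratedFDeriv_two_apply, iteratedFDeriv_two_apply]
  simp only [Fin.isValue, Matrix.cons_val_zero, Matrix.cons_val_one, Matrix.cons_val_fin_one, smul_add]

lemma fderiv2_apply {f : V → F} {x : V} (hf : DifferentiableAt ℝ (fderiv ℝ f) x) (Y X : V) :
    fderiv ℝ (fderiv ℝ f) x Y X = fderiv ℝ (fun q => fderiv ℝ f q X) x Y := by
  have h := hf.hasFDerivAt.clm_apply (hasFDerivAt_const X x)
  rw [h.fderiv]
  simp

lemma ContDiffAt.diff_fderiv {f : V → F} {x : V} (hf : ContDiffAt ℝ 2 f x) :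
    DifferentiableAt ℝ (fderiv ℝ f) x :=
  (hf.fderiv_right (m := 1) (by norm_num)).differentiableAt (by norm_num)

theorem levi_congr {f g : V → F} {p : V} (h : f =ᶠ[𝓝 p] g) (X : V) :
    levi f p X = levi g p X := by
  rw [levi_eq', levi_eq', Filter.EventuallyEq.fderiv_eq h.fderiv]

theorem levi_add {f g : V → F} {p : V} (hf : ContDiffAt ℝ 2 f p) (hg : ContDiffAt ℝ 2 g p)
    (X : V) : levi (fun q => f q + g q) p X = levi f p X + levi g p X := by
  have hev : fderiv ℝ (fun q => f q + g q) =ᶠ[𝓝 p] fun q => fderiv ℝ f q + fderiv ℝ g q := by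
    filter_upwards [hf.eventually (by simp), hg.eventually (by simp)] with q h1 h2
    exact fderiv_fun_add (h1.differentiableAt (by norm_num)) (h2.differentiableAt (by norm_num))
  rw [levi_eq', levi_eq', levi_eq', Filter.EventuallyEq.fderiv_eq hev,
    fderiv_fun_add (ContDiffAt.diff_fderiv hf) (ContDiffAt.diff_fderiv hg)]
  simp only [_root_.add_apply, ← smul_add]
  congr 1
  abel

theorem levi_const_smul {f : V → F} {p : V} (hf : ContDiffAt ℝ 2 f p)
    (c : ℝ) (X : V) : levi (fun q => c • f q) p X = c • levi f p X := by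
  have hev : fderiv ℝ (fun q => c • f q) =ᶠ[𝓝 p] fun q => c • fderiv ℝ f q := by
    filter_upwards [hf.eventually (by simp)] with q h1
    exact fderiv_fun_const_smul (h1.differentiableAt (by norm_num)) c
  rw [levi_eq', levi_eq', Filter.EventuallyEq.fderiv_eq hev,
    fderiv_fun_const_smul (ContDiffAt.diff_fderiv hf)]
  simp only [_root_.smul_apply, ← smul_add]
  rw [smul_comm]

theorem levi_smul_dir {f : V → F} {p : V} (hf : ContDiffAt ℝ 2 f p)
    (c : ℂ) (X : V) : levi f p (c • X) = ‖c‖ ^ 2 • levi f p X := by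
  have hsymm : IsSymmSndFDerivAt ℝ f p := hf.isSymmSndFDerivAt (by simp)
  have hs : fderiv ℝ (fderiv ℝ f) p (I • X) X = fderiv ℝ (fderiv ℝ f) p X (I • X) :=
    hsymm _ _
  rw [levi_eq', levi_eq']
  have h1 : c • X = c.re • X + c.im • (I • X) := by
    conv_lhs => rw [← re_add_im c]
    rw [add_smul, mul_smul]
    simp [Complex.coe_smul]
  have h2 : I • c • X = c.re • (I • X) - c.im • X := by
    rw [h1, smul_add, smul_comm I c.re X, smul_comm I c.im, smul_smul I I, I_mul_I]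
    simp [sub_eq_add_neg]
  rw [h2, h1]
  simp only [map_add, map_sub, map_smul, _root_.add_apply, _root_.sub_apply,
    _root_.smul_apply, hs]
  have h3 : ‖c‖ ^ 2 = c.re * c.re + c.im * c.im := by
    rw [← Complex.normSq_apply, Complex.normSq_eq_norm_sq]
  rw [h3]
  module

end basic

section comp

variable {V₁ V₂ : Type*} [NormedAddCommGroup V₁] [NormedSpace ℂ V₁]
    [NormedAddCommGroup V₂] [NormedSpace ℂ V₂] {F : Type*} [NormedAddCommGroup F]
    [NormedSpace ℝ F]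

/-- Chain rule for the Levi form under holomorphic maps (values in a real normed space). -/
theorem levi_comp_hol' {f : V₂ → F} {Θ : V₁ → V₂} {p : V₁}
    (hf : ContDiffAt ℝ 2 f (Θ p)) (hΘ : ContDiffAt ℂ 2 Θ p) (X : V₁) :
    levi (fun q => f (Θ q)) p X = levi f (Θ p) (fderiv ℂ Θ p X) := by
  have hΘR : ContDiffAt ℝ 2 Θ p := hΘ.restrict_scalars ℝ
  have hg : ContDiffAt ℝ 2 (fun q => f (Θ q)) p := hf.comp p hΘR
  have hdΘ : DifferentiableAt ℂ (fderiv ℂ Θ) p :=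
    (hΘ.fderiv_right (m := 1) (by norm_num)).differentiableAt (by norm_num)
  have hdf : DifferentiableAt ℝ (fderiv ℝ f) (Θ p) := ContDiffAt.diff_fderiv hf
  have hev : ∀ Y : V₁, (fun q => fderiv ℝ (fun q => f (Θ q)) q Y) =ᶠ[𝓝 p]
      fun q => fderiv ℝ f (Θ q) (fderiv ℂ Θ q Y) := by
    intro Y
    have h1 : ∀ᶠ q in 𝓝 p, ContDiffAt ℝ 2 f (Θ q) :=
      hΘR.continuousAt.eventually (hf.eventually (by simp))
    filter_upwards [h1, hΘ.eventually (by simp)] with q h1 h2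
    have h3 : DifferentiableAt ℂ Θ q := h2.differentiableAt (by norm_num)
    have h4 := (h1.differentiableAt (by norm_num)).hasFDerivAt.comp q
      (h3.hasFDerivAt.restrictScalars ℝ)
    have h5 := h4.fderiv
    have h6 : (fun q => f (Θ q)) = f ∘ Θ := rfl
    rw [h6, h5]
    simp
  have hsecond : ∀ Y Z : V₁, fderiv ℝ (fderiv ℝ (fun q => f (Θ q))) p Z Y =
      fderiv ℝ (fderiv ℝ f) (Θ p) (fderiv ℂ Θ p Z) (fderiv ℂ Θ p Y)
        + fderiv ℝ f (Θ p) (fderiv ℂ (fderiv ℂ Θ) p Z Y) := by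
    intro Y Z
    rw [fderiv2_apply (ContDiffAt.diff_fderiv hg), Filter.EventuallyEq.fderiv_eq (hev Y)]
    have h3 : DifferentiableAt ℂ Θ p := hΘ.differentiableAt (by norm_num)
    have h4 : HasFDerivAt (fun q => fderiv ℝ f (Θ q))
        ((fderiv ℝ (fderiv ℝ f) (Θ p)).comp ((fderiv ℂ Θ p).restrictScalars ℝ)) p :=
      hdf.hasFDerivAt.comp p (h3.hasFDerivAt.restrictScalars ℝ)
    have h5 : HasFDerivAt (fun q => fderiv ℂ Θ q Y)
        ((((fderiv ℂ (fderiv ℂ Θ) p).flip Y)).restrictScalars ℝ) p := by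
      have h6 := hdΘ.hasFDerivAt.clm_apply (hasFDerivAt_const Y p)
      have h7 := h6.restrictScalars ℝ
      refine h7.congr_fderiv ?_
      ext v
      simp
    have h6 := h4.clm_apply h5
    rw [h6.fderiv]
    simp only [add_apply, ContinuousLinearMap.comp_apply, ContinuousLinearMap.coe_restrictScalars', ContinuousLinearMap.flip_apply, add_comm]
  rw [levi_eq', levi_eq', hsecond, hsecond]
  simp only [map_smul, _root_.smul_apply]
  have : I • I • (fderiv ℂ (fderiv ℂ Θ) p X) X = - (fderiv ℂ (fderiv ℂ Θ) p X) X := by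
    rw [smul_smul, I_mul_I]; simp
  rw [this, map_neg]
  congr 1
  abel

theorem levi_comp_hol {f : V₂ → ℝ} {Θ : V₁ → V₂} {p : V₁}
    (hf : ContDiffAt ℝ 2 f (Θ p)) (hΘ : ContDiffAt ℂ 2 Θ p) (X : V₁) :
    levi (fun q => f (Θ q)) p X = levi f (Θ p) (fderiv ℂ Θ p X) :=
  levi_comp_hol' hf hΘ X

theorem levi_line {V F : Type*} [NormedAddCommGroup V] [NormedSpace ℂ V] [NormedAddCommGroup F]
    [NormedSpace ℝ F] {f : V → F} {p : V} (hf : ContDiffAt ℝ 2 f p) (X : V) :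
    levi (fun τ : ℂ => f (p + τ • X)) 0 1 = levi f p X := by
  have hΘ : ContDiffAt ℂ 2 (fun τ : ℂ => p + τ • X) 0 := by fun_prop
  have h0 : p + (0 : ℂ) • X = p := by simp
  have h := levi_comp_hol' (f := f) (Θ := fun τ : ℂ => p + τ • X) (p := 0)
    (by simpa only [zero_smul, add_zero] using hf) hΘ 1
  rw [h]
  have h1 : HasFDerivAt (fun τ : ℂ => p + τ • X) ((ContinuousLinearMap.id ℂ ℂ).smulRight X) 0 :=
    ((hasFDerivAt_id (0 : ℂ)).smul_const X).const_add p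
  rw [h1.fderiv, h0]
  simp

end comp

section cont

/-- continuity of the Levi form -/
theorem continuousOn_levi {V : Type*} [NormedAddCommGroup V] [NormedSpace ℂ V]
    {f : V → ℝ} {Ω : Set V} (hΩ : IsOpen Ω) (hf : ContDiffOn ℝ 2 f Ω) :
    ContinuousOn (fun q : V × V => levi f q.1 q.2) (Ω ×ˢ Set.univ) := by
  have h1 : ContDiffOn ℝ 1 (fderiv ℝ f) Ω := hf.fderiv_of_isOpen hΩ (by norm_num)
  have h2 : ContinuousOn (fderiv ℝ (fderiv ℝ f)) Ω :=
    h1.continuousOn_fderiv_of_isOpen hΩ (by norm_num)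
  have h3 : ContinuousOn (fun q : V × V => fderiv ℝ (fderiv ℝ f) q.1) (Ω ×ˢ Set.univ) :=
    h2.comp continuousOn_fst (fun q hq => hq.1)
  have h4 : ContinuousOn (fun q : V × V => q.2) (Ω ×ˢ (Set.univ : Set V)) := continuousOn_snd
  have h5 : ContinuousOn (fun q : V × V => I • q.2) (Ω ×ˢ (Set.univ : Set V)) :=
    h4.const_smul I
  simp_rw [levi_eq']
  exact (((h3.clm_apply h4).clm_apply h4).add
    ((h3.clm_apply h5).clm_apply h5)).const_smul (4⁻¹ : ℝ)

/-- second derivative test -/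
theorem levi_nonpos_of_isLocalMax {V : Type*} [NormedAddCommGroup V] [NormedSpace ℂ V]
    {f : V → ℝ} {p : V} (hf : ContDiffAt ℝ 2 f p) (hm : IsLocalMax f p) (X : V) :
    levi f p X ≤ 0 := by
  have key : ∀ Y : V, fderiv ℝ (fderiv ℝ f) p Y Y ≤ 0 := by
    intro Y
    by_contra hcon
    push Not at hcon
    set g : ℝ → ℝ := fun t => f (p + t • Y) with hg
    have hγ : ∀ t : ℝ, HasDerivAt (fun t : ℝ => p + t • Y) Y t := fun t => by
      simpa using ((hasDerivAt_id t).smul_const Y).const_add p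
    have hγ0 : Filter.Tendsto (fun t : ℝ => p + t • Y) (𝓝 0) (𝓝 p) := by
      have h := (hγ 0).continuousAt.tendsto
      simpa only [zero_smul, add_zero] using h
    have hd1 : deriv g =ᶠ[𝓝 0] fun t => fderiv ℝ f (p + t • Y) Y := by
      filter_upwards [hγ0.eventually (hf.eventually (by simp))] with t ht
      exact ((ht.differentiableAt (by norm_num)).hasFDerivAt.comp_hasDerivAt t (hγ t)).deriv
    have hdd : deriv (deriv g) 0 = fderiv ℝ (fderiv ℝ f) p Y Y := by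
      rw [hd1.deriv_eq]
      have h1 : HasFDerivAt (fun q => fderiv ℝ f q Y) ((fderiv ℝ (fderiv ℝ f) p).flip Y)
          (p + (0 : ℝ) • Y) := by
        rw [zero_smul, add_zero]
        have h := (ContDiffAt.diff_fderiv hf).hasFDerivAt.clm_apply (hasFDerivAt_const Y p)
        refine h.congr_fderiv ?_
        ext v
        simp only [ContinuousLinearMap.comp_zero, zero_add, ContinuousLinearMap.flip_apply]
      have h2 : HasDerivAt ((fun q => fderiv ℝ f q Y) ∘ fun t : ℝ => p + t • Y)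
          ((fderiv ℝ (fderiv ℝ f) p).flip Y Y) 0 :=
        HasFDerivAt.comp_hasDerivAt (f := fun t : ℝ => p + t • Y) (0 : ℝ) h1 (hγ 0)
      change deriv ((fun q => fderiv ℝ f q Y) ∘ fun t : ℝ => p + t • Y) 0 = _
      rw [h2.deriv]
      rfl
    have hmax : IsLocalMax g 0 := by
      have h5 : ∀ᶠ t in 𝓝 (0 : ℝ), f (p + t • Y) ≤ f p := hγ0.eventually hm
      have h6 : g 0 = f p := by rw [hg]; simp only [zero_smul, add_zero]
      change ∀ᶠ t in 𝓝 (0 : ℝ), g t ≤ g 0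
      rw [h6]
      exact h5
    have hmin : IsLocalMin g 0 := by
      refine isLocalMin_of_deriv_deriv_pos (by rw [hdd]; exact hcon) hmax.deriv_eq_zero ?_
      have h0 : ContinuousAt f (p + (0 : ℝ) • Y) := by
        rw [zero_smul, add_zero]; exact hf.continuousAt
      exact ContinuousAt.comp (f := fun t : ℝ => p + t • Y) h0 (hγ 0).continuousAt
    have hconst : g =ᶠ[𝓝 0] fun _ => g 0 := by
      filter_upwards [hmax, hmin] with t h1 h2
      exact le_antisymm h1 h2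
    have h4 : deriv (deriv g) 0 = 0 := by
      rw [(hconst.deriv).deriv_eq]
      simp
    rw [hdd] at h4
    linarith only [hcon, h4]
  rw [levi_eq']
  have h1 := key X
  have h2 := key (I • X)
  simp only [smul_eq_mul]
  linarith only [h1, h2]

end cont

end Vale.Agent.P296
end
end

section

section

/-! Logarithms of homogeneous functions with positive Levi form. -/

namespace Vale.Agent.P296

open Complex Matrix
open scoped ContDiff ComplexOrder Topology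

namespace LogHom

variable {V W : Type*} [NormedAddCommGroup V] [NormedSpace ℂ V]
    [NormedAddCommGroup W] [NormedSpace ℂ W]

theorem levi_eq {E : Type*} [NormedAddCommGroup E] [NormedSpace ℂ E] (f : E → ℝ) (p X : E) :
    levi f p X = (4⁻¹ : ℝ) * (fderiv ℝ (fderiv ℝ f) p X X +
      fderiv ℝ (fderiv ℝ f) p (I • X) (I • X)) := by
  rw [levi, iteratedFDeriv_two_apply, iteratedFDeriv_two_apply, smul_eq_mul]
  rfl

/-- The second derivative of `log P`. -/
theorem fderiv2_log {E : Type*} [NormedAddCommGroup E] [NormedSpace ℝ E] {P : E → ℝ} {p : E}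
    (hP : ContDiffAt ℝ 2 P p) (hpos : 0 < P p) (X Y : E) :
    fderiv ℝ (fderiv ℝ (fun q => Real.log (P q))) p X Y =
      (P p)⁻¹ * fderiv ℝ (fderiv ℝ P) p X Y -
        (P p ^ 2)⁻¹ * (fderiv ℝ P p X * fderiv ℝ P p Y) := by
  have hev : ∀ᶠ q in 𝓝 p, DifferentiableAt ℝ P q ∧ 0 < P q := by
    have h1 : ∀ᶠ q in 𝓝 p, ContDiffAt ℝ 2 P q := hP.eventually (by simp)
    have h2 : ∀ᶠ q in 𝓝 p, 0 < P q := hP.continuousAt.eventually (eventually_gt_nhds hpos)
    filter_upwards [h1, h2] with q hq1 hq2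
    exact ⟨hq1.differentiableAt (by simp), hq2⟩
  have h1 : fderiv ℝ (fun q => Real.log (P q)) =ᶠ[𝓝 p] fun q => (P q)⁻¹ • fderiv ℝ P q := by
    filter_upwards [hev] with q hq
    exact (hq.1.hasFDerivAt.log hq.2.ne').fderiv
  rw [h1.fderiv_eq]
  have h2 : HasFDerivAt P (fderiv ℝ P p) p := (hP.differentiableAt (by simp)).hasFDerivAt
  have h3 : HasFDerivAt (fderiv ℝ P) (fderiv ℝ (fderiv ℝ P) p) p :=
    ((hP.fderiv_right (m := 1) (by norm_num)).differentiableAt (by simp)).hasFDerivAt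
  have h4 : HasFDerivAt (fun q => (P q)⁻¹) (-(P p ^ 2)⁻¹ • fderiv ℝ P p) p :=
    (hasDerivAt_inv hpos.ne').comp_hasFDerivAt p h2
  have h5 : fderiv ℝ (fun q => (P q)⁻¹ • fderiv ℝ P q) p =
      (P p)⁻¹ • fderiv ℝ (fderiv ℝ P) p +
        (-(P p ^ 2)⁻¹ • fderiv ℝ P p).smulRight (fderiv ℝ P p) := (h4.smul h3).fderiv
  rw [h5]
  simp
  ring

/-- Euler's relation: the derivative of a homogeneous function in the fibre directions. -/
theorem euler {P : V × W → ℝ} {q : V × W} {k : ℕ} (hP : DifferentiableAt ℝ P q)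
    (hhom : ∀ t : ℂ, t ≠ 0 → P (q.1, t • q.2) = ‖t‖ ^ (2 * k) * P q) (s : ℂ) :
    fderiv ℝ P q (0, s • q.2) = 2 * k * s.re * P q := by
  have hline : HasDerivAt (fun τ : ℝ => ((q.1, ((1 : ℂ) + (τ : ℂ) * s) • q.2) : V × W))
      (0, s • q.2) 0 := by
    have h1 : HasDerivAt (fun τ : ℝ => (1 : ℂ) + (τ : ℂ) * s) s 0 := by
      have := (((hasDerivAt_id (0 : ℝ)).ofReal_comp).mul_const s).const_add (1 : ℂ)
      simpa using this
    have h2 : HasDerivAt (fun τ : ℝ => ((1 : ℂ) + (τ : ℂ) * s) • q.2) (s • q.2) 0 :=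
      h1.smul_const q.2
    exact (hasDerivAt_const (0 : ℝ) q.1).prodMk h2
  have hq : ((q.1, ((1 : ℂ) + ((0 : ℝ) : ℂ) * s) • q.2) : V × W) = q := by simp
  have hPq : HasFDerivAt P (fderiv ℝ P q) (q.1, ((1 : ℂ) + ((0 : ℝ) : ℂ) * s) • q.2) := by
    rw [hq]
    exact hP.hasFDerivAt
  have h3 := hPq.comp_hasDerivAt (0 : ℝ) hline
  -- the other side
  have h4 : HasDerivAt (fun τ : ℝ => ((1 + τ * s.re) ^ 2 + (τ * s.im) ^ 2) ^ k * P q)
      (2 * k * s.re * P q) 0 := by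
    have h5 : HasDerivAt (fun τ : ℝ => (1 + τ * s.re) ^ 2 + (τ * s.im) ^ 2) (2 * s.re) 0 := by
      have h6 : HasDerivAt (fun τ : ℝ => (1 + τ * s.re) ^ 2 + (τ * s.im) ^ 2) _ 0 :=
        ((((hasDerivAt_id (0 : ℝ)).mul_const s.re).const_add 1).pow 2).add
          (((hasDerivAt_id (0 : ℝ)).mul_const s.im).pow 2)
      refine h6.congr_deriv ?_
      simp only [Nat.cast_ofNat, id_eq, zero_mul, add_zero, Nat.add_one_sub_one, one_pow, mul_one, one_mul, pow_one, mul_zero]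
    have h7 := (h5.pow k).mul_const (P q)
    refine h7.congr_deriv ?_
    have h10 : ((1 + 0 * s.re) ^ 2 + (0 * s.im) ^ 2 : ℝ) = 1 := by ring
    rw [h10, one_pow]
    ring
  have h8 : (fun τ : ℝ => P (q.1, ((1 : ℂ) + (τ : ℂ) * s) • q.2)) =ᶠ[𝓝 0]
      fun τ : ℝ => ((1 + τ * s.re) ^ 2 + (τ * s.im) ^ 2) ^ k * P q := by
    have h9 : ∀ᶠ τ : ℝ in 𝓝 0, (1 : ℂ) + (τ : ℂ) * s ≠ 0 := by
      have hc : Continuous (fun τ : ℝ => (1 : ℂ) + (τ : ℂ) * s) := by fun_prop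
      refine hc.continuousAt.eventually_ne ?_
      simp
    filter_upwards [h9] with τ hτ
    rw [hhom _ hτ, pow_mul, ← Complex.normSq_eq_norm_sq, Complex.normSq_apply]
    congr 2
    simp only [add_re, one_re, mul_re, ofReal_re, ofReal_im, zero_mul, sub_zero, add_im, one_im, mul_im, add_zero, zero_add]
    ring
  exact (h3.congr_of_eventuallyEq h8.symm).unique h4

/-- The second derivative of a homogeneous function in a fibre direction. -/
theorem euler2 {P : V × W → ℝ} {p : V × W} {k : ℕ} (hP : ContDiffAt ℝ 2 P p)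
    (hhom : ∀ᶠ q in 𝓝 p, ∀ t : ℂ, t ≠ 0 → P (q.1, t • q.2) = ‖t‖ ^ (2 * k) * P q)
    (s : ℂ) (X : V × W) :
    fderiv ℝ (fderiv ℝ P) p X (0, s • p.2) =
      2 * k * s.re * fderiv ℝ P p X - fderiv ℝ P p (0, s • X.2) := by
  have hev : ∀ᶠ q in 𝓝 p, DifferentiableAt ℝ P q := by
    have h1 : ∀ᶠ q in 𝓝 p, ContDiffAt ℝ 2 P q := hP.eventually (by simp)
    exact h1.mono (fun q hq => hq.differentiableAt (by simp))
  have h1 : (fun q : V × W => fderiv ℝ P q (0, s • q.2)) =ᶠ[𝓝 p]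
      fun q => 2 * k * s.re * P q := by
    filter_upwards [hev, hhom] with q hq1 hq2
    exact euler hq1 hq2 s
  have h2 : HasFDerivAt P (fderiv ℝ P p) p := (hP.differentiableAt (by simp)).hasFDerivAt
  have h3 : HasFDerivAt (fderiv ℝ P) (fderiv ℝ (fderiv ℝ P) p) p :=
    ((hP.fderiv_right (m := 1) (by norm_num)).differentiableAt (by simp)).hasFDerivAt
  -- the linear map `q ↦ (0, s • q.2)`
  let L : (V × W) →L[ℝ] (V × W) := (0 : (V × W) →L[ℝ] V).prod
    ((s • ContinuousLinearMap.snd ℂ V W).restrictScalars ℝ)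
  have hL : ∀ q : V × W, L q = (0, s • q.2) := fun q => rfl
  have h4 : HasFDerivAt (fun q : V × W => fderiv ℝ P q (L q))
      ((fderiv ℝ P p).comp L + (fderiv ℝ (fderiv ℝ P) p).flip (L p)) p :=
    h3.clm_apply L.hasFDerivAt
  have h5 : HasFDerivAt (fun q : V × W => fderiv ℝ P q (L q))
      ((2 * k * s.re) • fderiv ℝ P p) p :=
    (h2.const_mul (2 * k * s.re)).congr_of_eventuallyEq h1
  have h6 := congrArg (fun A : (V × W) →L[ℝ] ℝ => A X) (h4.unique h5)
  simp only [_root_.add_apply, ContinuousLinearMap.comp_apply,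
    ContinuousLinearMap.flip_apply, _root_.smul_apply, smul_eq_mul, hL] at h6
  linarith

end LogHom

open LogHom

/-- If `P` is `|t|^{2k}`-homogeneous in `u`, positive, with positive Levi form, then `log P` has
positive Levi form in nonradial directions. -/
theorem levi_log_pos {V W : Type*} [NormedAddCommGroup V] [NormedSpace ℂ V]
    [NormedAddCommGroup W] [NormedSpace ℂ W] {P : V × W → ℝ} {z : V} {u : W} {k : ℕ} (hk : 0 < k)
    (hP : ContDiffAt ℝ 2 P (z, u)) (hpos : 0 < P (z, u))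
    (hhom : ∀ᶠ q in 𝓝 ((z, u) : V × W), ∀ t : ℂ, t ≠ 0 → P (q.1, t • q.2) = ‖t‖ ^ (2 * k) * P q)
    (hlevi : ∀ X : V × W, X ≠ 0 → 0 < levi P (z, u) X)
    (ξ : V) (w : W) (hX : ¬ (ξ = 0 ∧ ∃ c : ℂ, w = c • u)) :
    0 < levi (fun q => Real.log (P q)) (z, u) (ξ, w) := by
  set p : V × W := (z, u) with hp
  set X : V × W := (ξ, w) with hXdef
  set D := fderiv ℝ P p with hD
  set B := fderiv ℝ (fderiv ℝ P) p with hB
  have hk' : (0 : ℝ) < k := by exact_mod_cast hk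
  -- symmetry of the second derivative
  have hsym : ∀ Y Z : V × W, B Y Z = B Z Y := fun Y Z =>
    (hP.isSymmSndFDerivAt (by simp)).eq Y Z
  set R : V × W := (0, u) with hR
  set R' : V × W := (0, I • u) with hR'
  have hRX : I • R = R' := by
    rw [hR, hR', Prod.smul_mk, smul_zero]
  -- Euler relations
  have e1 : ∀ Y : V × W, B Y R = 2 * k * D Y - D (0, Y.2) := by
    intro Y
    have := euler2 hP hhom 1 Y
    simpa only [one_smul, one_re, mul_one] using this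
  have e2 : ∀ Y : V × W, B Y R' = - D (0, I • Y.2) := by
    intro Y
    have := euler2 hP hhom I Y
    simpa only [I_re, mul_zero, zero_mul, zero_sub] using this
  have hdiff : DifferentiableAt ℝ P p := hP.differentiableAt (by simp)
  have d1 : D R = 2 * k * P p := by
    have := euler hdiff hhom.self_of_nhds 1
    simpa only [one_smul, one_re, mul_one] using this
  have d2 : D R' = 0 := by
    have := euler hdiff hhom.self_of_nhds I
    simpa only [I_re, mul_zero, zero_mul] using this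
  have hneg : ∀ v : W, D ((0 : V), I • (I • v)) = - D (0, v) := by
    intro v
    rw [smul_smul, I_mul_I, neg_one_smul]
    have : ((0 : V), -v) = -((0 : V), v) := by simp
    rw [this, map_neg]
  -- values of the second derivative
  have b1 : B X R = 2 * k * D X - D (0, w) := e1 X
  have b2 : B (I • X) R = 2 * k * D (I • X) - D (0, I • w) := e1 (I • X)
  have b3 : B X R' = - D (0, I • w) := e2 X
  have b4 : B (I • X) R' = D (0, w) := by
    have h := e2 (I • X)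
    have h' : (I • X).2 = I • w := rfl
    rw [h', hneg, neg_neg] at h
    exact h
  have b5 : B R R = (2 * k - 1) * (2 * k * P p) := by
    have h := e1 R
    have h' : ((0 : V), R.2) = R := rfl
    rw [h', d1] at h
    rw [h]
    ring
  have b6 : B R R' = 0 := by
    have h := e2 R
    have h' : ((0 : V), I • R.2) = R' := rfl
    rw [h', d2, neg_zero] at h
    exact h
  have b7 : B R' R' = 2 * k * P p := by
    have h := e2 R'
    have h' : ((0 : V), I • R'.2) = ((0 : V), I • (I • u)) := rfl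
    rw [h', hneg, neg_neg] at h
    rw [h]
    exact d1
  set x := D X with hx
  set x' := D (I • X) with hx'
  set α : ℝ := x / (2 * k * P p) with hα
  set β : ℝ := - x' / (2 * k * P p) with hβ
  set Y : V × W := X - α • R - β • R' with hY
  have hIR' : I • R' = -R := by
    rw [← hRX, smul_smul, I_mul_I, neg_one_smul]
  have hIY : I • Y = I • X - α • R' + β • R := by
    rw [hY, smul_sub, smul_sub, smul_comm I α R, smul_comm I β R', hRX, hIR', smul_neg,
      sub_neg_eq_add]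
  have hYne : Y ≠ 0 := by
    intro h0
    apply hX
    have h1 : Y.1 = 0 := by rw [h0]; rfl
    have h2 : Y.2 = 0 := by rw [h0]; rfl
    have h3 : Y.1 = ξ - α • (0 : V) - β • (0 : V) := rfl
    have h4 : Y.2 = w - α • u - β • (I • u) := rfl
    rw [h3, smul_zero, smul_zero, sub_zero, sub_zero] at h1
    refine ⟨h1, (α : ℂ) + (β : ℂ) * I, ?_⟩
    rw [h4] at h2
    rw [add_smul, mul_smul, Complex.coe_smul, Complex.coe_smul]
    rw [sub_sub, sub_eq_zero] at h2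
    exact h2
  have hBY : B Y Y = B X X + α ^ 2 * B R R + β ^ 2 * B R' R' - 2 * α * B X R - 2 * β * B X R' +
      2 * α * β * B R R' := by
    rw [hY]
    simp only [map_sub, map_smul, _root_.sub_apply, _root_.smul_apply, smul_eq_mul]
    rw [hsym R X, hsym R' X, hsym R' R]
    ring
  have hBIY : B (I • Y) (I • Y) = B (I • X) (I • X) + α ^ 2 * B R' R' + β ^ 2 * B R R -
      2 * α * B (I • X) R' + 2 * β * B (I • X) R - 2 * α * β * B R R' := by
    rw [hIY]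
    simp only [map_add, map_sub, map_smul, _root_.add_apply, _root_.sub_apply, _root_.smul_apply, smul_eq_mul]
    rw [hsym R (I • X), hsym R' (I • X), hsym R' R]
    ring
  have key : levi (fun q => Real.log (P q)) p X = (P p)⁻¹ * levi P p Y := by
    rw [levi_eq, levi_eq, fderiv2_log hP hpos, fderiv2_log hP hpos]
    change 4⁻¹ * ((P p)⁻¹ * B X X - (P p ^ 2)⁻¹ * (x * x) +
      ((P p)⁻¹ * B (I • X) (I • X) - (P p ^ 2)⁻¹ * (x' * x'))) =
      (P p)⁻¹ * (4⁻¹ * (B Y Y + B (I • Y) (I • Y)))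
    rw [hBY, hBIY, b1, b2, b3, b4, b5, b6, b7, hα, hβ]
    field_simp
    ring
  rw [key]
  exact mul_pos (inv_pos.2 hpos) (hlevi Y hYne)

end Vale.Agent.P296
end
end

section

section

open Set Filter Metric Topology

namespace Vale.Agent.P296.HolOs

variable {E F : Type*} [NormedAddCommGroup E] [NormedSpace ℂ E]
  [NormedAddCommGroup F] [NormedSpace ℂ F]

/-- Cauchy estimate for the Frechet derivative. -/
theorem norm_fderiv_le_of_ball {f : E → F} {x : E} {r C : ℝ} (hr : 0 < r)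
    (hf : DifferentiableOn ℂ f (ball x r)) (hC : ∀ y ∈ ball x r, ‖f y‖ ≤ C) :
    ‖fderiv ℂ f x‖ ≤ C / r := by
  have hC0 : 0 ≤ C := (norm_nonneg _).trans (hC x (mem_ball_self hr))
  have hfx : DifferentiableAt ℂ f x := hf.differentiableAt (ball_mem_nhds x hr)
  refine ContinuousLinearMap.opNorm_le_bound _ (by positivity) fun v => ?_
  rcases eq_or_ne v 0 with rfl | hv
  · simp
  have hv' : 0 < ‖v‖ := norm_pos_iff.2 hv
  have hder : deriv (fun t : ℂ => f (x + t • v)) 0 = fderiv ℂ f x v := by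
    have h1 : HasDerivAt (fun t : ℂ => x + t • v) v 0 := by
      simpa using ((hasDerivAt_id (0 : ℂ)).smul_const v).const_add x
    have h2 : HasFDerivAt f (fderiv ℂ f x) (x + (0 : ℂ) • v) := by simpa using hfx.hasFDerivAt
    exact (h2.comp_hasDerivAt (0 : ℂ) h1).deriv
  have hmem : ∀ t ∈ ball (0 : ℂ) (r / ‖v‖), x + t • v ∈ ball x r := by
    intro t ht
    rw [mem_ball_zero_iff] at ht
    rw [mem_ball, dist_eq_norm, add_sub_cancel_left, norm_smul]
    exact (lt_div_iff₀ hv').1 ht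
  have hd : DifferentiableOn ℂ (fun t : ℂ => f (x + t • v)) (ball 0 (r / ‖v‖)) := by
    refine hf.comp ?_ hmem
    fun_prop
  rw [← hder]
  have key : ∀ s : ℝ, 0 < s → s < r / ‖v‖ → ‖deriv (fun t : ℂ => f (x + t • v)) 0‖ ≤ C / s := by
    intro s hs hs'
    apply Complex.norm_deriv_le_of_forall_mem_sphere_norm_le hs
    · exact (hd.mono (closedBall_subset_ball hs')).diffContOnCl_ball (le_refl _) |>.mono (le_refl _)
    · intro z hz
      exact hC _ (hmem z (by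
        rw [mem_sphere_zero_iff_norm] at hz
        rw [mem_ball_zero_iff, hz]; exact hs'))
  have hlim : Tendsto (fun s : ℝ => C / s) (𝓝[<] (r / ‖v‖)) (𝓝 (C / (r / ‖v‖))) := by
    apply tendsto_nhdsWithin_of_tendsto_nhds
    exact tendsto_const_nhds.div tendsto_id (by positivity)
  have hev : ∀ᶠ s : ℝ in 𝓝[<] (r / ‖v‖), ‖deriv (fun t : ℂ => f (x + t • v)) 0‖ ≤ C / s := by
    have : Ioo 0 (r / ‖v‖) ∈ 𝓝[<] (r / ‖v‖) := Ioo_mem_nhdsLT (by positivity)
    filter_upwards [this] with s hs using key s hs.1 hs.2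
  have := ge_of_tendsto hlim hev
  calc _ ≤ C / (r / ‖v‖) := this
    _ = C / r * ‖v‖ := by (clear * - hv hr; field_simp)

/-- The Frechet derivative of a holomorphic function is continuous. -/
theorem continuousOn_fderiv_of_differentiableOn [FiniteDimensional ℂ E] {f : E → F} {U : Set E}
    (hU : IsOpen U) (hf : DifferentiableOn ℂ f U) : ContinuousOn (fderiv ℂ f) U := by
  have : ProperSpace E := FiniteDimensional.proper ℂ E
  intro x hx
  apply ContinuousAt.continuousWithinAt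
  obtain ⟨r, hr, hrU⟩ : ∃ r > 0, closedBall x (2 * r) ⊆ U := by
    obtain ⟨r, hr, h⟩ := Metric.isOpen_iff.1 hU x hx
    exact ⟨r / 4, by positivity, (closedBall_subset_ball (by linarith only [hr])).trans h⟩
  have hunif : UniformContinuousOn f (closedBall x (2 * r)) :=
    (isCompact_closedBall x (2 * r)).uniformContinuousOn_of_continuous (hf.continuousOn.mono hrU)
  rw [Metric.continuousAt_iff]
  intro ε hε
  obtain ⟨δ, hδ, hδf⟩ := Metric.uniformContinuousOn_iff.1 hunif (ε * r / 2) (by positivity)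
  refine ⟨min δ r, by positivity, fun {y} hy => ?_⟩
  have hyδ : dist y x < δ := hy.trans_le (min_le_left _ _)
  have hyr : dist y x < r := hy.trans_le (min_le_right _ _)
  have hxm : ∀ h ∈ ball (0 : E) r, x + h ∈ closedBall x (2 * r) := by
    intro h hh
    rw [mem_ball_zero_iff] at hh
    rw [mem_closedBall, dist_eq_norm, add_sub_cancel_left]; linarith only [hr, hh]
  have hym : ∀ h ∈ ball (0 : E) r, y + h ∈ closedBall x (2 * r) := by
    intro h hh
    rw [mem_ball_zero_iff] at hh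
    rw [mem_closedBall, dist_eq_norm]
    calc ‖y + h - x‖ = ‖(y - x) + h‖ := by congr 1; abel
      _ ≤ ‖y - x‖ + ‖h‖ := norm_add_le _ _
      _ ≤ 2 * r := by rw [← dist_eq_norm]; linarith only [hyr, hh]
  have hdx : DifferentiableAt ℂ f x := hf.differentiableAt (hU.mem_nhds hx)
  have hyU : y ∈ U := hrU (by simpa only [mem_closedBall, add_zero] using hym 0 (mem_ball_self hr))
  have hdy : DifferentiableAt ℂ f y := hf.differentiableAt (hU.mem_nhds hyU)
  have h1 : HasFDerivAt (fun h : E => f (y + h) - f (x + h)) (fderiv ℂ f y - fderiv ℂ f x) 0 := by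
    have hy1 : HasFDerivAt (fun h : E => f (y + h)) (fderiv ℂ f y) 0 := by
      have := (show HasFDerivAt f (fderiv ℂ f y) (y + 0) by simpa using hdy.hasFDerivAt)
      have h3 := this.comp (0 : E) ((hasFDerivAt_id (0 : E)).const_add y)
      rw [ContinuousLinearMap.comp_id] at h3
      exact h3
    have hx1 : HasFDerivAt (fun h : E => f (x + h)) (fderiv ℂ f x) 0 := by
      have := (show HasFDerivAt f (fderiv ℂ f x) (x + 0) by simpa using hdx.hasFDerivAt)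
      have h3 := this.comp (0 : E) ((hasFDerivAt_id (0 : E)).const_add x)
      rw [ContinuousLinearMap.comp_id] at h3
      exact h3
    exact hy1.sub hx1
  have h2 : ‖fderiv ℂ (fun h : E => f (y + h) - f (x + h)) 0‖ ≤ (ε * r / 2) / r := by
    apply norm_fderiv_le_of_ball hr
    · apply DifferentiableOn.sub
      · exact hf.comp (by fun_prop) fun h hh => hrU (hym h hh)
      · exact hf.comp (by fun_prop) fun h hh => hrU (hxm h hh)
    · intro h hh
      have := hδf (y + h) (hym h hh) (x + h) (hxm h hh) (by simpa using hyδ)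
      rw [dist_eq_norm] at this
      exact this.le
  rw [h1.fderiv] at h2
  rw [dist_eq_norm]
  calc _ ≤ (ε * r / 2) / r := h2
    _ = ε / 2 := by (clear * - hr hε; field_simp)
    _ < ε := by linarith only [hε]

/-- Holomorphic dependence of circle integrals on parameters. -/
theorem differentiableOn_circleIntegral [FiniteDimensional ℂ E] [CompleteSpace F]
    {G : E × ℂ → F} {U : Set E} {W : Set ℂ} {c : ℂ} {R : ℝ} (hR : 0 ≤ R)
    (hU : IsOpen U) (hW : IsOpen W) (hsW : sphere c R ⊆ W)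
    (hG : DifferentiableOn ℂ G (U ×ˢ W)) :
    DifferentiableOn ℂ (fun x => ∮ t in C(c, R), G (x, t)) U := by
  have : ProperSpace E := FiniteDimensional.proper ℂ E
  intro x₀ hx₀
  apply DifferentiableAt.differentiableWithinAt
  have hUW : IsOpen (U ×ˢ W) := hU.prod hW
  -- bound near `x₀`
  obtain ⟨r, hr, hrU⟩ : ∃ r > 0, closedBall x₀ (2 * r) ⊆ U := by
    obtain ⟨r, hr, h⟩ := Metric.isOpen_iff.1 hU x₀ hx₀
    exact ⟨r / 4, by positivity, (closedBall_subset_ball (by linarith only [hr])).trans h⟩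
  have hcomp : IsCompact (closedBall x₀ (2 * r) ×ˢ sphere c R) :=
    (isCompact_closedBall _ _).prod (isCompact_sphere _ _)
  have hsub : closedBall x₀ (2 * r) ×ˢ sphere c R ⊆ U ×ˢ W := prod_mono hrU hsW
  obtain ⟨C, hC⟩ := hcomp.exists_bound_of_continuousOn (hG.continuousOn.mono hsub)
  have hcirc : ∀ θ : ℝ, circleMap c R θ ∈ sphere c R := fun θ => circleMap_mem_sphere c hR θ
  have hdG : ∀ x ∈ ball x₀ (2 * r), ∀ t ∈ sphere c R,
      HasFDerivAt (fun x => G (x, t))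
        ((fderiv ℂ G (x, t)).comp (ContinuousLinearMap.inl ℂ E ℂ)) x := by
    intro x hx t ht
    have h1 : DifferentiableAt ℂ G (x, t) :=
      hG.differentiableAt (hUW.mem_nhds ⟨hrU (ball_subset_closedBall hx), hsW ht⟩)
    have h2 : HasFDerivAt (fun x : E => (x, t)) (ContinuousLinearMap.inl ℂ E ℂ) x :=
      hasFDerivAt_prodMk_left x t
    exact h1.hasFDerivAt.comp x h2
  have hbound : ∀ x ∈ ball x₀ r, ∀ t ∈ sphere c R,
      ‖(fderiv ℂ G (x, t)).comp (ContinuousLinearMap.inl ℂ E ℂ)‖ ≤ C / r := by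
    intro x hx t ht
    have hxb : ball x r ⊆ ball x₀ (2 * r) := by
      intro y hy
      rw [mem_ball] at hx hy ⊢
      calc dist y x₀ ≤ dist y x + dist x x₀ := dist_triangle _ _ _
        _ < 2 * r := by linarith only [hx, hy]
    have hx2 : x ∈ ball x₀ (2 * r) := hxb (mem_ball_self hr)
    rw [← (hdG x hx2 t ht).fderiv]
    apply norm_fderiv_le_of_ball hr
    · intro y hy
      exact (hdG y (hxb hy) t ht).differentiableAt.differentiableWithinAt
    · intro y hy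
      exact hC (y, t) ⟨ball_subset_closedBall (hxb hy), ht⟩
  have hcontD : ContinuousOn (fderiv ℂ G) (U ×ˢ W) := continuousOn_fderiv_of_differentiableOn hUW hG
  have hcd : Continuous (deriv (circleMap c R)) := by
    have : deriv (circleMap c R) = fun θ => circleMap 0 R θ * Complex.I := by
      ext θ; exact deriv_circleMap c R θ
    rw [this]
    exact (continuous_circleMap 0 R).mul continuous_const
  simp only [circleIntegral]
  have key := hasFDerivAt_integral_of_dominated_of_fderiv_le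
    (μ := MeasureTheory.volume.restrict (Set.uIoc 0 (2 * Real.pi)))
    (F := fun (x : E) (θ : ℝ) => deriv (circleMap c R) θ • G (x, circleMap c R θ))
    (F' := fun (x : E) (θ : ℝ) => deriv (circleMap c R) θ •
      ((fderiv ℂ G (x, circleMap c R θ)).comp (ContinuousLinearMap.inl ℂ E ℂ)))
    (x₀ := x₀) (s := ball x₀ r) (bound := fun _ => |R| * (C / r)) (𝕜 := ℂ)
    (ball_mem_nhds x₀ hr) ?_ ?_ ?_ ?_ ?_ ?_
  · have h0 : (0 : ℝ) ≤ 2 * Real.pi := by positivity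
    simp only [intervalIntegral.integral_of_le h0, Set.uIoc_of_le h0] at key ⊢
    exact key.differentiableAt
  · filter_upwards [ball_mem_nhds x₀ hr] with x hx
    apply ContinuousOn.aestronglyMeasurable _ measurableSet_uIoc
    refine hcd.continuousOn.smul ?_
    · refine hG.continuousOn.comp (by (clear * -; fun_prop)) fun θ _ => ?_
      exact ⟨hrU (ball_subset_closedBall (ball_subset_ball (by linarith only [hr]) hx)), hsW (hcirc θ)⟩
  · have hci : CircleIntegrable (fun t => G (x₀, t)) c R := by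
      apply ContinuousOn.circleIntegrable hR
      refine hG.continuousOn.comp (by fun_prop) fun t ht => ?_
      exact ⟨hx₀, hsW ht⟩
    have := hci.out
    rw [intervalIntegrable_iff] at this
    exact this
  · apply ContinuousOn.aestronglyMeasurable _ measurableSet_uIoc
    refine hcd.continuousOn.smul ?_
    · have h1 : ContinuousOn (fun θ : ℝ => fderiv ℂ G (x₀, circleMap c R θ))
          (Set.uIoc 0 (2 * Real.pi)) := by
        refine hcontD.comp (by fun_prop) fun θ _ => ?_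
        exact ⟨hx₀, hsW (hcirc θ)⟩
      exact h1.clm_comp continuousOn_const
  · refine Eventually.of_forall fun θ x hx => ?_
    rw [norm_smul]
    have : ‖deriv (circleMap c R) θ‖ = |R| := by simp [deriv_circleMap]
    rw [this]
    exact mul_le_mul_of_nonneg_left (hbound x hx _ (hcirc θ)) (abs_nonneg R)
  · rw [Set.uIoc_of_le (by positivity)]
    exact MeasureTheory.integrable_const _
  · refine Eventually.of_forall fun θ x hx => ?_
    exact (hdG x (ball_subset_ball (by linarith only [hr]) hx) _ (hcirc θ)).const_smul _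

/-- Directional derivatives of holomorphic functions are holomorphic. -/
theorem differentiableOn_fderiv_apply [FiniteDimensional ℂ E] [CompleteSpace F] {f : E → F}
    {U : Set E} (hU : IsOpen U) (hf : DifferentiableOn ℂ f U) (v : E) :
    DifferentiableOn ℂ (fun x => fderiv ℂ f x v) U := by
  have : ProperSpace E := FiniteDimensional.proper ℂ E
  intro x₀ hx₀
  apply DifferentiableAt.differentiableWithinAt
  obtain ⟨r, hr, hrU⟩ : ∃ r > 0, ball x₀ (2 * r) ⊆ U := by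
    obtain ⟨r, hr, h⟩ := Metric.isOpen_iff.1 hU x₀ hx₀
    exact ⟨r / 4, by positivity, (ball_subset_ball (by linarith only [hr])).trans h⟩
  -- radius for the scalar variable
  set s : ℝ := r / (‖v‖ + 1) / 2 with hs_def
  have hv1 : 0 < ‖v‖ + 1 := by positivity
  have hs : 0 < s := by positivity
  have hmem : ∀ x ∈ ball x₀ r, ∀ t ∈ ball (0 : ℂ) (2 * s), x + t • v ∈ ball x₀ (2 * r) := by
    intro x hx t ht
    rw [mem_ball_zero_iff] at ht
    rw [mem_ball, dist_eq_norm] at hx ⊢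
    have h1 : ‖t • v‖ ≤ r := by
      rw [norm_smul]
      calc ‖t‖ * ‖v‖ ≤ (2 * s) * (‖v‖ + 1) := by gcongr; linarith only []
        _ = r := by rw [hs_def]; (clear * - hr; field_simp)
    calc ‖x + t • v - x₀‖ = ‖(x - x₀) + t • v‖ := by congr 1; abel
      _ ≤ ‖x - x₀‖ + ‖t • v‖ := norm_add_le _ _
      _ < 2 * r := by linarith only [hx, h1]
  have hG : DifferentiableOn ℂ (fun p : E × ℂ => (p.2 ^ 2)⁻¹ • f (p.1 + p.2 • v))
      (ball x₀ r ×ˢ (ball (0 : ℂ) (2 * s) \ {0})) := by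
    apply DifferentiableOn.smul
    · apply DifferentiableOn.inv
      · fun_prop
      · intro p hp
        exact pow_ne_zero 2 hp.2.2
    · refine hf.comp (by fun_prop) fun p hp => hrU (hmem p.1 hp.1 p.2 hp.2.1)
  have hsW : sphere (0 : ℂ) s ⊆ ball (0 : ℂ) (2 * s) \ {0} := by
    intro t ht
    rw [mem_sphere_zero_iff_norm] at ht
    refine ⟨by rw [mem_ball_zero_iff, ht]; linarith only [hs], fun h => ?_⟩
    rw [mem_singleton_iff] at h
    rw [h, norm_zero] at ht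
    exact hs.ne ht
  have key := differentiableOn_circleIntegral (c := 0) (R := s) hs.le isOpen_ball
    (isOpen_ball.sdiff isClosed_singleton) hsW hG
  have hEq : ∀ x ∈ ball x₀ r, fderiv ℂ f x v =
      (2 * Real.pi * Complex.I : ℂ)⁻¹ • ∮ t in C(0, s), (t ^ 2)⁻¹ • f (x + t • v) := by
    intro x hx
    have hfx : DifferentiableAt ℂ f x :=
      hf.differentiableAt (hU.mem_nhds (hrU (ball_subset_ball (by linarith only [hr]) hx)))
    have hder : deriv (fun t : ℂ => f (x + t • v)) 0 = fderiv ℂ f x v := by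
      have h1 : HasDerivAt (fun t : ℂ => x + t • v) v 0 := by
        simpa using ((hasDerivAt_id (0 : ℂ)).smul_const v).const_add x
      have h2 : HasFDerivAt f (fderiv ℂ f x) (x + (0 : ℂ) • v) := by simpa using hfx.hasFDerivAt
      exact (h2.comp_hasDerivAt (0 : ℂ) h1).deriv
    rw [← hder]
    have hd : DiffContOnCl ℂ (fun t : ℂ => f (x + t • v)) (ball 0 s) := by
      have : DifferentiableOn ℂ (fun t : ℂ => f (x + t • v)) (ball 0 (2 * s)) :=
        hf.comp (by fun_prop) fun t ht => hrU (hmem x hx t ht)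
      exact (this.mono (closedBall_subset_ball (by linarith only [hs]))).diffContOnCl_ball (le_refl _)
    have h3 := hd.deriv_eq_smul_circleIntegral hs
    simp only [sub_zero, one_div] at h3
    rw [h3, inv_smul_smul₀ Complex.two_pi_I_ne_zero]
  have h2 : DifferentiableAt ℂ (fun x => (2 * Real.pi * Complex.I : ℂ)⁻¹ •
      ∮ t in C(0, s), (t ^ 2)⁻¹ • f (x + t • v)) x₀ :=
    (key.differentiableAt (ball_mem_nhds x₀ hr)).const_smul _
  refine h2.congr_of_eventuallyEq ?_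
  filter_upwards [ball_mem_nhds x₀ hr] with x hx using hEq x hx

theorem contDiffOn_of_differentiableOn [FiniteDimensional ℂ E] [CompleteSpace F] {f : E → F}
    {U : Set E} (hU : IsOpen U) (hf : DifferentiableOn ℂ f U) (n : ℕ) :
    ContDiffOn ℂ n f U := by
  induction n generalizing f with
  | zero => exact_mod_cast contDiffOn_zero.2 hf.continuousOn
  | succ n ih =>
    rw [Nat.cast_add, Nat.cast_one, contDiffOn_succ_iff_fderiv_of_isOpen hU]
    refine ⟨hf, by simp, ?_⟩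
    rw [contDiffOn_clm_apply]
    exact fun v => ih (differentiableOn_fderiv_apply hU hf v)

end Vale.Agent.P296.HolOs
end
end

section

section

/-! # P296, T7: ampleness from a homogeneous function with positive Levi form -/

namespace Vale.Agent.P296
open Complex Matrix
open scoped ContDiff ComplexOrder Topology

namespace Ample

/-- holomorphic functions on open subsets of `ℂⁿ` are `C²` -/
theorem contDiffAt_two {n : ℕ} {f : (Fin n → ℂ) → ℂ} {U : Set (Fin n → ℂ)} (hU : IsOpen U)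
    (hf : DifferentiableOn ℂ f U) {z : Fin n → ℂ} (hz : z ∈ U) : ContDiffAt ℂ 2 f z :=
  (HolOs.contDiffOn_of_differentiableOn hU hf 2).contDiffAt (hU.mem_nhds hz)

variable {n r : ℕ}

/-- change of trivialisation -/
noncomputable def Th (l : Fin n → ℂ) (G : (Fin n → ℂ) → Matrix (Fin r) (Fin r) ℂ)
    (p : (Fin n → ℂ) × (Fin r → ℂ)) : (Fin n → ℂ) × (Fin r → ℂ) :=
  (p.1 + l, p.2 ᵥ* G p.1)

theorem contDiffAt_Th {l : Fin n → ℂ} {G : (Fin n → ℂ) → Matrix (Fin r) (Fin r) ℂ}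
    {z : Fin n → ℂ} {u : Fin r → ℂ} (hG : ∀ a b, ContDiffAt ℂ 2 (fun z => G z a b) z) :
    ContDiffAt ℂ 2 (Th l G) (z, u) := by
  unfold Th
  apply ContDiffAt.prodMk
  · exact contDiffAt_fst.add contDiffAt_const
  · rw [contDiffAt_pi]
    intro b
    have : (fun p : (Fin n → ℂ) × (Fin r → ℂ) => (p.2 ᵥ* G p.1) b) =
        fun p => ∑ a, p.2 a * G p.1 a b := by
      ext p
      rfl
    rw [this]
    apply ContDiffAt.sum
    intro a _
    have h1 : ContDiffAt ℂ 2 (fun p : (Fin n → ℂ) × (Fin r → ℂ) => p.2 a) (z, u) :=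
      (contDiff_apply ℂ ℂ a).contDiffAt.comp (z, u) contDiffAt_snd
    have h2 : ContDiffAt ℂ 2 (fun p : (Fin n → ℂ) × (Fin r → ℂ) => G p.1 a b) (z, u) :=
      ContDiffAt.comp (z, u) (g := fun z => G z a b) (hG a b) contDiffAt_fst
    exact h1.mul h2

theorem fderiv_Th_fst {l : Fin n → ℂ} {G : (Fin n → ℂ) → Matrix (Fin r) (Fin r) ℂ}
    {z : Fin n → ℂ} {u : Fin r → ℂ} (hG : ∀ a b, ContDiffAt ℂ 2 (fun z => G z a b) z)
    (X : (Fin n → ℂ) × (Fin r → ℂ)) : (fderiv ℂ (Th l G) (z, u) X).1 = X.1 := by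
  have h := ((contDiffAt_Th (l := l) (u := u) hG).differentiableAt (by norm_num)).hasFDerivAt
  have h1 : HasFDerivAt (fun p => (Th l G p).1) _ (z, u) := h.fst
  have h2 : HasFDerivAt (fun p : (Fin n → ℂ) × (Fin r → ℂ) => p.1 + l)
      (ContinuousLinearMap.fst ℂ (Fin n → ℂ) (Fin r → ℂ)) (z, u) :=
    hasFDerivAt_fst.add_const l
  have h3 := h1.unique h2
  have := congrArg (fun L => L X) h3
  simpa only [ContinuousLinearMap.comp_apply, ContinuousLinearMap.coe_fst'] using this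

theorem fderiv_Th_vert {l : Fin n → ℂ} {G : (Fin n → ℂ) → Matrix (Fin r) (Fin r) ℂ}
    {z : Fin n → ℂ} {u : Fin r → ℂ} (hG : ∀ a b, ContDiffAt ℂ 2 (fun z => G z a b) z)
    (w : Fin r → ℂ) : (fderiv ℂ (Th l G) (z, u) (0, w)).2 = w ᵥ* G z := by
  have h := ((contDiffAt_Th (l := l) (u := u) hG).differentiableAt (by norm_num)).hasFDerivAt
  have hline : HasFDerivAt (fun v : Fin r → ℂ => ((z, v) : (Fin n → ℂ) × (Fin r → ℂ)))
      (ContinuousLinearMap.inr ℂ (Fin n → ℂ) (Fin r → ℂ)) u := hasFDerivAt_prodMk_right z u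
  have h1 : HasFDerivAt (fun v : Fin r → ℂ => (Th l G (z, v)).2) _ u := (h.comp u hline).snd
  have h2 : HasFDerivAt (fun v : Fin r → ℂ => v ᵥ* G z)
      (LinearMap.toContinuousLinearMap (Matrix.vecMulLinear (G z))) u :=
    (LinearMap.toContinuousLinearMap (Matrix.vecMulLinear (G z))).hasFDerivAt
  have h3 := h1.unique h2
  have := congrArg (fun L => L w) h3
  simpa using this

end Ample

open Ample

/-- positivity has to be checked only at one representative of each point of the torus -/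
theorem isAmple_of_P {n r : ℕ} {Λ : AddSubgroup (Fin n → ℂ)} (E : TorusBundle Λ r) (k : ℕ)
    (hk : 0 < k) (P : E.ι → (Fin n → ℂ) × (Fin r → ℂ) → ℝ)
    (smooth : ∀ i, ContDiffOn ℝ ∞ (P i) {p | p.1 ∈ E.U i})
    (pos : ∀ i, ∀ z ∈ E.U i, ∀ u, u ≠ 0 → 0 < P i (z, u))
    (homog : ∀ i, ∀ z ∈ E.U i, ∀ u, ∀ t : ℂ, P i (z, t • u) = ‖t‖ ^ (2 * k) * P i (z, u))
    (compat : ∀ i j, ∀ l ∈ Λ, ∀ z ∈ E.U j, z + l ∈ E.U i → ∀ u,
      P j (z, u ᵥ* E.g i j l z) = P i (z + l, u))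
    (hlevi : ∀ z, ∃ i, ∃ l ∈ Λ, z + l ∈ E.U i ∧ ∀ u : Fin r → ℂ, u ≠ 0 → ∀ X, X ≠ 0 →
      0 < levi (P i) (z + l, u) X) : E.IsAmple := by
  have hk0 : k ≠ 0 := hk.ne'
  have hopen : ∀ i, IsOpen {p : (Fin n → ℂ) × (Fin r → ℂ) | p.1 ∈ E.U i} := fun i =>
    (E.isOpen_U i).preimage continuous_fst
  have hcd : ∀ i, ∀ z ∈ E.U i, ∀ u, ContDiffAt ℝ 2 (P i) (z, u) := by
    intro i z hz u
    have h1 : ContDiffAt ℝ ∞ (P i) (z, u) := (smooth i).contDiffAt ((hopen i).mem_nhds hz)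
    exact h1.of_le (WithTop.coe_le_coe.mpr (le_top : (2 : ℕ∞) ≤ ⊤))
  let F : FinslerMetric E :=
    { F := fun i p => P i p ^ ((k : ℝ)⁻¹)
      smooth := fun i => by
        apply ContDiffOn.rpow_const_of_ne
        · exact (smooth i).mono fun p hp => hp.1
        · rintro ⟨z, u⟩ ⟨hz, hu⟩
          exact (pos i z hz u hu).ne'
      pos := fun i z hz u hu => Real.rpow_pos_of_pos (pos i z hz u hu) _
      homog := fun i z hz u hu t _ => by
        change P i (z, t • u) ^ ((k : ℝ)⁻¹) = ‖t‖ ^ 2 * P i (z, u) ^ ((k : ℝ)⁻¹)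
        rw [homog i z hz u t, Real.mul_rpow (by positivity) (pos i z hz u hu).le, pow_mul,
          Real.pow_rpow_inv_natCast (by positivity) hk0]
      compat := fun i j l hl z hz hzl u _ => by
        change P j (z, u ᵥ* E.g i j l z) ^ ((k : ℝ)⁻¹) = P i (z + l, u) ^ ((k : ℝ)⁻¹)
        rw [compat i j l hl z hz hzl u] }
  refine ⟨F, ?_⟩
  intro j z hz u hu ξ w hX
  -- reduction to `log P`
  have hne : ∀ᶠ q : (Fin n → ℂ) × (Fin r → ℂ) in 𝓝 (z, u), q.1 ∈ E.U j ∧ q.2 ≠ 0 := by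
    have h1 := (hopen j).mem_nhds (show (z, u) ∈ {p | p.1 ∈ E.U j} from hz)
    have h2 : ∀ᶠ q : (Fin n → ℂ) × (Fin r → ℂ) in 𝓝 (z, u), q.2 ≠ 0 :=
      continuousAt_snd.eventually_ne hu
    filter_upwards [h1, h2] with q hq1 hq2
    exact ⟨hq1, hq2⟩
  have e1 : (fun p => Real.log (F.F j p)) =ᶠ[𝓝 (z, u)]
      fun p => ((k : ℝ)⁻¹) • Real.log (P j p) := by
    filter_upwards [hne] with q hq
    change Real.log (P j q ^ ((k : ℝ)⁻¹)) = _
    rw [Real.log_rpow (pos j q.1 hq.1 q.2 hq.2), smul_eq_mul]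
  have hlogcd : ∀ i, ∀ z ∈ E.U i, ∀ u, u ≠ 0 →
      ContDiffAt ℝ 2 (fun p => Real.log (P i p)) (z, u) := fun i z hz u hu =>
    (hcd i z hz u).log (pos i z hz u hu).ne'
  rw [levi_congr e1, levi_const_smul (hlogcd j z hz u hu), smul_eq_mul]
  have hkpos : 0 < (k : ℝ)⁻¹ := by positivity
  apply mul_pos hkpos
  -- transfer to the good representative
  obtain ⟨i, l, hl, hzl, hpos⟩ := hlevi z
  set G : (Fin n → ℂ) → Matrix (Fin r) (Fin r) ℂ := fun z' => E.g j i (-l) (z' + l) with hG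
  have hnl : -l ∈ Λ := Λ.neg_mem hl
  have hGc : ∀ a b, ContDiffAt ℂ 2 (fun z' => G z' a b) z := by
    intro a b
    have hop : IsOpen {y : Fin n → ℂ | y ∈ E.U i ∧ y + -l ∈ E.U j} :=
      (E.isOpen_U i).inter ((E.isOpen_U j).preimage (continuous_id.add continuous_const))
    have h1 : ContDiffAt ℂ 2 (fun y => E.g j i (-l) y a b) (z + l) := by
      apply contDiffAt_two hop (E.holo j i (-l) hnl a b)
      exact ⟨hzl, by rw [add_neg_cancel_right]; exact hz⟩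
    exact ContDiffAt.comp (g := fun y => E.g j i (-l) y a b) z h1
      (contDiffAt_id.add contDiffAt_const)
  have hGinv : G z * E.g i j l z = 1 := by
    have h := E.cocycle j i j (-l) hnl l hl z hz hzl (by rw [add_neg_cancel_right]; exact hz)
    rw [neg_add_cancel, E.g_self j z hz] at h
    exact h
  have hGinj : ∀ v : Fin r → ℂ, v ᵥ* G z = 0 → v = 0 := by
    intro v hv
    have : v ᵥ* (G z * E.g i j l z) = 0 := by
      rw [← Matrix.vecMul_vecMul, hv, Matrix.zero_vecMul]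
    rwa [hGinv, Matrix.vecMul_one] at this
  have e2 : (fun p => Real.log (P j p)) =ᶠ[𝓝 (z, u)]
      fun p => (fun q => Real.log (P i q)) (Th l G p) := by
    have h1 := (hopen j).mem_nhds (show (z, u) ∈ {p | p.1 ∈ E.U j} from hz)
    have h2 : {p : (Fin n → ℂ) × (Fin r → ℂ) | p.1 + l ∈ E.U i} ∈ 𝓝 (z, u) :=
      ((E.isOpen_U i).preimage (continuous_fst.add continuous_const)).mem_nhds hzl
    filter_upwards [h1, h2] with q hq1 hq2
    have h3 := compat j i (-l) hnl (q.1 + l) hq2 (by rw [add_neg_cancel_right]; exact hq1) q.2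
    rw [add_neg_cancel_right] at h3
    change Real.log (P j q) = Real.log (P i (q.1 + l, q.2 ᵥ* E.g j i (-l) (q.1 + l)))
    rw [h3]
  have hu' : u ᵥ* G z ≠ 0 := fun h => hu (hGinj u h)
  have hTh : Th l G (z, u) = (z + l, u ᵥ* G z) := rfl
  have hcomp := levi_comp_hol (f := fun q => Real.log (P i q)) (Θ := Th l G) (p := (z, u))
    (by rw [hTh]; exact hlogcd i (z + l) hzl _ hu') (contDiffAt_Th hGc) (ξ, w)
  rw [levi_congr e2, hcomp, hTh]
  have hfst := fderiv_Th_fst (l := l) (u := u) hGc (ξ, w)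
  set Y := fderiv ℂ (Th l G) (z, u) (ξ, w) with hY
  have hY2 : Y = (Y.1, Y.2) := rfl
  rw [hY2]
  apply levi_log_pos hk (hcd i (z + l) hzl _) (pos i (z + l) hzl _ hu')
  · have h2 : ∀ᶠ q : (Fin n → ℂ) × (Fin r → ℂ) in 𝓝 (z + l, u ᵥ* G z), q.1 ∈ E.U i :=
      (hopen i).mem_nhds hzl
    filter_upwards [h2] with q hq t _
    exact homog i q.1 hq q.2 t
  · exact fun X hX => hpos _ hu' X hX
  · rintro ⟨h1, c, h2⟩
    apply hX
    have hξ : ξ = 0 := by rw [← h1]; exact hfst.symm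
    refine ⟨hξ, c, ?_⟩
    have h3 : Y.2 = w ᵥ* G z := by
      rw [hY, hξ]
      exact fderiv_Th_vert hGc w
    rw [h3] at h2
    have h4 : (w - c • u) ᵥ* G z = 0 := by
      rw [Matrix.sub_vecMul, Matrix.smul_vecMul, h2, sub_self]
    have h5 := hGinj _ h4
    exact sub_eq_zero.mp h5

end Vale.Agent.P296
end
end

section

section

/-!
# P296: a periodic weight on `ℂ / ℤ[i]` with a simple zero at the lattice points

`th s = (1-u) ∏_{n≥1} (1-q^n u)(1-q^n/u)`, `u = exp(2πis)`, `q = exp(-2π)`,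
`hw s = |th s|² exp(-2πy²+2πy)`.
-/

namespace Vale.Agent.P296

open Complex Filter Topology

namespace Theta

/-- `q = exp(-2π)` -/
noncomputable def qq : ℝ := Real.exp (-(2 * Real.pi))

theorem qq_pos : 0 < qq := Real.exp_pos _

theorem qq_lt_one : qq < 1 := by
  unfold qq
  rw [Real.exp_lt_one_iff]
  have := Real.pi_pos
  linarith only [this]

theorem summable_aux (C : ℝ) : Summable fun n : ℕ => qq ^ (n + 1) * C :=
  ((summable_nat_add_iff 1).mpr (summable_geometric_of_lt_one qq_pos.le qq_lt_one)).mul_right C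

/-- `P u = ∏_{n≥1} (1 - q^n u)` -/
noncomputable def PP (u : ℂ) : ℂ := ∏' n : ℕ, (1 + -((qq : ℂ) ^ (n + 1) * u))

theorem norm_term (n : ℕ) (u : ℂ) : ‖-((qq : ℂ) ^ (n + 1) * u)‖ = qq ^ (n + 1) * ‖u‖ := by
  rw [norm_neg, norm_mul, norm_pow, Complex.norm_real, Real.norm_eq_abs, abs_of_pos qq_pos]

theorem summable_term (u : ℂ) : Summable fun n : ℕ => ‖-((qq : ℂ) ^ (n + 1) * u)‖ := by
  simp_rw [norm_term]
  exact summable_aux _

theorem multipliable (u : ℂ) : Multipliable fun n : ℕ => (1 + -((qq : ℂ) ^ (n + 1) * u)) :=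
  multipliable_one_add_of_summable (summable_term u)

theorem differentiable_PP : Differentiable ℂ PP := by
  have h : HasProdLocallyUniformlyOn (fun (n : ℕ) (u : ℂ) => (1 + -((qq : ℂ) ^ (n + 1) * u)))
      PP Set.univ := by
    apply hasProdLocallyUniformlyOn_of_forall_compact isOpen_univ
    intro K _ hcK
    obtain ⟨C, hC⟩ := hcK.isBounded.exists_norm_le
    refine (summable_aux C).hasProdUniformlyOn_nat_one_add hcK
      (Eventually.of_forall fun n u hu => ?_) (fun n => by fun_prop)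
    rw [norm_term]
    exact mul_le_mul_of_nonneg_left (hC u hu) (by have := qq_pos; positivity)
  have h2 := h.differentiableOn (Eventually.of_forall fun s => by
    simpa only [Finset.prod_fn] using DifferentiableOn.finsetProd (fun _ _ ↦ by fun_prop)) isOpen_univ
  exact differentiableOn_univ.mp h2

theorem PP_rec (u : ℂ) : PP u = (1 - qq * u) * PP (qq * u) := by
  have e : ∀ n : ℕ, (1 + -((qq : ℂ) ^ (n + 1) * (qq * u))) =
      (1 + -((qq : ℂ) ^ (n + 1 + 1) * u)) := by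
    intro n
    rw [pow_succ (qq : ℂ) (n + 1), mul_assoc ((qq : ℂ) ^ (n + 1))]
  have hm : Multipliable fun n : ℕ => (1 + -((qq : ℂ) ^ (n + 1 + 1) * u)) := by
    refine (multipliable ((qq : ℂ) * u)).congr fun n => ?_
    exact (e n)
  have h1 : PP u = (1 + -((qq : ℂ) ^ (0 + 1) * u)) *
      ∏' n : ℕ, (1 + -((qq : ℂ) ^ (n + 1 + 1) * u)) :=
    tprod_eq_zero_mul' (f := fun n : ℕ => (1 + -((qq : ℂ) ^ (n + 1) * u))) hm
  have h2 : PP (qq * u) = ∏' n : ℕ, (1 + -((qq : ℂ) ^ (n + 1 + 1) * u)) :=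
    tprod_congr e
  rw [h1, h2, zero_add, pow_one, sub_eq_add_neg]

theorem PP_ne_zero {u : ℂ} (h : ∀ n : ℕ, (qq : ℂ) ^ (n + 1) * u ≠ 1) : PP u ≠ 0 := by
  unfold PP
  apply tprod_one_add_ne_zero_of_summable
  · intro n h0
    apply h n
    linear_combination -h0
  · exact summable_term u

/-- the theta function -/
noncomputable def th (s : ℂ) : ℂ :=
  (1 - exp (2 * Real.pi * I * s)) *
    (PP (exp (2 * Real.pi * I * s)) * PP (exp (-(2 * Real.pi * I * s))))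

theorem differentiable_th : Differentiable ℂ th := by
  unfold th
  have h1 : Differentiable ℂ fun s : ℂ => exp (2 * Real.pi * I * s) := by fun_prop
  have h2 : Differentiable ℂ fun s : ℂ => exp (-(2 * Real.pi * I * s)) := by fun_prop
  exact (h1.const_sub 1).mul ((differentiable_PP.comp h1).mul (differentiable_PP.comp h2))

theorem th_add_one (s : ℂ) : th (s + 1) = th s := by
  unfold th
  have h1 : exp (2 * Real.pi * I * (s + 1)) = exp (2 * Real.pi * I * s) := by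
    rw [mul_add, mul_one, exp_add, exp_two_pi_mul_I, mul_one]
  have h2 : exp (-(2 * Real.pi * I * (s + 1))) = exp (-(2 * Real.pi * I * s)) := by
    rw [exp_neg, exp_neg, h1]
  rw [h1, h2]

theorem th_add_I (s : ℂ) : th (s + I) = -exp (-(2 * Real.pi * I * s)) * th s := by
  have h1 : exp (2 * Real.pi * I * (s + I)) = qq * exp (2 * Real.pi * I * s) := by
    unfold qq
    rw [ofReal_exp, ← exp_add]
    congr 1
    push_cast
    ring_nf
    rw [I_sq]; ring
  have h2 : (qq : ℂ) * exp (-(2 * Real.pi * I * (s + I))) = exp (-(2 * Real.pi * I * s)) := by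
    unfold qq
    rw [ofReal_exp, ← exp_add]
    congr 1
    push_cast
    ring_nf
    rw [I_sq]; ring
  unfold th
  rw [h1, PP_rec (exp (-(2 * Real.pi * I * (s + I)))), h2, PP_rec (exp (2 * Real.pi * I * s))]
  have h3 : exp (2 * Real.pi * I * s) * exp (-(2 * Real.pi * I * s)) = 1 := by
    rw [← exp_add]; simp
  linear_combination (-(1 - qq * exp (2 * Real.pi * I * s)) *
    PP (qq * exp (2 * Real.pi * I * s)) * PP (exp (-(2 * Real.pi * I * s)))) * h3


theorem qq_pow_eq (n : ℕ) : (qq : ℂ) ^ (n + 1) = exp (-(2 * Real.pi * (n + 1))) := by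
  unfold qq
  rw [ofReal_exp, ← exp_nat_mul]
  congr 1
  push_cast
  ring

/-- lattice points -/
def IsLat (s : ℂ) : Prop := ∃ m n : ℤ, s = m + n * I

theorem exp_eq_one_of {s : ℂ} (k : ℤ) (h : exp (-(2 * Real.pi * k)) * exp (2 * Real.pi * I * s) = 1) :
    IsLat s := by
  rw [← exp_add, exp_eq_one_iff] at h
  obtain ⟨m, hm⟩ := h
  refine ⟨m, -k, ?_⟩
  have hpi : (Real.pi : ℂ) ≠ 0 := by exact_mod_cast Real.pi_ne_zero
  have h2 : (2 * Real.pi * I) * s = (2 * Real.pi * I) * (m + ((-k : ℤ) : ℂ) * I) := by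
    push_cast
    linear_combination hm + 2 * Real.pi * k * I_sq
  have h3 : (2 * Real.pi * I : ℂ) ≠ 0 := by
    simp [hpi]
  exact mul_left_cancel₀ h3 h2

theorem RR_ne_zero_of {s : ℂ} (hs : ¬ IsLat s) :
    PP (exp (2 * Real.pi * I * s)) * PP (exp (-(2 * Real.pi * I * s))) ≠ 0 := by
  refine mul_ne_zero (PP_ne_zero fun n h => hs ?_) (PP_ne_zero fun n h => hs ?_)
  · rw [qq_pow_eq] at h
    apply exp_eq_one_of (n + 1)
    push_cast
    exact h
  · rw [qq_pow_eq] at h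
    apply exp_eq_one_of (-(n + 1))
    push_cast
    rw [← exp_add] at h ⊢
    have h2 := congrArg (fun z => z⁻¹) h
    simp only [inv_one] at h2
    rw [← exp_neg] at h2
    refine Eq.trans ?_ h2
    congr 1
    ring

theorem th_ne_zero {s : ℂ} (hs : ¬ IsLat s) : th s ≠ 0 := by
  unfold th
  refine mul_ne_zero (fun h => hs ?_) (RR_ne_zero_of hs)
  apply exp_eq_one_of 0
  simp only [Int.cast_zero, mul_zero, neg_zero, exp_zero, one_mul]
  linear_combination -h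

theorem th_zero : th 0 = 0 := by
  unfold th; simp

theorem PP_one_ne_zero : PP 1 ≠ 0 := by
  apply PP_ne_zero
  intro n h
  rw [mul_one] at h
  have h2 := congrArg norm h
  rw [norm_pow, Complex.norm_real, Real.norm_eq_abs, abs_of_pos qq_pos, norm_one] at h2
  have := pow_lt_one₀ qq_pos.le qq_lt_one (Nat.succ_ne_zero n)
  simp only [Nat.succ_eq_add_one] at this
  linarith only [h2, this]

theorem deriv_th_zero : deriv th 0 ≠ 0 := by
  have h1 : HasDerivAt (fun s : ℂ => 1 - exp (2 * Real.pi * I * s)) (-(2 * Real.pi * I)) 0 := by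
    have h0 : HasDerivAt (fun s : ℂ => 2 * Real.pi * I * s) (2 * Real.pi * I) 0 := by
      simpa using (hasDerivAt_id (0 : ℂ)).const_mul (2 * Real.pi * I)
    have := (h0.cexp).const_sub 1
    simpa using this
  have h2 : Differentiable ℂ fun s : ℂ =>
      PP (exp (2 * Real.pi * I * s)) * PP (exp (-(2 * Real.pi * I * s))) := by
    have e1 : Differentiable ℂ fun s : ℂ => exp (2 * Real.pi * I * s) := by fun_prop
    have e2 : Differentiable ℂ fun s : ℂ => exp (-(2 * Real.pi * I * s)) := by fun_prop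
    exact (differentiable_PP.comp e1).mul (differentiable_PP.comp e2)
  have h3 := h1.mul (h2 0).hasDerivAt
  have h4 : deriv th 0 = _ := h3.deriv
  rw [h4]
  have hpi : (Real.pi : ℂ) ≠ 0 := by exact_mod_cast Real.pi_ne_zero
  simp only [mul_zero, exp_zero, neg_zero, neg_mul, sub_self, zero_mul, add_zero, ne_eq, neg_eq_zero, mul_eq_zero, OfNat.ofNat_ne_zero, hpi, or_self, I_ne_zero, PP_one_ne_zero, not_false_eq_true]

/-- the periodic weight -/
noncomputable def hw (s : ℂ) : ℝ :=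
  ‖th s‖ ^ 2 * Real.exp (-(2 * Real.pi * s.im ^ 2) + 2 * Real.pi * s.im)

theorem hw_nonneg (s : ℂ) : 0 ≤ hw s := by unfold hw; positivity

theorem continuous_hw : Continuous hw := by
  unfold hw
  have := differentiable_th.continuous
  fun_prop

theorem hw_add_one (s : ℂ) : hw (s + 1) = hw s := by
  unfold hw
  rw [th_add_one]
  simp

theorem hw_add_I (s : ℂ) : hw (s + I) = hw s := by
  unfold hw
  rw [th_add_I, norm_mul, norm_neg, norm_exp, mul_pow, ← Real.exp_nat_mul]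
  have h1 : (-(2 * (Real.pi : ℂ) * I * s)).re = 2 * Real.pi * s.im := by
    simp [Complex.mul_re, Complex.mul_im]
  rw [h1, mul_comm (Real.exp _), mul_assoc, ← Real.exp_add]
  congr 2
  simp only [add_im, I_im, Nat.cast_ofNat]
  ring

theorem hw_add_int (s : ℂ) (m : ℤ) : hw (s + m) = hw s := by
  have h : Function.Periodic hw 1 := hw_add_one
  simpa using h.int_mul m s

theorem hw_add_int_I (s : ℂ) (m : ℤ) : hw (s + m * I) = hw s := by
  have h : Function.Periodic hw I := hw_add_I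
  exact h.int_mul m s

theorem hw_add_lat (s : ℂ) {l : ℂ} (hl : IsLat l) : hw (s + l) = hw s := by
  obtain ⟨m, n, rfl⟩ := hl
  rw [← add_assoc, hw_add_int_I, hw_add_int]


theorem IsLat.zero_of_norm {s : ℂ} (h : IsLat s) (hs : ‖s‖ < 1) : s = 0 := by
  obtain ⟨m, n, rfl⟩ := h
  have hre := (Complex.abs_re_le_norm ((m : ℂ) + n * I)).trans_lt hs
  have him := (Complex.abs_im_le_norm ((m : ℂ) + n * I)).trans_lt hs
  have e1 : ((m : ℂ) + n * I).re = m := by simp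
  have e2 : ((m : ℂ) + n * I).im = n := by simp
  rw [e1] at hre
  rw [e2] at him
  have hm : m = 0 := by
    have : |m| < 1 := by exact_mod_cast hre
    exact Int.abs_lt_one_iff.mp this
  have hn : n = 0 := by
    have : |n| < 1 := by exact_mod_cast him
    exact Int.abs_lt_one_iff.mp this
  rw [hm, hn]; simp

/-- quadratic lower bound near the lattice point `0` -/
theorem hw_lower : ∃ c : ℝ, 0 < c ∧ ∀ s : ℂ, ‖s‖ ≤ 3 / 4 → c * ‖s‖ ^ 2 ≤ hw s := by
  have hcont : Continuous (dslope th 0) := by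
    rw [continuous_iff_continuousAt]
    intro s
    by_cases hs : s = 0
    · rw [hs, continuousAt_dslope_same]
      exact differentiable_th 0
    · rw [continuousAt_dslope_of_ne hs]
      exact differentiable_th.continuous.continuousAt
  have hne : ∀ s : ℂ, ‖s‖ ≤ 3 / 4 → dslope th 0 s ≠ 0 := by
    intro s hs
    by_cases h0 : s = 0
    · rw [h0, dslope_same]
      exact deriv_th_zero
    · rw [dslope_of_ne _ h0, slope_def_field, th_zero, sub_zero, sub_zero]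
      refine div_ne_zero (th_ne_zero fun hl => h0 ?_) h0
      exact hl.zero_of_norm (by linarith only [hs])
  have hfc : Continuous fun s : ℂ => ‖dslope th 0 s‖ ^ 2 *
      Real.exp (-(2 * Real.pi * s.im ^ 2) + 2 * Real.pi * s.im) := by fun_prop
  obtain ⟨s0, hs0, hmin⟩ := (isCompact_closedBall (0 : ℂ) (3 / 4)).exists_isMinOn
    ⟨0, by simp only [Metric.mem_closedBall, dist_self]; norm_num⟩ hfc.continuousOn
  refine ⟨‖dslope th 0 s0‖ ^ 2 * Real.exp (-(2 * Real.pi * s0.im ^ 2) + 2 * Real.pi * s0.im),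
    ?_, fun s hs => ?_⟩
  · have := norm_pos_iff.mpr (hne s0 (by simpa only [Metric.mem_closedBall, dist_zero_right] using hs0))
    positivity
  · have h1 := hmin (show s ∈ Metric.closedBall (0 : ℂ) (3 / 4) by simpa only [Metric.mem_closedBall, dist_zero_right] using hs)
    have h2 : th s = s * dslope th 0 s := by
      have := sub_smul_dslope th 0 s
      rw [th_zero, sub_zero, sub_zero, smul_eq_mul] at this
      exact this.symm
    unfold hw
    rw [h2, norm_mul, mul_pow]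
    simp only [Set.mem_ofPred_eq] at h1
    calc _ ≤ (‖dslope th 0 s‖ ^ 2 *
      Real.exp (-(2 * Real.pi * s.im ^ 2) + 2 * Real.pi * s.im)) * ‖s‖ ^ 2 :=
          mul_le_mul_of_nonneg_right h1 (by (clear * -; positivity))
      _ = _ := by ring

/-- every point is congruent to a point of the unit square -/
theorem exists_lat' (s : ℂ) : ∃ l : ℂ, IsLat l ∧ |(s - l).re| ≤ 1 / 2 ∧ |(s - l).im| ≤ 1 / 2 := by
  refine ⟨(round s.re : ℂ) + (round s.im : ℂ) * I, ⟨_, _, rfl⟩, ?_, ?_⟩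
  · have h1 := abs_sub_round s.re
    have e1 : (s - ((round s.re : ℂ) + (round s.im : ℂ) * I)).re = s.re - round s.re := by simp
    rwa [e1]
  · have h1 := abs_sub_round s.im
    have e1 : (s - ((round s.re : ℂ) + (round s.im : ℂ) * I)).im = s.im - round s.im := by simp
    rwa [e1]

theorem exists_lat (s : ℂ) : ∃ l : ℂ, IsLat l ∧ ‖s - l‖ ≤ 3 / 4 := by
  obtain ⟨l, hl, h1, h2⟩ := exists_lat' s
  refine ⟨l, hl, ?_⟩
  have h3 : ‖s - l‖ ^ 2 ≤ (3 / 4) ^ 2 := by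
    rw [← Complex.normSq_eq_norm_sq, Complex.normSq_apply]
    have := abs_le.mp h1
    have := abs_le.mp h2
    nlinarith
  exact le_of_sq_le_sq h3 (by norm_num)

theorem IsLat.neg {l : ℂ} (h : IsLat l) : IsLat (-l) := by
  obtain ⟨m, n, rfl⟩ := h
  exact ⟨-m, -n, by push_cast; ring⟩

theorem IsLat.add {l l' : ℂ} (h : IsLat l) (h' : IsLat l') : IsLat (l + l') := by
  obtain ⟨m, n, rfl⟩ := h
  obtain ⟨m', n', rfl⟩ := h'
  exact ⟨m + m', n + n', by push_cast; ring⟩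

theorem hw_upper : ∃ C : ℝ, 0 < C ∧ ∀ s : ℂ, hw s ≤ C := by
  obtain ⟨s0, _, hmax⟩ := (isCompact_closedBall (0 : ℂ) (3 / 4)).exists_isMaxOn
    ⟨0, by simp only [Metric.mem_closedBall, dist_self]; norm_num⟩ continuous_hw.continuousOn
  refine ⟨hw s0 + 1, by have := hw_nonneg s0; linarith, fun s => ?_⟩
  obtain ⟨l, hl, hsl⟩ := exists_lat s
  have h1 := hmax (show s - l ∈ Metric.closedBall (0 : ℂ) (3 / 4) by simpa only [Metric.mem_closedBall, dist_zero_right] using hsl)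
  simp only [Set.mem_ofPred_eq] at h1
  have h2 := hw_add_lat (s - l) hl
  rw [sub_add_cancel] at h2
  rw [h2]; linarith only [h1]

/-- quadratic lower bound, global form -/
theorem hw_lower' : ∃ c : ℝ, 0 < c ∧ ∀ s : ℂ, ∃ l : ℂ, IsLat l ∧ c * ‖s - l‖ ^ 2 ≤ hw s := by
  obtain ⟨c, hc, h⟩ := hw_lower
  refine ⟨c, hc, fun s => ?_⟩
  obtain ⟨l, hl, hsl⟩ := exists_lat s
  refine ⟨l, hl, ?_⟩
  have h2 := hw_add_lat (s - l) hl
  rw [sub_add_cancel] at h2
  rw [h2]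
  exact h _ hsl

/-- local form of the weight: `log hw = Re (holomorphic) - π |s - s₀|²` -/
theorem log_hw_local {s0 : ℂ} (hs : ¬ IsLat s0) : ∃ g : ℂ → ℂ, AnalyticAt ℂ g s0 ∧
    ∀ᶠ s in 𝓝 s0, Real.log (hw s) = (g s).re - Real.pi * ‖s - s0‖ ^ 2 := by
  have h0 := th_ne_zero hs
  refine ⟨fun s => (2 * Real.log ‖th s0‖ : ℝ) + 2 * log (th s / th s0) + Real.pi * s ^ 2 -
    2 * Real.pi * (starRingEnd ℂ s0) * s + (Real.pi * ‖s0‖ ^ 2 : ℝ) - 2 * Real.pi * I * s, ?_, ?_⟩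
  · have h1 : AnalyticAt ℂ (fun s => log (th s / th s0)) s0 := by
      apply AnalyticAt.clog
      · exact (differentiable_th.analyticAt s0).div analyticAt_const h0
      · rw [div_self h0]; exact one_mem_slitPlane
    fun_prop
  · have hcont : ContinuousAt (fun s => th s / th s0) s0 :=
      (differentiable_th.continuous.continuousAt).div_const _
    have h1 : ∀ᶠ s in 𝓝 s0, th s ≠ 0 :=
      differentiable_th.continuous.continuousAt.eventually_ne h0
    filter_upwards [h1] with s hs1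
    unfold hw
    rw [Real.log_mul (by have := norm_pos_iff.mpr hs1; positivity) (Real.exp_ne_zero _),
      Real.log_exp, Real.log_pow]
    have e1 : (log (th s / th s0)).re = Real.log ‖th s‖ - Real.log ‖th s0‖ := by
      rw [log_re, norm_div, Real.log_div (norm_ne_zero_iff.mpr hs1) (norm_ne_zero_iff.mpr h0)]
    have e2 : ‖s - s0‖ ^ 2 = (s.re - s0.re) ^ 2 + (s.im - s0.im) ^ 2 := by
      rw [← Complex.normSq_eq_norm_sq, Complex.normSq_apply]; simp only [sub_re, sub_im]; ring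
    have e3 : ‖s0‖ ^ 2 = s0.re ^ 2 + s0.im ^ 2 := by
      rw [← Complex.normSq_eq_norm_sq, Complex.normSq_apply]; ring
    rw [e2, e3]
    simp only [add_re, sub_re, mul_re, ofReal_re, ofReal_im, re_ofNat, im_ofNat, zero_mul, sub_zero,
      conj_re, conj_im, I_re, I_im, mul_im, mul_zero, mul_one, e1, sq]
    push_cast
    ring

end Theta

end Vale.Agent.P296
end
end

section

section

/-!
# P296: the data of the example

`X = (ℂ/ℤ[i])²`, coordinates `(s, t) = (z 0, z 1)`, `A_σ = [[3, 3σ], [3σ, 4]]` (`σ = 1, -1`).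
-/

namespace Vale.Agent.P296

open Complex Matrix Theta
open scoped ContDiff

/-- automorphy factor `exp(π(-2i zᵀA b + bᵀA b))`, `b = Im l`. -/
noncomputable def eAut (σ : ℝ) (l z : Fin 2 → ℂ) : ℂ :=
  exp (Real.pi * (-(2 * I * (3 * z 0 * (l 0).im + 3 * σ * (z 0 * (l 1).im + z 1 * (l 0).im) +
    4 * z 1 * (l 1).im)) + (3 * (l 0).im ^ 2 + 6 * σ * (l 0).im * (l 1).im + 4 * (l 1).im ^ 2)))

/-- weight `2π yᵀA y`, `y = Im z`. -/
noncomputable def phi (σ : ℝ) (z : Fin 2 → ℂ) : ℝ :=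
  2 * Real.pi * (3 * (z 0).im ^ 2 + 6 * σ * (z 0).im * (z 1).im + 4 * (z 1).im ^ 2)

/-- weight of the section `th(s) th(s - 1/2)`. -/
noncomputable def phiD (z : Fin 2 → ℂ) : ℝ :=
  4 * Real.pi * (z 0).im ^ 2 - 4 * Real.pi * (z 0).im

/-- `(exp(c s) - 1)/s`, entire in `(c, s)`. -/
noncomputable def expm (c s : ℂ) : ℂ := c * dslope Complex.exp 0 (c * s)

/-- smooth bump: `1` on `‖s‖ ≤ 1/20`, `0` for `‖s‖ ≥ 1/10`. -/
noncomputable def chiB : ContDiffBump (0 : ℂ) := ⟨1 / 20, 1 / 10, by norm_num, by norm_num⟩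

noncomputable def chi (s : ℂ) : ℝ := chiB s

/-- `(1 - χ(s) exp(12πi ς s Im t))/s`, smooth also at `s = 0`. -/
noncomputable def mfun (ς : ℝ) (s t : ℂ) : ℂ :=
  (1 - chi s) / s - chi s * expm (12 * Real.pi * I * ς * t.im) s

/-- `th(s) th(s-1/2)` -/
noncomputable def del (s : ℂ) : ℂ := th s * th (s - 1 / 2)

/-- `th(s) th(s-1/2)/s` near `s = 0` -/
noncomputable def del1 (s : ℂ) : ℂ := dslope th 0 s * th (s - 1 / 2)

/-- `th(s) th(s-1/2)/(s-1/2)` near `s = 1/2` -/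
noncomputable def del2 (s : ℂ) : ℂ := th s * dslope th 0 (s - 1 / 2)

/-- the four weights -/
noncomputable def om : Fin 4 → (Fin 2 → ℂ) → ℝ :=
  ![fun z => 3 * phi 1 z,
    fun z => 3 * phi (-1) z - phiD z,
    fun z => 2 * phi 1 z + phi (-1) z - 2 * phiD z,
    fun z => phi 1 z + 2 * phi (-1) z - 3 * phiD z]

/-- `∑ B_k |f_k|² e^{ω_k}` -/
noncomputable def Pgen (B : Fin 4 → ℝ) (f : Fin 4 → ℂ) (z : Fin 2 → ℂ) : ℝ :=
  ∑ k, B k * ‖f k‖ ^ 2 * Real.exp (om k z)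

/-- chart 0: dual vectors `u 0 v₁ + u 1 v₂` -/
noncomputable def f0 (z u : Fin 2 → ℂ) : Fin 4 → ℂ :=
  ![u 0 ^ 3, del (z 0) * u 1 ^ 3, del (z 0) ^ 2 * (u 0 ^ 2 * u 1),
    del (z 0) ^ 3 * (u 0 * u 1 ^ 2)]

/-- chart 1 (near `s = 0`): dual vectors `a v₂ + b (v₁ - ε v₂)/s`, `(a,b) = u` -/
noncomputable def f1 (ε : ℝ) (z u : Fin 2 → ℂ) : Fin 4 → ℂ :=
  let s := z 0
  let a := u 0
  let b := u 1
  let l2 := s * a - ε * b
  let c1 := (a - mfun 1 s (z 1) * l2) / ε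
  let c2 := a - ε * mfun (-1) s (z 1) * b
  ![c1 ^ 3, del1 s * (l2 * c2 ^ 2), del1 s ^ 2 * (b * l2 * c1), del1 s ^ 3 * (b * l2 ^ 2)]

/-- chart 2 (near `s = 1/2`): dual vectors `a v₁ + b (v₂ - ε v₁)/(s-1/2)`, `(a,b) = u` -/
noncomputable def f2 (ε : ℝ) (z u : Fin 2 → ℂ) : Fin 4 → ℂ :=
  let s' := z 0 - 1 / 2
  let a := u 0
  let b := u 1
  let l1 := s' * a - ε * b
  let c1 := a - ε * mfun 1 s' (z 1) * b
  let c2 := (a - mfun (-1) s' (z 1) * l1) / ε
  ![c1 ^ 3, del2 (z 0) * (b * c2 ^ 2), del2 (z 0) ^ 2 * (l1 * b * c1),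
    del2 (z 0) ^ 3 * (l1 * b ^ 2)]

/-- the function `F³` in the three charts -/
noncomputable def PP0 (B : Fin 4 → ℝ) (p : (Fin 2 → ℂ) × (Fin 2 → ℂ)) : ℝ :=
  Pgen B (f0 p.1 p.2) p.1

noncomputable def PP1 (ε : ℝ) (B : Fin 4 → ℝ) (p : (Fin 2 → ℂ) × (Fin 2 → ℂ)) : ℝ :=
  Pgen B (f1 ε p.1 p.2) p.1

noncomputable def PP2 (ε : ℝ) (B : Fin 4 → ℝ) (p : (Fin 2 → ℂ) × (Fin 2 → ℂ)) : ℝ :=
  Pgen B (f2 ε p.1 p.2) p.1

/-- the lattice `ℤ[i] ⊂ ℂ` -/
def Lset : Set ℂ := {s | IsLat s}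

/-- the three étale charts -/
def Uset : Fin 3 → Set (Fin 2 → ℂ) :=
  ![{z | 1 / 10 < Metric.infDist (z 0) Lset ∧ 1 / 10 < Metric.infDist (z 0 - 1 / 2) Lset},
    {z | ‖z 0‖ < 1 / 5}, {z | ‖z 0 - 1 / 2‖ < 1 / 5}]

/-- rows = coordinates of the sections `v₁`, `v₂` in the three charts -/
noncomputable def Wm (ε : ℝ) : Fin 3 → (Fin 2 → ℂ) → Matrix (Fin 2) (Fin 2) ℂ :=
  ![fun _ => 1, fun z => !![(ε : ℂ), z 0; 1, 0], fun z => !![1, 0; (ε : ℂ), z 0 - 1 / 2]]

/-- `diag(e₁, e₂)` -/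
noncomputable def Dm (l z : Fin 2 → ℂ) : Matrix (Fin 2) (Fin 2) ℂ :=
  !![eAut 1 l z, 0; 0, eAut (-1) l z]

/-- transition matrices, determined by `Wm i (z + l) * g = Dm l z * Wm j z`. -/
noncomputable def gmat (ε : ℝ) (i j : Fin 3) (l z : Fin 2 → ℂ) : Matrix (Fin 2) (Fin 2) ℂ :=
  if i = 1 ∧ j = 1 then
    !![eAut (-1) l z, 0;
      ε * eAut (-1) l z * expm (-(12 * Real.pi * I * (l 1).im)) (z 0), eAut 1 l z]
  else if i = 2 ∧ j = 2 then
    !![eAut 1 l z, 0;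
      ε * eAut 1 l z * expm (12 * Real.pi * I * (l 1).im) (z 0 - 1 / 2), eAut (-1) l z]
  else (Wm ε i (z + l))⁻¹ * Dm l z * Wm ε j z

end Vale.Agent.P296
end
end

section

section

/-!
# P296: transfer from the working definitions to the definitions of the final statement
-/

namespace Vale.Agent.P296

open Complex Matrix
open scoped ContDiff Topology ComplexOrder

namespace Transfer

section calculus

variable {V : Type} [NormedAddCommGroup V] [NormedSpace ℂ V]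

theorem fderiv_delbar {f : V → ℂ} {z : V} (hf : ContDiffAt ℝ 2 f z) (ξ η : V) :
    fderiv ℝ (Final.delbar f ξ) z η =
      (fderiv ℝ (fderiv ℝ f) z η ξ + I * fderiv ℝ (fderiv ℝ f) z η (I • ξ)) / 2 := by
  have hd := ContDiffAt.diff_fderiv hf
  have h1 : HasFDerivAt (fun w => fderiv ℝ f w ξ) (fderiv ℝ (fun w => fderiv ℝ f w ξ) z) z :=
    (hd.clm_apply (differentiableAt_const ξ)).hasFDerivAt
  have h2 : HasFDerivAt (fun w => fderiv ℝ f w (I • ξ))
      (fderiv ℝ (fun w => fderiv ℝ f w (I • ξ)) z) z :=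
    (hd.clm_apply (differentiableAt_const (I • ξ))).hasFDerivAt
  have h3 : HasFDerivAt (Final.delbar f ξ) ((2⁻¹ : ℂ) •
      (fderiv ℝ (fun w => fderiv ℝ f w ξ) z + I • fderiv ℝ (fun w => fderiv ℝ f w (I • ξ)) z)) z := by
    have h4 := (h1.add (h2.const_smul I)).const_smul (2⁻¹ : ℂ)
    refine h4.congr_of_eventuallyEq (Filter.Eventually.of_forall fun w => ?_)
    simp only [Final.delbar, Pi.add_apply, Pi.smul_apply, smul_eq_mul]
    ring
  rw [h3.fderiv]
  rw [fderiv2_apply hd, fderiv2_apply hd]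
  simp only [_root_.smul_apply, _root_.add_apply, smul_eq_mul]
  ring

theorem final_levi_eq {f : V → ℂ} {z : V} (hf : ContDiffAt ℝ 2 f z) (ξ : V) :
    Final.levi f ξ z = levi f z ξ := by
  have hs : fderiv ℝ (fderiv ℝ f) z ξ (I • ξ) = fderiv ℝ (fderiv ℝ f) z (I • ξ) ξ :=
    (hf.isSymmSndFDerivAt (by simp)) ξ (I • ξ)
  unfold Final.levi Final.del
  rw [fderiv_delbar hf, fderiv_delbar hf, levi_eq', hs, Complex.real_smul]
  push_cast
  linear_combination (-(fderiv ℝ (fderiv ℝ f) z (I • ξ) (I • ξ)) / 4) * I_mul_I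

theorem levi_ofReal {f : V → ℝ} {z : V} (hf : ContDiffAt ℝ 2 f z) (ξ : V) :
    levi (fun q => (f q : ℂ)) z ξ = ((levi f z ξ : ℝ) : ℂ) := by
  have hev : fderiv ℝ (fun q => (f q : ℂ)) =ᶠ[𝓝 z] fun q => ofRealCLM.comp (fderiv ℝ f q) := by
    filter_upwards [hf.eventually (by simp)] with q h1
    exact (ofRealCLM.hasFDerivAt.comp q (h1.differentiableAt (by norm_num)).hasFDerivAt).fderiv
  have hd := (ContDiffAt.diff_fderiv hf).hasFDerivAt
  have h2 : HasFDerivAt (fun q => ofRealCLM.comp (fderiv ℝ f q))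
      (((ContinuousLinearMap.compL ℝ V ℝ ℂ) ofRealCLM).comp (fderiv ℝ (fderiv ℝ f) z)) z :=
    (((ContinuousLinearMap.compL ℝ V ℝ ℂ) ofRealCLM).hasFDerivAt).comp z hd
  rw [levi_eq', levi_eq', Filter.EventuallyEq.fderiv_eq hev, h2.fderiv]
  simp only [ContinuousLinearMap.comp_apply, ContinuousLinearMap.compL_apply, ofRealCLM_apply, smul_add, real_smul, ofReal_inv, ofReal_ofNat, smul_eq_mul, ofReal_mul, ofReal_add]
  ring

theorem final_levi_ofReal {f : V → ℝ} {z : V} (hf : ContDiffAt ℝ 2 f z) (ξ : V) :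
    Final.levi (fun q => (f q : ℂ)) ξ z = ((levi f z ξ : ℝ) : ℂ) := by
  have h : ContDiffAt ℝ 2 (fun q => (f q : ℂ)) z := ofRealCLM.contDiff.contDiffAt.comp z hf
  rw [final_levi_eq h, levi_ofReal hf]

end calculus

/-- `(z₁, z₂) ↦ ![z₁, z₂]` -/
noncomputable def ee : (ℂ × ℂ) ≃L[ℂ] (Fin 2 → ℂ) := (ContinuousLinearEquiv.finTwoArrow ℂ ℂ).symm

theorem mem_gauss (z : ℂ × ℂ) : z ∈ Final.gauss ↔ ee z ∈ gaussLattice 2 := by
  obtain ⟨x, y⟩ := z
  constructor
  · rintro ⟨a, b, c, d, h⟩ k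
    obtain ⟨rfl, rfl⟩ := Prod.mk.inj h
    fin_cases k
    · exact ⟨a, b, by simp [ee]⟩
    · exact ⟨c, d, by simp [ee]⟩
  · intro h
    obtain ⟨a, b, h0⟩ := h 0
    obtain ⟨c, d, h1⟩ := h 1
    refine ⟨a, b, c, d, ?_⟩
    simp only [ee, ContinuousLinearEquiv.finTwoArrow_symm_apply, cons_val_zero, cons_val_one] at h0 h1
    rw [h0, h1]

theorem ee_add (z l : ℂ × ℂ) : ee (z + l) = ee z + ee l := map_add ee z l

/-- the same bundle, over `ℂ × ℂ` -/
noncomputable def toFinal {r : ℕ} (A : TorusBundle (gaussLattice 2) r) :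
    Final.Bundle Final.gauss r where
  ι := A.ι
  U := fun i => ee ⁻¹' A.U i
  isOpen_U := fun i => (A.isOpen_U i).preimage ee.continuous
  cover := by
    intro z
    obtain ⟨i, l, hl, h⟩ := A.cover (ee z)
    refine ⟨i, ee.symm l, ?_, ?_⟩
    · rw [mem_gauss, ee.apply_symm_apply]; exact hl
    · rw [Set.mem_preimage, ee_add, ee.apply_symm_apply]; exact h
  g := fun i j l z => A.g i j (ee l) (ee z)
  holo := by
    intro i j l hl a b
    refine (A.holo i j (ee l) ((mem_gauss l).mp hl) a b).comp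
      (g := fun z => A.g i j (ee l) z a b) (f := ee) ee.differentiable.differentiableOn ?_
    intro z hz
    refine ⟨hz.1, ?_⟩
    have := hz.2
    rwa [Set.mem_preimage, ee_add] at this
  g_self := fun i z hz => by
    rw [map_zero]; exact A.g_self i (ee z) hz
  cocycle := by
    intro i j k l hl m hm z hz h1 h2
    rw [Set.mem_preimage] at hz h1 h2
    rw [ee_add] at h1
    rw [ee_add, ee_add] at h2
    rw [ee_add, ee_add]
    exact A.cocycle i j k _ ((mem_gauss l).mp hl) _ ((mem_gauss m).mp hm) _ hz h1 h2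

theorem isAmple_toFinal {r : ℕ} (A : TorusBundle (gaussLattice 2) r) (hA : A.IsAmple) :
    (toFinal A).IsAmple := by
  obtain ⟨F, hF⟩ := hA
  have hmap : ContDiff ℝ ∞ (fun p : (ℂ × ℂ) × (Fin r → ℂ) => ((ee p.1, p.2) :
      (Fin 2 → ℂ) × (Fin r → ℂ))) :=
    ((ee.contDiff.restrict_scalars ℝ).comp contDiff_fst).prodMk contDiff_snd
  refine ⟨⟨fun i p => F.F i (ee p.1, p.2), ?_, ?_, ?_, ?_⟩, ?_⟩
  · intro i
    refine ofRealCLM.contDiff.comp_contDiffOn ((F.smooth i).comp hmap.contDiffOn ?_)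
    intro p hp
    exact hp
  · intro i z hz u hu
    exact F.pos i (ee z) hz u hu
  · intro i z hz u hu t ht
    exact F.homog i (ee z) hz u hu t ht
  · intro i j l hl z hz hzl u hu
    have h := F.compat i j (ee l) ((mem_gauss l).mp hl) (ee z) hz (by
      rw [← ee_add]; exact hzl) u hu
    change F.F j (ee z, u ᵥ* A.g i j (ee l) (ee z)) = F.F i (ee (z + l), u)
    rw [h, ee_add]
  · intro i z hz u hu ξ w hw
    have hopen : IsOpen {p : (Fin 2 → ℂ) × (Fin r → ℂ) | p.1 ∈ A.U i ∧ p.2 ≠ 0} :=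
      ((A.isOpen_U i).preimage continuous_fst).inter (isOpen_ne.preimage continuous_snd)
    have hmem : ((ee z, u) : (Fin 2 → ℂ) × (Fin r → ℂ)) ∈
        {p : (Fin 2 → ℂ) × (Fin r → ℂ) | p.1 ∈ A.U i ∧ p.2 ≠ 0} := ⟨hz, hu⟩
    have hc : ContDiffAt ℝ 2 (F.F i) (ee z, u) :=
      ((F.smooth i).contDiffAt (hopen.mem_nhds hmem)).of_le (by norm_cast)
    have hlog : ContDiffAt ℝ 2 (fun p => Real.log (F.F i p)) (ee z, u) :=
      hc.log (F.pos i (ee z) hz u hu).ne'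
    have hΘ : ContDiff ℂ 2 (fun p : (ℂ × ℂ) × (Fin r → ℂ) => ((ee p.1, p.2) :
      (Fin 2 → ℂ) × (Fin r → ℂ))) := (ee.contDiff.comp contDiff_fst).prodMk contDiff_snd
    have hcomp : ContDiffAt ℝ 2 (fun p : (ℂ × ℂ) × (Fin r → ℂ) =>
        Real.log (F.F i (ee p.1, p.2))) (z, u) :=
      ContDiffAt.comp (z, u) (g := fun p => Real.log (F.F i p)) hlog
        (hmap.contDiffAt.of_le (by norm_cast))
    have h1 := final_levi_ofReal hcomp (ξ, w)
    have h2 := levi_comp_hol (f := fun p => Real.log (F.F i p))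
      (Θ := fun p : (ℂ × ℂ) × (Fin r → ℂ) => ((ee p.1, p.2) : (Fin 2 → ℂ) × (Fin r → ℂ)))
      (p := (z, u)) hlog hΘ.contDiffAt (ξ, w)
    have h3 : fderiv ℂ (fun p : (ℂ × ℂ) × (Fin r → ℂ) => ((ee p.1, p.2) :
        (Fin 2 → ℂ) × (Fin r → ℂ))) (z, u) (ξ, w) = (ee ξ, w) := by
      have h4 : HasFDerivAt (fun p : (ℂ × ℂ) × (Fin r → ℂ) => ((ee p.1, p.2) :
        (Fin 2 → ℂ) × (Fin r → ℂ))) (((ee : (ℂ × ℂ) →L[ℂ] (Fin 2 → ℂ)).comp
          (ContinuousLinearMap.fst ℂ (ℂ × ℂ) (Fin r → ℂ))).prod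
          (ContinuousLinearMap.snd ℂ (ℂ × ℂ) (Fin r → ℂ))) (z, u) :=
        ((ee : (ℂ × ℂ) →L[ℂ] (Fin 2 → ℂ)).hasFDerivAt.comp (z, u) hasFDerivAt_fst).prodMk
          hasFDerivAt_snd
      rw [h4.fderiv]
      rfl
    rw [h3] at h2
    change 0 < (Final.levi (fun p : (ℂ × ℂ) × (Fin r → ℂ) =>
      ((Real.log (F.F i (ee p.1, p.2)) : ℝ) : ℂ)) (ξ, w) (z, u)).re
    rw [h1, ofReal_re, h2]
    apply hF i (ee z) hz u hu
    rintro ⟨h5, c, h6⟩
    exact hw ⟨by simpa using h5, c, h6⟩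

theorem noGriffiths_toFinal {r : ℕ} (A : TorusBundle (gaussLattice 2) r)
    (hN : ∀ H : HermitianMetric A, ¬ H.GriffithsPositive) (H : Final.Metric (toFinal A)) :
    ¬ H.GriffithsPositive := by
  intro hG
  have hsymm : ∀ z, ee (ee.symm z) = z := ee.apply_symm_apply
  let H' : HermitianMetric A := {
    h := fun i z => H.h i (ee.symm z)
    smooth := by
      intro i a b
      refine (H.smooth i a b).comp (g := fun z => H.h i z a b) (f := ee.symm)
        (ee.symm.contDiff.restrict_scalars ℝ).contDiffOn ?_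
      intro z hz
      change ee (ee.symm z) ∈ A.U i
      rw [hsymm]; exact hz
    posDef := by
      intro i z hz
      apply H.posDef i
      change ee (ee.symm z) ∈ A.U i
      rw [hsymm]; exact hz
    compat := by
      intro i j l hl z hz hzl
      have h := H.compat i j (ee.symm l) (by rw [mem_gauss, hsymm]; exact hl) (ee.symm z)
        (by change ee (ee.symm z) ∈ A.U j; rw [hsymm]; exact hz)
        (by change ee (ee.symm z + ee.symm l) ∈ A.U i; rw [ee_add, hsymm, hsymm]; exact hzl)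
      change H.h j (ee.symm z) = (A.g i j (ee (ee.symm l)) (ee (ee.symm z)))ᴴ *
        H.h i (ee.symm z + ee.symm l) * A.g i j (ee (ee.symm l)) (ee (ee.symm z)) at h
      rw [hsymm, hsymm, ← map_add] at h
      exact h }
  refine hN H' ?_
  intro i z hz ξ hξ v hv
  have hz' : ee.symm z ∈ (toFinal A).U i := by
    change ee (ee.symm z) ∈ A.U i
    rw [hsymm]; exact hz
  have hsm : ∀ a b, ContDiffAt ℝ ∞ (fun w => H.h i w a b) (ee.symm z) := fun a b =>
    (H.smooth i a b).contDiffAt (((toFinal A).isOpen_U i).mem_nhds hz')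
  have hfd : fderiv ℂ ee.symm z = (ee.symm : (Fin 2 → ℂ) →L[ℂ] (ℂ × ℂ)) := ee.symm.fderiv
  have e1 : ∀ a b, levi (fun w => H.h i (ee.symm w) a b) z ξ =
      Final.levi (fun w => H.h i w a b) (ee.symm ξ) (ee.symm z) := by
    intro a b
    have h2 : ContDiffAt ℝ 2 (fun w => H.h i w a b) (ee.symm z) :=
      (hsm a b).of_le (by norm_cast)
    rw [final_levi_eq h2]
    have := levi_comp_hol' (f := fun w => H.h i w a b) (Θ := ee.symm) (p := z) h2
      ee.symm.contDiff.contDiffAt ξ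
    rw [hfd] at this
    exact this
  have e2 : ∀ a b, dHol (fun w => H.h i (ee.symm w) a b) z ξ =
      Final.del (fun w => H.h i w a b) (ee.symm ξ) (ee.symm z) := by
    intro a b
    have h2 : HasFDerivAt (fun w => H.h i w a b) (fderiv ℝ (fun w => H.h i w a b) (ee.symm z))
        (ee.symm z) := ((hsm a b).differentiableAt (by simp)).hasFDerivAt
    have h3 : HasFDerivAt (ee.symm : (Fin 2 → ℂ) → (ℂ × ℂ))
        ((ee.symm : (Fin 2 → ℂ) →L[ℂ] (ℂ × ℂ)).restrictScalars ℝ) z :=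
      (ee.symm : (Fin 2 → ℂ) →L[ℂ] (ℂ × ℂ)).hasFDerivAt.restrictScalars ℝ
    have h4 := h2.comp z h3
    have h5 : fderiv ℝ (fun w => H.h i (ee.symm w) a b) z = _ := h4.fderiv
    unfold dHol Final.del
    rw [h5]
    simp only [ContinuousLinearMap.comp_apply, ContinuousLinearMap.coe_restrictScalars', ContinuousLinearEquiv.coe_coe, map_smul]
  have key : chernCurvature (H'.h i) z ξ v =
      Final.curvature (H.h i) (ee.symm z) (ee.symm ξ) v := by
    unfold chernCurvature Final.curvature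
    simp only [H', e1, e2]
  rw [key]
  exact hG i _ hz' _ (by simpa using hξ) v hv

/-- The final statement from the two halves. -/
theorem final_of (A : TorusBundle (gaussLattice 2) 2) (hA : A.IsAmple)
    (hN : ∀ H : HermitianMetric A, ¬ H.GriffithsPositive) :
    ∃ E : Final.Bundle Final.gauss 2, E.IsAmple ∧ ∀ H : Final.Metric E, ¬ H.GriffithsPositive :=
  ⟨toFinal A, isAmple_toFinal A hA, noGriffiths_toFinal A hN⟩

end Transfer

end Vale.Agent.P296
end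
end

section

section

/-!
# P296: the rank two bundle on `(ℂ/ℤ[i])²` (T5)
-/

namespace Vale.Agent.P296

open Complex Matrix Theta
open scoped ContDiff ComplexOrder

namespace Bdl

theorem isLat_im_int {s : ℂ} (hs : IsLat s) : ∃ n : ℤ, (s.im : ℂ) = n := by
  obtain ⟨a, b, rfl⟩ := hs
  exact ⟨b, by simp⟩

theorem isLat_apply {l : Fin 2 → ℂ} (hl : l ∈ gaussLattice 2) (k : Fin 2) : IsLat (l k) := hl k

theorem eAut_ne_zero (σ : ℝ) (l z : Fin 2 → ℂ) : eAut σ l z ≠ 0 := exp_ne_zero _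

theorem eAut_zero (σ : ℝ) (z : Fin 2 → ℂ) : eAut σ 0 z = 1 := by
  simp [eAut]

theorem eAut_add {σ : ℤ} {l m : Fin 2 → ℂ} (hl : l ∈ gaussLattice 2) (hm : m ∈ gaussLattice 2)
    (z : Fin 2 → ℂ) : eAut σ (l + m) z = eAut σ l (z + m) * eAut σ m z := by
  obtain ⟨a0, b0, h0⟩ := hl 0
  obtain ⟨a1, b1, h1⟩ := hl 1
  obtain ⟨c0, d0, k0⟩ := hm 0
  obtain ⟨c1, d1, k1⟩ := hm 1
  unfold eAut
  rw [← exp_add, exp_eq_exp_iff_exists_int]
  refine ⟨3 * c0 * b0 + 3 * σ * (c0 * b1 + c1 * b0) + 4 * c1 * b1, ?_⟩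
  have e0 : (l 0).im = b0 := by rw [h0]; simp
  have e1 : (l 1).im = b1 := by rw [h1]; simp
  have f0 : (m 0).im = d0 := by rw [k0]; simp
  have f1 : (m 1).im = d1 := by rw [k1]; simp
  simp only [Pi.add_apply, add_im, e0, e1, f0, f1]
  rw [k0, k1]
  push_cast
  have hI : I * I = -1 := I_mul_I
  linear_combination (2 * (Real.pi : ℂ) * (3 * d0 * b0 + 3 * σ * (d0 * b1 + d1 * b0) +
    4 * d1 * b1)) * hI

theorem differentiable_eAut (σ : ℝ) (l : Fin 2 → ℂ) : Differentiable ℂ (eAut σ l) := by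
  unfold eAut
  fun_prop

theorem eAut_ratio {l : Fin 2 → ℂ} (h : l 0 = 0) (z : Fin 2 → ℂ) :
    eAut 1 l z = eAut (-1) l z * exp (-(12 * Real.pi * I * (l 1).im) * z 0) := by
  unfold eAut
  rw [← exp_add]
  congr 1
  simp only [h, zero_im, ofReal_zero, ofReal_one, ofReal_neg]
  ring

theorem ratio_half {l : Fin 2 → ℂ} (hl : l ∈ gaussLattice 2) (h : l 0 = 0) (z : Fin 2 → ℂ) :
    eAut (-1) l z = eAut 1 l z * exp ((12 * Real.pi * I * (l 1).im) * (z 0 - 1 / 2)) := by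
  obtain ⟨n, hn⟩ := isLat_im_int (isLat_apply hl 1)
  rw [eAut_ratio h z, mul_assoc, ← exp_add]
  have : -(12 * Real.pi * I * (l 1).im) * z 0 + 12 * Real.pi * I * (l 1).im * (z 0 - 1 / 2) =
      ((-3 * n : ℤ) : ℂ) * (2 * Real.pi * I) := by
    rw [hn]; push_cast; ring
  rw [this, exp_int_mul_two_pi_mul_I, mul_one]

theorem expm_mul (c s : ℂ) : s * expm c s = exp (c * s) - 1 := by
  have := sub_smul_dslope Complex.exp 0 (c * s)
  simp only [sub_zero, smul_eq_mul, exp_zero] at this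
  unfold expm
  rw [← this]
  ring

theorem expm_zero (c : ℂ) : expm c 0 = c := by
  unfold expm
  rw [mul_zero, dslope_same]
  simp

theorem expm_zero_left (s : ℂ) : expm 0 s = 0 := by
  simp [expm]

theorem differentiable_expm (c : ℂ) : Differentiable ℂ (expm c) := by
  have h : DifferentiableOn ℂ Complex.exp Set.univ := Complex.differentiable_exp.differentiableOn
  have h2 := (Complex.differentiableOn_dslope (c := 0) (s := Set.univ) Filter.univ_mem).mpr h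
  have h3 : Differentiable ℂ (dslope Complex.exp 0) := differentiableOn_univ.mp h2
  unfold expm
  exact (h3.comp (by fun_prop : Differentiable ℂ fun s : ℂ => c * s)).const_mul c

theorem Dm_add {l m : Fin 2 → ℂ} (hl : l ∈ gaussLattice 2) (hm : m ∈ gaussLattice 2)
    (z : Fin 2 → ℂ) : Dm (l + m) z = Dm l (z + m) * Dm m z := by
  have h1 := eAut_add (σ := 1) hl hm z
  have h2 := eAut_add (σ := -1) hl hm z
  push_cast at h1 h2
  unfold Dm
  rw [h1, h2]
  ext a b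
  fin_cases a <;> fin_cases b <;> simp [Matrix.mul_apply]

theorem mem_Uset_zero {z : Fin 2 → ℂ} : z ∈ Uset 0 ↔
    1 / 10 < Metric.infDist (z 0) Lset ∧ 1 / 10 < Metric.infDist (z 0 - 1 / 2) Lset := Iff.rfl

theorem mem_Uset_one {z : Fin 2 → ℂ} : z ∈ Uset 1 ↔ ‖z 0‖ < 1 / 5 := Iff.rfl

theorem mem_Uset_two {z : Fin 2 → ℂ} : z ∈ Uset 2 ↔ ‖z 0 - 1 / 2‖ < 1 / 5 := Iff.rfl

theorem not_isLat_of_infDist {s : ℂ} (h : 1 / 10 < Metric.infDist s Lset) : ¬ IsLat s := by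
  intro hs
  have : Metric.infDist s Lset = 0 := Metric.infDist_zero_of_mem hs
  rw [this] at h
  norm_num at h

theorem isOpen_Uset (i : Fin 3) : IsOpen (Uset i) := by
  fin_cases i
  · have c1 : IsOpen {z : Fin 2 → ℂ | 1 / 10 < Metric.infDist (z 0) Lset} :=
      isOpen_lt continuous_const
        ((Metric.continuous_infDist_pt Lset).comp (by fun_prop : Continuous fun z : Fin 2 → ℂ => z 0))
    have c2 : IsOpen {z : Fin 2 → ℂ | 1 / 10 < Metric.infDist (z 0 - 1 / 2) Lset} :=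
      isOpen_lt continuous_const
        ((Metric.continuous_infDist_pt Lset).comp
          (by fun_prop : Continuous fun z : Fin 2 → ℂ => z 0 - 1 / 2))
    exact c1.inter c2
  · exact isOpen_lt (by fun_prop : Continuous fun z : Fin 2 → ℂ => ‖z 0‖) continuous_const
  · exact isOpen_lt (by fun_prop : Continuous fun z : Fin 2 → ℂ => ‖z 0 - 1 / 2‖) continuous_const

theorem Lset_nonempty : Lset.Nonempty := ⟨0, 0, 0, by simp⟩

/-- translating the first coordinate by a lattice point -/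
theorem shift_mem {y : ℂ} (hy : IsLat y) :
    (fun k : Fin 2 => if k = 0 then -y else 0) ∈ gaussLattice 2 := by
  intro k
  obtain ⟨a, b, hab⟩ := hy.neg
  by_cases hk : k = 0
  · exact ⟨a, b, by simp only [hk, if_true]; exact hab⟩
  · exact ⟨0, 0, by simp [hk]⟩

theorem cover (z : Fin 2 → ℂ) : ∃ i, ∃ l ∈ gaussLattice 2, z + l ∈ Uset i := by
  by_cases h1 : 1 / 10 < Metric.infDist (z 0) Lset
  · by_cases h2 : 1 / 10 < Metric.infDist (z 0 - 1 / 2) Lset
    · refine ⟨0, 0, zero_mem _, ?_⟩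
      rw [add_zero, mem_Uset_zero]
      exact ⟨h1, h2⟩
    · have h3 : Metric.infDist (z 0 - 1 / 2) Lset < 1 / 5 := by
        rw [not_lt] at h2; linarith only [h2]
      obtain ⟨y, hy, hyd⟩ := (Metric.infDist_lt_iff Lset_nonempty).mp h3
      refine ⟨2, _, shift_mem hy, ?_⟩
      rw [mem_Uset_two]
      rw [dist_eq_norm] at hyd
      have : (z + fun k : Fin 2 => if k = 0 then -y else 0) 0 - 1 / 2 = z 0 - 1 / 2 - y := by
        simp only [Fin.isValue, Pi.add_apply, ↓reduceIte, one_div]; ring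
      rw [this]; exact hyd
  · have h3 : Metric.infDist (z 0) Lset < 1 / 5 := by
      rw [not_lt] at h1; linarith
    obtain ⟨y, hy, hyd⟩ := (Metric.infDist_lt_iff Lset_nonempty).mp h3
    refine ⟨1, _, shift_mem hy, ?_⟩
    rw [mem_Uset_one]
    rw [dist_eq_norm] at hyd
    have : (z + fun k : Fin 2 => if k = 0 then -y else 0) 0 = z 0 - y := by
      simp; ring
    rw [this]; exact hyd

/-- two points of the strip `U₁` which differ by a lattice vector -/
theorem lat_one {l z : Fin 2 → ℂ} (hl : l ∈ gaussLattice 2) (h1 : z ∈ Uset 1)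
    (h2 : z + l ∈ Uset 1) : l 0 = 0 := by
  rw [mem_Uset_one] at h1 h2
  apply (isLat_apply hl 0).zero_of_norm
  have : l 0 = (z + l) 0 - z 0 := by simp
  rw [this]
  calc ‖(z + l) 0 - z 0‖ ≤ ‖(z + l) 0‖ + ‖z 0‖ := norm_sub_le _ _
    _ < 1 := by linarith

theorem lat_two {l z : Fin 2 → ℂ} (hl : l ∈ gaussLattice 2) (h1 : z ∈ Uset 2)
    (h2 : z + l ∈ Uset 2) : l 0 = 0 := by
  rw [mem_Uset_two] at h1 h2
  apply (isLat_apply hl 0).zero_of_norm
  have : l 0 = ((z + l) 0 - 1 / 2) - (z 0 - 1 / 2) := by simp only [Fin.isValue, Pi.add_apply, one_div, sub_sub_sub_cancel_right, add_sub_cancel_left]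
  rw [this]
  calc ‖((z + l) 0 - 1 / 2) - (z 0 - 1 / 2)‖ ≤ ‖(z + l) 0 - 1 / 2‖ + ‖z 0 - 1 / 2‖ :=
        norm_sub_le _ _
    _ < 1 := by linarith only [h1, h2]

theorem lat_half {s t : ℂ} (hl : IsLat (t - s)) (h1 : ‖s‖ < 1 / 5)
    (h2 : ‖t - 1 / 2‖ < 1 / 5) : False := by
  have h3 : ‖t - s - 1 / 2‖ < 2 / 5 := by
    have : t - s - 1 / 2 = (t - 1 / 2) - s := by ring
    rw [this]
    calc ‖(t - 1 / 2) - s‖ ≤ ‖t - 1 / 2‖ + ‖s‖ := norm_sub_le _ _
      _ < 2 / 5 := by linarith only [h1, h2]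
  obtain ⟨a, b, hab⟩ := hl
  rw [hab] at h3
  have h4 := (abs_re_le_norm _).trans_lt h3
  simp only [sub_re, add_re, intCast_re, mul_re, I_re, mul_zero, intCast_im, I_im, mul_one,
    sub_self, add_zero, one_div, inv_re] at h4
  norm_num at h4
  rw [abs_lt] at h4
  obtain ⟨h5, h6⟩ := h4
  have h7 : (0 : ℝ) < a := by linarith only [h5]
  have h8 : (a : ℝ) < 1 := by linarith only [h6]
  have h9 : 0 < a := by exact_mod_cast h7
  have h10 : a < 1 := by exact_mod_cast h8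
  omega

theorem lat_one_two {l z : Fin 2 → ℂ} (hl : l ∈ gaussLattice 2) (h1 : z ∈ Uset 1)
    (h2 : z + l ∈ Uset 2) : False := by
  rw [mem_Uset_one] at h1
  rw [mem_Uset_two] at h2
  refine lat_half (s := z 0) (t := (z + l) 0) ?_ h1 h2
  simpa using isLat_apply hl 0

theorem lat_two_one {l z : Fin 2 → ℂ} (hl : l ∈ gaussLattice 2) (h1 : z ∈ Uset 2)
    (h2 : z + l ∈ Uset 1) : False := by
  rw [mem_Uset_one] at h2
  rw [mem_Uset_two] at h1
  refine lat_half (s := (z + l) 0) (t := z 0) ?_ h2 h1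
  have := (isLat_apply hl 0).neg
  simpa using this

theorem zero_one_ne {l z : Fin 2 → ℂ} (hl : l ∈ gaussLattice 2) (h1 : z ∈ Uset 0) :
    z 0 + l 0 ≠ 0 := by
  intro h0
  apply not_isLat_of_infDist (mem_Uset_zero.mp h1).1
  have : z 0 = - l 0 := by linear_combination h0
  rw [this]
  exact (isLat_apply hl 0).neg

theorem zero_two_ne {l z : Fin 2 → ℂ} (hl : l ∈ gaussLattice 2) (h1 : z ∈ Uset 0) :
    z 0 + l 0 - 1 / 2 ≠ 0 := by
  intro h0
  apply not_isLat_of_infDist (mem_Uset_zero.mp h1).2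
  have : z 0 - 1 / 2 = - l 0 := by linear_combination h0
  rw [this]
  exact (isLat_apply hl 0).neg

theorem Wm_zero (ε : ℝ) (z : Fin 2 → ℂ) : Wm ε 0 z = 1 := rfl

theorem Wm_one (ε : ℝ) (z : Fin 2 → ℂ) : Wm ε 1 z = !![(ε : ℂ), z 0; 1, 0] := rfl

theorem Wm_two (ε : ℝ) (z : Fin 2 → ℂ) : Wm ε 2 z = !![1, 0; (ε : ℂ), z 0 - 1 / 2] := rfl

theorem det_Wm_zero (ε : ℝ) (z : Fin 2 → ℂ) : (Wm ε 0 z).det = 1 := by
  simp [Wm_zero]

theorem det_Wm_one (ε : ℝ) (z : Fin 2 → ℂ) : (Wm ε 1 z).det = -z 0 := by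
  simp [Wm_one, Matrix.det_fin_two]

theorem det_Wm_two (ε : ℝ) (z : Fin 2 → ℂ) : (Wm ε 2 z).det = z 0 - 1 / 2 := by
  simp [Wm_two, Matrix.det_fin_two]

theorem gmat_one_one (ε : ℝ) (l z : Fin 2 → ℂ) : gmat ε 1 1 l z = !![eAut (-1) l z, 0;
      ε * eAut (-1) l z * expm (-(12 * Real.pi * I * (l 1).im)) (z 0), eAut 1 l z] := by
  simp [gmat]

theorem gmat_two_two (ε : ℝ) (l z : Fin 2 → ℂ) : gmat ε 2 2 l z = !![eAut 1 l z, 0;
      ε * eAut 1 l z * expm (12 * Real.pi * I * (l 1).im) (z 0 - 1 / 2), eAut (-1) l z] := by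
  simp only [gmat, Fin.isValue, Fin.reduceEq, and_self, ↓reduceIte, one_div]

theorem gmat_zero (ε : ℝ) (j : Fin 3) (l z : Fin 2 → ℂ) :
    gmat ε 0 j l z = Dm l z * Wm ε j z := by
  simp [gmat, Wm_zero]

theorem gmat_one_zero (ε : ℝ) (l z : Fin 2 → ℂ) :
    gmat ε 1 0 l z = (Wm ε 1 (z + l))⁻¹ * Dm l z := by
  simp only [gmat, Fin.isValue, zero_ne_one, and_false, ↓reduceIte, Fin.reduceEq, and_self, Wm_zero, mul_one]

theorem gmat_two_zero (ε : ℝ) (l z : Fin 2 → ℂ) :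
    gmat ε 2 0 l z = (Wm ε 2 (z + l))⁻¹ * Dm l z := by
  simp only [gmat, Fin.isValue, Fin.reduceEq, zero_ne_one, and_self, ↓reduceIte, and_false, Wm_zero, mul_one]

theorem Wm_one_inv {ε : ℝ} {z : Fin 2 → ℂ} (h : z 0 ≠ 0) :
    (Wm ε 1 z)⁻¹ = !![0, 1; (z 0)⁻¹, -(ε * (z 0)⁻¹)] := by
  apply Matrix.inv_eq_right_inv
  rw [Wm_one]
  ext a b
  fin_cases a <;> fin_cases b <;> simp [Matrix.mul_apply, Fin.sum_univ_two, h] <;> field_simp <;>
    ring

theorem Wm_two_inv {ε : ℝ} {z : Fin 2 → ℂ} (h : z 0 - 1 / 2 ≠ 0) :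
    (Wm ε 2 z)⁻¹ = !![1, 0; -(ε * (z 0 - 1 / 2)⁻¹), (z 0 - 1 / 2)⁻¹] := by
  apply Matrix.inv_eq_right_inv
  rw [Wm_two]
  generalize z 0 - 1 / 2 = x at h
  ext a b
  fin_cases a <;> fin_cases b <;> simp [Matrix.mul_apply, Fin.sum_univ_two, h] <;> field_simp <;>
    ring

end Bdl

open Bdl

/-- The fundamental relation. -/
theorem gmat_rel' (ε : ℝ) (i j : Fin 3) {l z : Fin 2 → ℂ} (hl : l ∈ gaussLattice 2)
    (hz : z ∈ Uset j) (hzl : z + l ∈ Uset i) :
    Wm ε i (z + l) * gmat ε i j l z = Dm l z * Wm ε j z := by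
  fin_cases i
  · simp only [Fin.zero_eta, Fin.isValue, gmat_zero, Wm_zero, Matrix.one_mul]
  · fin_cases j
    · simp only [Fin.zero_eta, Fin.isValue, Fin.mk_one]
      have h0 := zero_one_ne hl hz
      rw [gmat_one_zero, Matrix.mul_nonsing_inv_cancel_left, Wm_zero, Matrix.mul_one]
      rw [det_Wm_one]
      exact isUnit_iff_ne_zero.mpr (neg_ne_zero.mpr h0)
    · simp only [Fin.mk_one, Fin.isValue]
      have h0 := lat_one hl hz hzl
      have h1 := eAut_ratio h0 z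
      have h2 := expm_mul (-(12 * Real.pi * I * (l 1).im)) (z 0)
      rw [gmat_one_one, Wm_one, Wm_one]
      ext a b
      fin_cases a <;> fin_cases b <;>
        simp [Dm, Matrix.mul_apply, Fin.sum_univ_two, h0]
      · rw [h1]
        linear_combination (ε * eAut (-1) l z) * h2
      · ring
    · exact (lat_two_one hl hz hzl).elim
  · fin_cases j
    · simp only [Fin.zero_eta, Fin.isValue, Fin.reduceFinMk]
      have h0 := zero_two_ne hl hz
      rw [gmat_two_zero, Matrix.mul_nonsing_inv_cancel_left, Wm_zero, Matrix.mul_one]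
      rw [det_Wm_two]
      exact isUnit_iff_ne_zero.mpr h0
    · exact (lat_one_two hl hz hzl).elim
    · simp only [Fin.isValue, Fin.reduceFinMk]
      have h0 := lat_two hl hz hzl
      have h1 := ratio_half hl h0 z
      have h2 := expm_mul (12 * Real.pi * I * (l 1).im) (z 0 - 1 / 2)
      rw [gmat_two_two, Wm_two, Wm_two]
      ext a b
      fin_cases a <;> fin_cases b <;>
        simp [Dm, Matrix.mul_apply, Fin.sum_univ_two, h0]
      · rw [h1]
        rw [one_div] at h2 ⊢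
        linear_combination (ε * eAut 1 l z) * h2
      · ring

theorem gmat_cocycle (ε : ℝ) (i j k : Fin 3) {l m z : Fin 2 → ℂ} (hl : l ∈ gaussLattice 2)
    (hm : m ∈ gaussLattice 2) (hz : z ∈ Uset k) (hj : z + m ∈ Uset j)
    (hi : z + m + l ∈ Uset i) :
    gmat ε i j l (z + m) * gmat ε j k m z = gmat ε i k (l + m) z := by
  have hi' : z + (l + m) ∈ Uset i := by rwa [add_comm l m, ← add_assoc]
  have key : Wm ε i (z + m + l) * (gmat ε i j l (z + m) * gmat ε j k m z) =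
      Wm ε i (z + m + l) * gmat ε i k (l + m) z := by
    have h1 := gmat_rel' ε i j hl hj hi
    have h2 := gmat_rel' ε j k hm hz hj
    have h3 := gmat_rel' ε i k (add_mem hl hm) hz hi'
    rw [show z + (l + m) = z + m + l by rw [add_comm l m, ← add_assoc]] at h3
    rw [h3, ← Matrix.mul_assoc, h1, Matrix.mul_assoc, h2, ← Matrix.mul_assoc, Dm_add hl hm]
  by_cases hdet : (Wm ε i (z + m + l)).det = 0
  · fin_cases i
    · simp [det_Wm_zero] at hdet
    · simp only [Fin.mk_one, Fin.isValue, det_Wm_one, neg_eq_zero, Pi.add_apply] at hdet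
      have hlat1 : IsLat (z 0 + m 0) := by
        have : z 0 + m 0 = - l 0 := by linear_combination hdet
        rw [this]; exact (isLat_apply hl 0).neg
      have hlat2 : IsLat (z 0) := by
        have : z 0 = - (l 0 + m 0) := by linear_combination hdet
        rw [this]; exact ((isLat_apply hl 0).add (isLat_apply hm 0)).neg
      have hj1 : j = 1 := by
        fin_cases j
        · exact (not_isLat_of_infDist (mem_Uset_zero.mp hj).1 hlat1).elim
        · rfl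
        · exact (lat_two_one hl hj hi).elim
      have hk1 : k = 1 := by
        fin_cases k
        · exact (not_isLat_of_infDist (mem_Uset_zero.mp hz).1 hlat2).elim
        · rfl
        · exact (lat_two_one (add_mem hl hm) hz hi').elim
      subst hj1 hk1
      have hl0 : l 0 = 0 := lat_one hl hj hi
      have hm0 : m 0 = 0 := lat_one hm hz hj
      have hz0 : z 0 = 0 := by linear_combination hdet - hm0 - hl0
      have a1 := eAut_add (σ := 1) hl hm z
      have a2 := eAut_add (σ := -1) hl hm z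
      have r1 := eAut_ratio hl0 (z + m)
      push_cast at a1 a2
      simp only [Fin.mk_one, Fin.isValue, gmat_one_one]
      ext a b
      fin_cases a <;> fin_cases b
      · simp only [Fin.isValue, Pi.add_apply, Fin.zero_eta, Matrix.mul_apply, of_apply, cons_val', cons_val_fin_one, cons_val_zero, Fin.sum_univ_two, cons_val_one, zero_mul, add_zero, a2, add_im, ofReal_add]
      · simp only [Fin.isValue, Pi.add_apply, Fin.zero_eta, Fin.mk_one, Matrix.mul_apply, of_apply, cons_val', cons_val_fin_one, cons_val_zero, cons_val_one, Fin.sum_univ_two, mul_zero, zero_mul, add_zero, add_im, ofReal_add]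
      · simp only [Fin.isValue, Pi.add_apply, hz0, hm0, add_zero, expm_zero, mul_neg, Fin.mk_one, Fin.zero_eta, Matrix.mul_apply, of_apply, cons_val', cons_val_fin_one, cons_val_one, cons_val_zero, Fin.sum_univ_two, neg_mul, a2, add_im, ofReal_add]
        simp only [Pi.add_apply, hz0, hm0, add_zero, mul_zero, exp_zero, mul_one] at r1
        rw [r1]
        ring
      · simp only [Fin.isValue, Pi.add_apply, Fin.mk_one, Matrix.mul_apply, of_apply, cons_val', cons_val_fin_one, cons_val_one, Fin.sum_univ_two, cons_val_zero, mul_zero, zero_add, add_im, ofReal_add, a1]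
    · have hdet2 : z 0 + m 0 + l 0 - 1 / 2 = 0 := by
        simpa only [Fin.isValue, one_div, Fin.reduceFinMk, det_Wm_two, Pi.add_apply] using hdet
      have hlat1 : IsLat (z 0 + m 0 - 1 / 2) := by
        have : z 0 + m 0 - 1 / 2 = - l 0 := by linear_combination hdet2
        rw [this]; exact (isLat_apply hl 0).neg
      have hlat2 : IsLat (z 0 - 1 / 2) := by
        have : z 0 - 1 / 2 = - (l 0 + m 0) := by linear_combination hdet2
        rw [this]; exact ((isLat_apply hl 0).add (isLat_apply hm 0)).neg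
      have hj1 : j = 2 := by
        fin_cases j
        · exact (not_isLat_of_infDist (mem_Uset_zero.mp hj).2 hlat1).elim
        · exact (lat_one_two hl hj hi).elim
        · rfl
      have hk1 : k = 2 := by
        fin_cases k
        · exact (not_isLat_of_infDist (mem_Uset_zero.mp hz).2 hlat2).elim
        · exact (lat_one_two (add_mem hl hm) hz hi').elim
        · rfl
      subst hj1 hk1
      have hl0 : l 0 = 0 := lat_two hl hj hi
      have hm0 : m 0 = 0 := lat_two hm hz hj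
      have hz0 : z 0 - 1 / 2 = 0 := by linear_combination hdet2 - hm0 - hl0
      have a1 := eAut_add (σ := 1) hl hm z
      have a2 := eAut_add (σ := -1) hl hm z
      have r1 := ratio_half hl hl0 (z + m)
      push_cast at a1 a2
      have hzm : (z + m) 0 - 1 / 2 = 0 := by simp only [Pi.add_apply, hm0, add_zero]; exact hz0
      rw [hzm, mul_zero, exp_zero, mul_one] at r1
      simp only [Fin.isValue, Fin.reduceFinMk, gmat_two_two]
      ext a b
      fin_cases a <;> fin_cases b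
      · simp only [Fin.isValue, Pi.add_apply, one_div, Fin.zero_eta, Matrix.mul_apply, of_apply, cons_val', cons_val_fin_one, cons_val_zero, Fin.sum_univ_two, cons_val_one, zero_mul, add_zero, a1, add_im, ofReal_add]
      · simp only [Fin.isValue, Pi.add_apply, one_div, Fin.zero_eta, Fin.mk_one, Matrix.mul_apply, of_apply, cons_val', cons_val_fin_one, cons_val_zero, cons_val_one, Fin.sum_univ_two, mul_zero, zero_mul, add_zero, add_im, ofReal_add]
      · rw [one_div] at hz0 hzm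
        simp only [Fin.isValue, Pi.add_apply, hm0, add_zero, one_div, hz0, expm_zero, Fin.mk_one, Fin.zero_eta, Matrix.mul_apply, of_apply, cons_val', cons_val_fin_one, cons_val_one, cons_val_zero, Fin.sum_univ_two, a1, add_im, ofReal_add]
        rw [r1]
        ring
      · simp only [Fin.isValue, Pi.add_apply, one_div, Fin.mk_one, Matrix.mul_apply, of_apply, cons_val', cons_val_fin_one, cons_val_one, Fin.sum_univ_two, cons_val_zero, mul_zero, zero_add, add_im, ofReal_add, a2]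
  · have hu : IsUnit (Wm ε i (z + m + l)) :=
      (Matrix.isUnit_iff_isUnit_det _).mpr (isUnit_iff_ne_zero.mpr hdet)
    exact hu.mul_left_cancel key

theorem gmat_self (ε : ℝ) (i : Fin 3) (z : Fin 2 → ℂ) : gmat ε i i 0 z = 1 := by
  fin_cases i
  · simp only [gmat, Fin.zero_eta, Fin.isValue, zero_ne_one, and_self, ↓reduceIte, Fin.reduceEq, add_zero, Wm_zero, one_fin_two, Dm, eAut_zero, det_fin_two_of, mul_one, mul_zero, sub_zero, isUnit_iff_ne_zero, ne_eq, one_ne_zero, not_false_eq_true, nonsing_inv_mul, cons_mul, Nat.succ_eq_add_one, Nat.reduceAdd, vecMul_cons, head_cons, one_smul, tail_cons, zero_smul, empty_vecMul, zero_add, empty_mul, Equiv.symm_apply_apply]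
  · simp [gmat_one_one, eAut_zero, Matrix.one_fin_two, expm_zero_left]
  · simp [gmat_two_two, eAut_zero, Matrix.one_fin_two, expm_zero_left]

theorem gmat_holo (ε : ℝ) (i j : Fin 3) {l : Fin 2 → ℂ} (hl : l ∈ gaussLattice 2) (a b : Fin 2) :
    DifferentiableOn ℂ (fun z => gmat ε i j l z a b) {z | z ∈ Uset j ∧ z + l ∈ Uset i} := by
  have d1 : ∀ σ : ℝ, Differentiable ℂ (eAut σ l) := fun σ => differentiable_eAut σ l
  have d2 : ∀ c : ℂ, Differentiable ℂ (fun z : Fin 2 → ℂ => expm c (z 0)) := fun c =>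
    (differentiable_expm c).comp (by fun_prop)
  have d3 : ∀ c : ℂ, Differentiable ℂ (fun z : Fin 2 → ℂ => expm c (z 0 - 1 / 2)) := fun c =>
    (differentiable_expm c).comp (by fun_prop)
  fin_cases i
  · have : Differentiable ℂ (fun z => gmat ε 0 j l z a b) := by
      fin_cases j <;> fin_cases a <;> fin_cases b <;>
        simp [gmat_zero, Wm_zero, Wm_one, Wm_two, Dm, Matrix.mul_apply, Fin.sum_univ_two] <;>
        fun_prop
    exact this.differentiableOn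
  · simp only [Fin.mk_one, Fin.isValue]
    fin_cases j
    · simp only [Fin.zero_eta, Fin.isValue]
      have hc : ∀ z ∈ {z | z ∈ Uset 0 ∧ z + l ∈ Uset 1}, gmat ε 1 0 l z a b =
          (!![0, 1; (z 0 + l 0)⁻¹, -(ε * (z 0 + l 0)⁻¹)] * Dm l z) a b := by
        intro z hz
        rw [gmat_one_zero, Wm_one_inv (z := z + l) (zero_one_ne hl hz.1)]
        rfl
      have h0 : ∀ z ∈ {z : Fin 2 → ℂ | z ∈ Uset 0 ∧ z + l ∈ Uset 1}, z 0 + l 0 ≠ 0 :=
        fun z hz => zero_one_ne hl hz.1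
      have hinv : DifferentiableOn ℂ (fun z : Fin 2 → ℂ => (z 0 + l 0)⁻¹)
          {z | z ∈ Uset 0 ∧ z + l ∈ Uset 1} :=
        DifferentiableOn.fun_inv (by fun_prop) h0
      refine DifferentiableOn.congr ?_ hc
      have g1 := (d1 1).differentiableOn (s := {z | z ∈ Uset 0 ∧ z + l ∈ Uset 1})
      have g2 := (d1 (-1)).differentiableOn (s := {z | z ∈ Uset 0 ∧ z + l ∈ Uset 1})
      fin_cases a <;> fin_cases b
      · simp [Dm, Matrix.mul_apply, Fin.sum_univ_two]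
      · simpa only [Fin.isValue, Dm, Fin.zero_eta, Fin.mk_one, Matrix.mul_apply, of_apply, cons_val',     cons_val_fin_one, cons_val_zero, cons_val_one, Fin.sum_univ_two, mul_zero, one_mul, zero_add] using g2
      · simpa only [Fin.isValue, Dm, Fin.mk_one, Fin.zero_eta, Matrix.mul_apply, of_apply, cons_val',     cons_val_fin_one, cons_val_one, cons_val_zero, Fin.sum_univ_two, mul_zero, add_zero] using hinv.fun_mul g1
      · simpa only [Fin.isValue, Dm, Fin.mk_one, Matrix.mul_apply, of_apply, cons_val', cons_val_fin_one,     cons_val_one, Fin.sum_univ_two, cons_val_zero, mul_zero, neg_mul, zero_add, differentiableOn_fun_neg_iff] using     ((hinv.const_mul (ε : ℂ)).fun_mul g2).fun_neg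
    · have : Differentiable ℂ (fun z => gmat ε 1 1 l z a b) := by
        fin_cases a <;> fin_cases b
        · simpa [gmat_one_one] using d1 (-1)
        · simp [gmat_one_one]
        · simpa only [Fin.isValue, Fin.mk_one, Fin.zero_eta, gmat_one_one, of_apply, cons_val', cons_val_zero,     cons_val_fin_one, cons_val_one] using ((d1 (-1)).const_mul (ε : ℂ)).fun_mul (d2 _)
        · simpa [gmat_one_one] using d1 1
      exact this.differentiableOn
    · intro z hz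
      exact (lat_two_one hl hz.1 hz.2).elim
  · simp only [Fin.isValue, Fin.reduceFinMk]
    fin_cases j
    · simp only [Fin.zero_eta, Fin.isValue]
      have hc : ∀ z ∈ {z | z ∈ Uset 0 ∧ z + l ∈ Uset 2}, gmat ε 2 0 l z a b =
          (!![1, 0; -(ε * (z 0 + l 0 - 1 / 2)⁻¹), (z 0 + l 0 - 1 / 2)⁻¹] * Dm l z) a b := by
        intro z hz
        rw [gmat_two_zero, Wm_two_inv (z := z + l) (zero_two_ne hl hz.1)]
        rfl
      have h0 : ∀ z ∈ {z : Fin 2 → ℂ | z ∈ Uset 0 ∧ z + l ∈ Uset 2}, z 0 + l 0 - 1 / 2 ≠ 0 :=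
        fun z hz => zero_two_ne hl hz.1
      have hinv : DifferentiableOn ℂ (fun z : Fin 2 → ℂ => (z 0 + l 0 - 1 / 2)⁻¹)
          {z | z ∈ Uset 0 ∧ z + l ∈ Uset 2} :=
        DifferentiableOn.fun_inv (by fun_prop) h0
      refine DifferentiableOn.congr ?_ hc
      have g1 := (d1 1).differentiableOn (s := {z | z ∈ Uset 0 ∧ z + l ∈ Uset 2})
      have g2 := (d1 (-1)).differentiableOn (s := {z | z ∈ Uset 0 ∧ z + l ∈ Uset 2})
      fin_cases a <;> fin_cases b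
      · simpa only [Fin.isValue, one_div, Dm, Fin.zero_eta, Matrix.mul_apply, of_apply, cons_val', cons_val_fin_one,     cons_val_zero, Fin.sum_univ_two, one_mul, cons_val_one, mul_zero, add_zero] using g1
      · simp only [Fin.isValue, one_div, Dm, Fin.zero_eta, Fin.mk_one, Matrix.mul_apply, of_apply, cons_val', cons_val_fin_one, cons_val_zero, cons_val_one, Fin.sum_univ_two, mul_zero, zero_mul, add_zero, differentiableOn_const]
      · simpa only [Fin.isValue, one_div, Dm, Fin.mk_one, Fin.zero_eta, Matrix.mul_apply, of_apply, cons_val',     cons_val_fin_one, cons_val_one, cons_val_zero, Fin.sum_univ_two, neg_mul, mul_zero, add_zero,     differentiableOn_fun_neg_iff] using ((hinv.const_mul (ε : ℂ)).fun_mul g1).fun_neg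
      · simpa only [Fin.isValue, one_div, Dm, Fin.mk_one, Matrix.mul_apply, of_apply, cons_val', cons_val_fin_one,     cons_val_one, Fin.sum_univ_two, cons_val_zero, mul_zero, zero_add] using hinv.fun_mul g2
    · intro z hz
      exact (lat_one_two hl hz.1 hz.2).elim
    · have : Differentiable ℂ (fun z => gmat ε 2 2 l z a b) := by
        fin_cases a <;> fin_cases b
        · simpa [gmat_two_two] using d1 1
        · simp [gmat_two_two]
        · simpa only [Fin.isValue, Fin.mk_one, Fin.zero_eta, gmat_two_two, one_div, of_apply, cons_val', cons_val_zero,     cons_val_fin_one, cons_val_one] using ((d1 1).const_mul (ε : ℂ)).fun_mul (d3 _)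
        · simpa [gmat_two_two] using d1 (-1)
      exact this.differentiableOn

/-- The rank two bundle. -/
noncomputable def bundle (ε : ℝ) (_hε : 0 < ε) : TorusBundle (gaussLattice 2) 2 where
  ι := Fin 3
  U := Uset
  isOpen_U := isOpen_Uset
  cover := cover
  g := gmat ε
  holo := fun i j _ hl a b => gmat_holo ε i j hl a b
  g_self := fun i z _ => gmat_self ε i z
  cocycle := fun i j k _ hl _ hm _ hz hj hi => gmat_cocycle ε i j k hl hm hz hj hi

theorem gmat_rel {ε : ℝ} (_hε : 0 < ε) (i j : Fin 3) {l z : Fin 2 → ℂ} (hl : l ∈ gaussLattice 2)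
    (hz : z ∈ Uset j) (hzl : z + l ∈ Uset i) :
    Wm ε i (z + l) * gmat ε i j l z = Dm l z * Wm ε j z := gmat_rel' ε i j hl hz hzl

theorem isUnit_gmat {ε : ℝ} (_hε : 0 < ε) (i j : Fin 3) {l z : Fin 2 → ℂ}
    (hl : l ∈ gaussLattice 2) (hz : z ∈ Uset j) (hzl : z + l ∈ Uset i) :
    IsUnit (gmat ε i j l z) := by
  have h1 : gmat ε j i (-l) (z + l) * gmat ε i j l z = 1 := by
    have := gmat_cocycle ε j i j (neg_mem hl) hl hz hzl (by simpa using hz)
    rw [this, neg_add_cancel, gmat_self]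
  exact (Matrix.isUnit_iff_isUnit_det _).mpr (Matrix.isUnit_det_of_left_inverse h1)

theorem norm_eAut (σ : ℝ) (l z : Fin 2 → ℂ) :
    ‖eAut σ l z‖ ^ 2 = Real.exp (phi σ (z + l) - phi σ z) := by
  unfold eAut phi
  rw [norm_exp, ← Real.exp_nat_mul]
  congr 1
  simp only [Nat.cast_ofNat, Fin.isValue, pow_two, mul_re, ofReal_re, add_re, neg_re, re_ofNat, I_re, mul_zero, im_ofNat, I_im, mul_one, sub_self, zero_mul, sub_zero, mul_im, add_zero, ofReal_im, add_im, zero_add, zero_sub, neg_neg, neg_im, mul_neg, neg_zero, Pi.add_apply]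
  ring

end Vale.Agent.P296
end
end

section

section

/-!
# P296, T6: compatibility, smoothness, positivity and homogeneity of the Finsler function
-/

namespace Vale.Agent.P296

open Complex Matrix Theta
open scoped ContDiff ComplexOrder Topology

namespace Compat

theorem norm_eAut_sq (σ : ℝ) (l z : Fin 2 → ℂ) :
    ‖eAut σ l z‖ ^ 2 = Real.exp (phi σ (z + l) - phi σ z) := by
  unfold eAut phi
  rw [norm_exp, ← Real.exp_nat_mul]
  congr 1
  simp only [Nat.cast_ofNat, Fin.isValue, pow_two, mul_re, ofReal_re, add_re, neg_re, re_ofNat, I_re, mul_zero, im_ofNat, I_im, mul_one, sub_self, zero_mul, sub_zero, mul_im, add_zero, ofReal_im, add_im, zero_add, zero_sub, neg_neg, neg_im, mul_neg, neg_zero, Pi.add_apply]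
  ring

theorem norm_del_sq (z : Fin 2 → ℂ) :
    ‖del (z 0)‖ ^ 2 = hw (z 0) * hw (z 0 - 1 / 2) * Real.exp (phiD z) := by
  unfold del hw phiD
  have him : (z 0 - 1 / 2).im = (z 0).im := by simp
  rw [norm_mul, mul_pow, him]
  have h : Real.exp (-(2 * Real.pi * (z 0).im ^ 2) + 2 * Real.pi * (z 0).im)
      * Real.exp (-(2 * Real.pi * (z 0).im ^ 2) + 2 * Real.pi * (z 0).im)
      * Real.exp (4 * Real.pi * (z 0).im ^ 2 - 4 * Real.pi * (z 0).im) = 1 := by
    rw [← Real.exp_add, ← Real.exp_add, ← Real.exp_zero]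
    congr 1; ring
  calc ‖th (z 0)‖ ^ 2 * ‖th (z 0 - 1 / 2)‖ ^ 2
      = ‖th (z 0)‖ ^ 2 * ‖th (z 0 - 1 / 2)‖ ^ 2 * 1 := by ring
    _ = _ := by rw [← h]; ring

theorem isLat_of_mem {l : Fin 2 → ℂ} (hl : l ∈ gaussLattice 2) (k : Fin 2) : IsLat (l k) := by
  obtain ⟨a, b, h⟩ := hl k
  exact ⟨a, b, h⟩

theorem norm_del_sq' {l z : Fin 2 → ℂ} (hl : l ∈ gaussLattice 2) :
    ‖del ((z + l) 0)‖ ^ 2 = hw (z 0) * hw (z 0 - 1 / 2) * Real.exp (phiD (z + l)) := by
  rw [norm_del_sq]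
  have e1 : (z + l) 0 = z 0 + l 0 := rfl
  have e2 : z 0 + l 0 - 1 / 2 = (z 0 - 1 / 2) + l 0 := by ring
  rw [e1, e2, hw_add_lat _ (isLat_of_mem hl 0), hw_add_lat _ (isLat_of_mem hl 0)]

theorem term_auto (i j d : ℕ) {e1 e2 δ δ' g : ℂ} {p p' q q' D D' H : ℝ}
    (h1 : ‖e1‖ ^ 2 = Real.exp (p' - p)) (h2 : ‖e2‖ ^ 2 = Real.exp (q' - q))
    (hδ : ‖δ‖ ^ 2 = H * Real.exp D) (hδ' : ‖δ'‖ ^ 2 = H * Real.exp D') :
    ‖δ ^ d * (e1 ^ i * e2 ^ j * g)‖ ^ 2 * Real.exp (i * p + j * q - d * D)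
      = ‖δ' ^ d * g‖ ^ 2 * Real.exp (i * p' + j * q' - d * D') := by
  have a1 : ‖δ ^ d * (e1 ^ i * e2 ^ j * g)‖ ^ 2
      = (‖δ‖ ^ 2) ^ d * ((‖e1‖ ^ 2) ^ i * (‖e2‖ ^ 2) ^ j * ‖g‖ ^ 2) := by
    simp only [norm_mul, norm_pow, mul_pow]
    ring
  have a2 : ‖δ' ^ d * g‖ ^ 2 = (‖δ'‖ ^ 2) ^ d * ‖g‖ ^ 2 := by
    simp only [norm_mul, norm_pow, mul_pow]
    ring
  rw [a1, a2, h1, h2, hδ, hδ', mul_pow, mul_pow, ← Real.exp_nat_mul, ← Real.exp_nat_mul,
    ← Real.exp_nat_mul, ← Real.exp_nat_mul]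
  have b1 : Real.exp (d * D) * (Real.exp (i * (p' - p)) * Real.exp (j * (q' - q)))
      * Real.exp (i * p + j * q - d * D) = Real.exp (i * p' + j * q') := by
    rw [← Real.exp_add, ← Real.exp_add, ← Real.exp_add]
    congr 1; ring
  have b2 : Real.exp (d * D') * Real.exp (i * p' + j * q' - d * D') = Real.exp (i * p' + j * q') := by
    rw [← Real.exp_add]
    congr 1; ring
  calc H ^ d * Real.exp (d * D) * (Real.exp (i * (p' - p)) * Real.exp (j * (q' - q)) * ‖g‖ ^ 2)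
        * Real.exp (i * p + j * q - d * D)
      = H ^ d * ‖g‖ ^ 2 * (Real.exp (d * D) * (Real.exp (i * (p' - p)) * Real.exp (j * (q' - q)))
      * Real.exp (i * p + j * q - d * D)) := by ring
    _ = H ^ d * ‖g‖ ^ 2 * (Real.exp (d * D') * Real.exp (i * p' + j * q' - d * D')) := by
        rw [b1, b2]
    _ = _ := by ring

/-- the general shape of the four components -/
noncomputable def Gk (δ g0 g1 g2 g3 : ℂ) : Fin 4 → ℂ := ![g0, δ * g1, δ ^ 2 * g2, δ ^ 3 * g3]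

theorem Pgen_auto (B : Fin 4 → ℝ) {l z : Fin 2 → ℂ} {e1 e2 δ δ' g0 g1 g2 g3 : ℂ} {H : ℝ}
    (h1 : ‖e1‖ ^ 2 = Real.exp (phi 1 (z + l) - phi 1 z))
    (h2 : ‖e2‖ ^ 2 = Real.exp (phi (-1) (z + l) - phi (-1) z))
    (hδ : ‖δ‖ ^ 2 = H * Real.exp (phiD z)) (hδ' : ‖δ'‖ ^ 2 = H * Real.exp (phiD (z + l))) :
    Pgen B (Gk δ (e1 ^ 3 * g0) (e2 ^ 3 * g1) (e1 ^ 2 * e2 * g2) (e1 * e2 ^ 2 * g3)) z
      = Pgen B (Gk δ' g0 g1 g2 g3) (z + l) := by
  have t0 := term_auto (g := g0) 3 0 0 h1 h2 hδ hδ'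
  have t1 := term_auto (g := g1) 0 3 1 h1 h2 hδ hδ'
  have t2 := term_auto (g := g2) 2 1 2 h1 h2 hδ hδ'
  have t3 := term_auto (g := g3) 1 2 3 h1 h2 hδ hδ'
  unfold Pgen
  rw [Fin.sum_univ_four, Fin.sum_univ_four]
  simp only [Gk, om, Matrix.cons_val_zero, Matrix.cons_val_one, Matrix.cons_val]
  have s0 : ‖e1 ^ 3 * g0‖ ^ 2 * Real.exp (3 * phi 1 z) = ‖g0‖ ^ 2 * Real.exp (3 * phi 1 (z + l)) := by
    simpa only [Complex.norm_mul, norm_pow, pow_zero, mul_one, one_mul, Nat.cast_ofNat, CharP.cast_eq_zero,     zero_mul, add_zero, sub_zero] using t0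
  have s1 : ‖δ * (e2 ^ 3 * g1)‖ ^ 2 * Real.exp (3 * phi (-1) z - phiD z)
      = ‖δ' * g1‖ ^ 2 * Real.exp (3 * phi (-1) (z + l) - phiD (z + l)) := by
    simpa only [Complex.norm_mul, norm_pow, pow_one, pow_zero, one_mul, CharP.cast_eq_zero, zero_mul,     Nat.cast_ofNat, zero_add, Nat.cast_one] using t1
  have s2 : ‖δ ^ 2 * (e1 ^ 2 * e2 * g2)‖ ^ 2 * Real.exp (2 * phi 1 z + phi (-1) z - 2 * phiD z)
      = ‖δ' ^ 2 * g2‖ ^ 2 * Real.exp (2 * phi 1 (z + l) + phi (-1) (z + l) - 2 * phiD (z + l)) := by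
    simpa only [Complex.norm_mul, norm_pow, pow_one, Nat.cast_ofNat, Nat.cast_one, one_mul] using t2
  have s3 : ‖δ ^ 3 * (e1 * e2 ^ 2 * g3)‖ ^ 2 * Real.exp (phi 1 z + 2 * phi (-1) z - 3 * phiD z)
      = ‖δ' ^ 3 * g3‖ ^ 2 * Real.exp (phi 1 (z + l) + 2 * phi (-1) (z + l) - 3 * phiD (z + l)) := by
    simpa only [Complex.norm_mul, norm_pow, pow_one, Nat.cast_one, one_mul, Nat.cast_ofNat] using t3
  rw [mul_assoc, s0, mul_assoc, s1, mul_assoc, s2, mul_assoc, s3]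
  ring

/-! ### `expm`, `chi`, `mfun` -/

theorem expm_mul (c s : ℂ) : s * expm c s = exp (c * s) - 1 := by
  have h := sub_smul_dslope Complex.exp 0 (c * s)
  rw [sub_zero, smul_eq_mul, Complex.exp_zero] at h
  unfold expm
  rw [← h]; ring

theorem expm_zero (c : ℂ) : expm c 0 = c := by
  unfold expm
  rw [mul_zero, dslope_same]
  simp

theorem chi_zero_of {s : ℂ} (h : 1 / 10 ≤ ‖s‖) : chi s = 0 := by
  unfold chi
  apply chiB.zero_of_le_dist
  rw [dist_zero_right]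
  exact h

theorem chi_zero : chi 0 = 1 := by
  unfold chi
  apply chiB.one_of_mem_closedBall
  simp only [chiB, one_div, Metric.mem_closedBall, dist_self, inv_nonneg, Nat.ofNat_nonneg]

theorem mfun_of_ne {ς : ℝ} {s t : ℂ} (hs : s ≠ 0) :
    mfun ς s t = (1 - chi s * exp (12 * Real.pi * I * ς * t.im * s)) / s := by
  unfold mfun
  have h := expm_mul (12 * Real.pi * I * ς * t.im) s
  have h2 : expm (12 * Real.pi * I * ς * t.im) s
      = (exp (12 * Real.pi * I * ς * t.im * s) - 1) / s := by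
    rw [← h]; field_simp
  rw [h2]
  field_simp
  ring

theorem mfun_zero (ς : ℝ) (t : ℂ) : mfun ς 0 t = -(12 * Real.pi * I * ς * t.im) := by
  unfold mfun
  rw [expm_zero, chi_zero]
  simp only [ofReal_one, sub_self, div_zero, one_mul, zero_sub]

theorem mfun_rel (ς : ℝ) (s t τ : ℂ) :
    mfun ς s (t + τ) = (1 + s * expm (12 * Real.pi * I * ς * τ.im) s) * mfun ς s t
      - expm (12 * Real.pi * I * ς * τ.im) s := by
  rcases eq_or_ne s 0 with rfl | hs
  · rw [mfun_zero, mfun_zero, expm_zero]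
    simp only [add_im, ofReal_add]
    ring
  · have h := expm_mul (12 * Real.pi * I * ς * τ.im) s
    have h2 : expm (12 * Real.pi * I * ς * τ.im) s
      = (exp (12 * Real.pi * I * ς * τ.im * s) - 1) / s := by
      rw [← h]; field_simp
    rw [h, h2, mfun_of_ne hs, mfun_of_ne hs]
    have h3 : exp (12 * Real.pi * I * ς * (t + τ).im * s)
        = exp (12 * Real.pi * I * ς * t.im * s) * exp (12 * Real.pi * I * ς * τ.im * s) := by
      rw [← exp_add]
      congr 1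
      simp only [add_im, ofReal_add]
      ring
    rw [h3]
    field_simp
    ring

theorem expm_inv (c s : ℂ) : (1 + s * expm (-c) s) * expm c s = -expm (-c) s := by
  rcases eq_or_ne s 0 with rfl | hs
  · rw [expm_zero, expm_zero]; ring
  · have h1 := expm_mul c s
    have h2 := expm_mul (-c) s
    have h3 : exp (-c * s) * exp (c * s) = 1 := by rw [← exp_add]; simp
    apply mul_left_cancel₀ hs
    linear_combination (1 + s * expm (-c) s) * h1 + (exp (c * s)) * h2 + h3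

theorem mfun_rel2 (ς : ℝ) (s t τ : ℂ) :
    (1 + s * expm (-(12 * Real.pi * I * ς * τ.im)) s) * mfun ς s (t + τ)
      = mfun ς s t + expm (-(12 * Real.pi * I * ς * τ.im)) s := by
  have h1 := expm_mul (12 * Real.pi * I * ς * τ.im) s
  have h2 := expm_mul (-(12 * Real.pi * I * ς * τ.im)) s
  have h3 : exp (-(12 * Real.pi * I * ς * τ.im) * s) * exp (12 * Real.pi * I * ς * τ.im * s) = 1 := by
    rw [← exp_add]; simp
  have h4 := expm_inv (12 * Real.pi * I * ς * τ.im) s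
  have h5 : (1 + s * expm (-(12 * Real.pi * I * ς * τ.im)) s)
      * (1 + s * expm (12 * Real.pi * I * ς * τ.im) s) = 1 := by
    rw [h1, h2]; linear_combination h3
  rw [mfun_rel]
  linear_combination (mfun ς s t) * h5 - h4

/-! ### membership facts -/

/-- a point whose translate lies in `U 0` is away from the lattice. -/
theorem away1 {l z : Fin 2 → ℂ} (hl : l ∈ gaussLattice 2) (hz : z + l ∈ Uset 0) :
    1 / 10 < ‖z 0‖ := by
  have h : 1 / 10 < Metric.infDist ((z + l) 0) Lset := hz.1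
  refine h.trans_le ((Metric.infDist_le_dist_of_mem
    (show l 0 ∈ Lset from isLat_of_mem hl 0)).trans ?_)
  rw [dist_eq_norm]
  have : (z + l) 0 - l 0 = z 0 := by simp
  rw [this]

theorem away2 {l z : Fin 2 → ℂ} (hl : l ∈ gaussLattice 2) (hz : z + l ∈ Uset 0) :
    1 / 10 < ‖z 0 - 1 / 2‖ := by
  have h : 1 / 10 < Metric.infDist ((z + l) 0 - 1 / 2) Lset := hz.2
  refine h.trans_le ((Metric.infDist_le_dist_of_mem
    (show l 0 ∈ Lset from isLat_of_mem hl 0)).trans ?_)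
  rw [dist_eq_norm]
  have : (z + l) 0 - 1 / 2 - l 0 = z 0 - 1 / 2 := by
    have : (z + l) 0 = z 0 + l 0 := rfl
    rw [this]; ring
  rw [this]

theorem away1' {l z : Fin 2 → ℂ} (hl : l ∈ gaussLattice 2) (hz : z ∈ Uset 0) :
    1 / 10 < ‖(z + l) 0‖ := by
  have h := away1 (l := -l) (z := z + l) (neg_mem hl) (by simpa using hz)
  exact h

theorem away2' {l z : Fin 2 → ℂ} (hl : l ∈ gaussLattice 2) (hz : z ∈ Uset 0) :
    1 / 10 < ‖(z + l) 0 - 1 / 2‖ := by
  have h := away2 (l := -l) (z := z + l) (neg_mem hl) (by simpa using hz)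
  exact h

theorem l0_zero1 {l z : Fin 2 → ℂ} (hl : l ∈ gaussLattice 2) (hz : z ∈ Uset 1)
    (hzl : z + l ∈ Uset 1) : l 0 = 0 := by
  apply IsLat.zero_of_norm (isLat_of_mem hl 0)
  have h1 : ‖z 0‖ < 1 / 5 := hz
  have h2 : ‖(z + l) 0‖ < 1 / 5 := hzl
  have e : l 0 = (z + l) 0 - z 0 := by simp
  rw [e]
  calc ‖(z + l) 0 - z 0‖ ≤ ‖(z + l) 0‖ + ‖z 0‖ := norm_sub_le _ _
    _ < 1 := by linarith only [h1, h2]

theorem l0_zero2 {l z : Fin 2 → ℂ} (hl : l ∈ gaussLattice 2) (hz : z ∈ Uset 2)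
    (hzl : z + l ∈ Uset 2) : l 0 = 0 := by
  apply IsLat.zero_of_norm (isLat_of_mem hl 0)
  have h1 : ‖z 0 - 1 / 2‖ < 1 / 5 := hz
  have h2 : ‖(z + l) 0 - 1 / 2‖ < 1 / 5 := hzl
  have e : l 0 = ((z + l) 0 - 1 / 2) - (z 0 - 1 / 2) := by simp only [Fin.isValue, Pi.add_apply, one_div, sub_sub_sub_cancel_right, add_sub_cancel_left]
  rw [e]
  calc ‖((z + l) 0 - 1 / 2) - (z 0 - 1 / 2)‖ ≤ ‖(z + l) 0 - 1 / 2‖ + ‖z 0 - 1 / 2‖ := norm_sub_le _ _
    _ < 1 := by linarith only [h1, h2]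

theorem half_lat {s : ℂ} (hs : IsLat s) : 1 / 2 ≤ ‖s - 1 / 2‖ := by
  obtain ⟨m, n, rfl⟩ := hs
  refine le_trans ?_ (Complex.abs_re_le_norm _)
  have e : ((m : ℂ) + n * I - 1 / 2).re = m - 1 / 2 := by simp only [one_div, sub_re, add_re, intCast_re, mul_re, I_re, mul_zero, intCast_im, I_im, mul_one, sub_self, add_zero, inv_re, re_ofNat, normSq_ofNat, div_self_mul_self']
  rw [e]
  rcases le_or_gt m 0 with h | h
  · have h2 : (m : ℝ) ≤ 0 := by exact_mod_cast h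
    rw [abs_of_nonpos (by linarith only [h2])]; linarith only [h2]
  · have h2 : (1 : ℝ) ≤ m := by exact_mod_cast h
    rw [abs_of_nonneg (by linarith only [h2])]; linarith only [h2]

theorem not_12 {l z : Fin 2 → ℂ} (hl : l ∈ gaussLattice 2) (hz : z ∈ Uset 2)
    (hzl : z + l ∈ Uset 1) : False := by
  have h1 : ‖z 0 - 1 / 2‖ < 1 / 5 := hz
  have h2 : ‖(z + l) 0‖ < 1 / 5 := hzl
  have h3 := half_lat (IsLat.neg (isLat_of_mem hl 0))
  have e : -(l 0) - 1 / 2 = (z 0 - 1 / 2) - (z + l) 0 := by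
    have : (z + l) 0 = z 0 + l 0 := rfl
    rw [this]; ring
  rw [e] at h3
  have := norm_sub_le (z 0 - 1 / 2) ((z + l) 0)
  linarith only [h1, h2, h3, this]

theorem not_21 {l z : Fin 2 → ℂ} (hl : l ∈ gaussLattice 2) (hz : z ∈ Uset 1)
    (hzl : z + l ∈ Uset 2) : False := by
  have h1 : ‖z 0‖ < 1 / 5 := hz
  have h2 : ‖(z + l) 0 - 1 / 2‖ < 1 / 5 := hzl
  have h3 := half_lat (isLat_of_mem hl 0)
  have e : l 0 - 1 / 2 = ((z + l) 0 - 1 / 2) - z 0 := by
    have : (z + l) 0 = z 0 + l 0 := rfl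
    rw [this]; ring
  rw [e] at h3
  have := norm_sub_le ((z + l) 0 - 1 / 2) (z 0)
  linarith only [h1, h2, h3, this]

/-! ### the charts off the exceptional curves -/

theorem del1_mul (s : ℂ) : del1 s * s = del s := by
  unfold del1 del
  have h := sub_smul_dslope th 0 s
  rw [sub_zero, smul_eq_mul, th_zero, sub_zero] at h
  linear_combination (th (s - 1 / 2)) * h

theorem del2_mul (s : ℂ) : del2 s * (s - 1 / 2) = del s := by
  unfold del2 del
  have h := sub_smul_dslope th 0 (s - 1 / 2)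
  rw [sub_zero, smul_eq_mul, th_zero, sub_zero] at h
  linear_combination (th s) * h

theorem mfun_away {ς : ℝ} {s t : ℂ} (hs : 1 / 10 < ‖s‖) : mfun ς s t = 1 / s := by
  have h0 : s ≠ 0 := by
    intro h; rw [h, norm_zero] at hs; norm_num at hs
  rw [mfun_of_ne h0, chi_zero_of hs.le]
  simp

theorem f0_eq (z u : Fin 2 → ℂ) : f0 z u = Gk (del (z 0)) (u 0 ^ 3) (u 1 ^ 3) (u 0 ^ 2 * u 1)
    (u 0 * u 1 ^ 2) := rfl

theorem vecMul_apply2 (u : Fin 2 → ℂ) (M : Matrix (Fin 2) (Fin 2) ℂ) (j : Fin 2) :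
    (u ᵥ* M) j = u 0 * M 0 j + u 1 * M 1 j := by
  unfold Matrix.vecMul dotProduct
  exact Fin.sum_univ_two _

theorem Wm1_0 (ε : ℝ) (z c : Fin 2 → ℂ) : (c ᵥ* Wm ε 1 z) 0 = ε * c 0 + c 1 := by
  rw [vecMul_apply2]
  show c 0 * (ε : ℂ) + c 1 * 1 = _
  ring

theorem Wm1_1 (ε : ℝ) (z c : Fin 2 → ℂ) : (c ᵥ* Wm ε 1 z) 1 = z 0 * c 0 := by
  rw [vecMul_apply2]
  show c 0 * z 0 + c 1 * 0 = _
  ring

theorem Wm2_0 (ε : ℝ) (z c : Fin 2 → ℂ) : (c ᵥ* Wm ε 2 z) 0 = c 0 + ε * c 1 := by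
  rw [vecMul_apply2]
  show c 0 * 1 + c 1 * (ε : ℂ) = _
  ring

theorem Wm2_1 (ε : ℝ) (z c : Fin 2 → ℂ) : (c ᵥ* Wm ε 2 z) 1 = (z 0 - 1 / 2) * c 1 := by
  rw [vecMul_apply2]
  show c 0 * 0 + c 1 * (z 0 - 1 / 2) = _
  ring

/-- `f1` in terms of the coordinates. -/
noncomputable def F1 (ε : ℝ) (s t a b : ℂ) : Fin 4 → ℂ :=
  Gk (del1 s) (((a - mfun 1 s t * (s * a - ε * b)) / ε) ^ 3)
    ((s * a - ε * b) * (a - ε * mfun (-1) s t * b) ^ 2)
    (b * (s * a - ε * b) * ((a - mfun 1 s t * (s * a - ε * b)) / ε))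
    (b * (s * a - ε * b) ^ 2)

theorem f1_eq (ε : ℝ) (z u : Fin 2 → ℂ) : f1 ε z u = F1 ε (z 0) (z 1) (u 0) (u 1) := rfl

/-- `f2` in terms of the coordinates. -/
noncomputable def F2 (ε : ℝ) (s t a b : ℂ) : Fin 4 → ℂ :=
  Gk (del2 s) ((a - ε * mfun 1 (s - 1 / 2) t * b) ^ 3)
    (b * ((a - mfun (-1) (s - 1 / 2) t * ((s - 1 / 2) * a - ε * b)) / ε) ^ 2)
    (((s - 1 / 2) * a - ε * b) * b * (a - ε * mfun 1 (s - 1 / 2) t * b))
    (((s - 1 / 2) * a - ε * b) * b ^ 2)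

theorem f2_eq (ε : ℝ) (z u : Fin 2 → ℂ) : f2 ε z u = F2 ε (z 0) (z 1) (u 0) (u 1) := rfl

theorem Gk_scale {δ δ0 s g0 g1 g2 g3 h0 h1 h2 h3 : ℂ} (hd : δ * s = δ0) (e0 : g0 = h0)
    (e1 : g1 = s * h1) (e2 : g2 = s ^ 2 * h2) (e3 : g3 = s ^ 3 * h3) :
    Gk δ g0 g1 g2 g3 = Gk δ0 h0 h1 h2 h3 := by
  have a1 : δ * g1 = δ0 * h1 := by rw [e1, ← hd]; ring
  have a2 : δ ^ 2 * g2 = δ0 ^ 2 * h2 := by rw [e2, ← hd]; ring
  have a3 : δ ^ 3 * g3 = δ0 ^ 3 * h3 := by rw [e3, ← hd]; ring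
  unfold Gk
  rw [e0, a1, a2, a3]

theorem f1_away {ε : ℝ} (hε : ε ≠ 0) {z : Fin 2 → ℂ} (hz : 1 / 10 < ‖z 0‖) (c : Fin 2 → ℂ) :
    f1 ε z (c ᵥ* Wm ε 1 z) = f0 z c := by
  have h0 : z 0 ≠ 0 := by
    intro h; rw [h, norm_zero] at hz; norm_num at hz
  have hεc : (ε : ℂ) ≠ 0 := by exact_mod_cast hε
  rw [f1_eq, Wm1_0, Wm1_1, f0_eq]
  unfold F1
  rw [mfun_away hz, mfun_away hz]
  apply Gk_scale (del1_mul (z 0))
  · field_simp; ring
  · field_simp; ring
  · field_simp; ring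
  · field_simp; ring

theorem f2_away {ε : ℝ} (hε : ε ≠ 0) {z : Fin 2 → ℂ} (hz : 1 / 10 < ‖z 0 - 1 / 2‖)
    (c : Fin 2 → ℂ) : f2 ε z (c ᵥ* Wm ε 2 z) = f0 z c := by
  have h0 : z 0 - 1 / 2 ≠ 0 := by
    intro h; rw [h, norm_zero] at hz; norm_num at hz
  have hεc : (ε : ℂ) ≠ 0 := by exact_mod_cast hε
  rw [f2_eq, Wm2_0, Wm2_1, f0_eq]
  unfold F2
  rw [mfun_away hz, mfun_away hz]
  have hd := del2_mul (z 0)
  generalize z 0 - 1 / 2 = s' at *
  apply Gk_scale hd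
  · field_simp; ring
  · field_simp; ring
  · field_simp; ring
  · field_simp; ring

/-! ### the compatibility -/

theorem Dm_0 (l z c : Fin 2 → ℂ) : (c ᵥ* Dm l z) 0 = eAut 1 l z * c 0 := by
  rw [vecMul_apply2]
  show c 0 * eAut 1 l z + c 1 * 0 = _
  ring

theorem Dm_1 (l z c : Fin 2 → ℂ) : (c ᵥ* Dm l z) 1 = eAut (-1) l z * c 1 := by
  rw [vecMul_apply2]
  show c 0 * 0 + c 1 * eAut (-1) l z = _
  ring

theorem core0 (B : Fin 4 → ℝ) {l : Fin 2 → ℂ} (hl : l ∈ gaussLattice 2) (z c : Fin 2 → ℂ) :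
    Pgen B (f0 z (c ᵥ* Dm l z)) z = Pgen B (f0 (z + l) c) (z + l) := by
  rw [f0_eq, f0_eq, Dm_0, Dm_1,
    ← Pgen_auto B (norm_eAut_sq 1 l z) (norm_eAut_sq (-1) l z) (norm_del_sq z) (norm_del_sq' hl)]
  congr 2 <;> ring

theorem Wm_0 (ε : ℝ) (z : Fin 2 → ℂ) : Wm ε 0 z = 1 := rfl

theorem det_Wm1 (ε : ℝ) (z : Fin 2 → ℂ) : (Wm ε 1 z).det = -z 0 := by
  rw [Matrix.det_fin_two]
  show (ε : ℂ) * 0 - z 0 * 1 = _
  ring

theorem det_Wm2 (ε : ℝ) (z : Fin 2 → ℂ) : (Wm ε 2 z).det = z 0 - 1 / 2 := by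
  rw [Matrix.det_fin_two]
  show 1 * (z 0 - 1 / 2) - 0 * (ε : ℂ) = _
  ring

theorem vecMul_inv_cancel (M : Matrix (Fin 2) (Fin 2) ℂ) (h : M.det ≠ 0) (u : Fin 2 → ℂ) :
    (u ᵥ* M⁻¹) ᵥ* M = u := by
  rw [Matrix.vecMul_vecMul, Matrix.nonsing_inv_mul _ (isUnit_iff_ne_zero.mpr h), Matrix.vecMul_one]

theorem gmat_01 (ε : ℝ) (l z u : Fin 2 → ℂ) :
    u ᵥ* gmat ε 0 1 l z = (u ᵥ* Dm l z) ᵥ* Wm ε 1 z := by
  unfold gmat
  rw [if_neg (by decide), if_neg (by decide), Wm_0, inv_one, Matrix.one_mul, Matrix.vecMul_vecMul]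

theorem gmat_02 (ε : ℝ) (l z u : Fin 2 → ℂ) :
    u ᵥ* gmat ε 0 2 l z = (u ᵥ* Dm l z) ᵥ* Wm ε 2 z := by
  unfold gmat
  rw [if_neg (by decide), if_neg (by decide), Wm_0, inv_one, Matrix.one_mul, Matrix.vecMul_vecMul]

theorem gmat_00 (ε : ℝ) (l z u : Fin 2 → ℂ) :
    u ᵥ* gmat ε 0 0 l z = u ᵥ* Dm l z := by
  unfold gmat
  rw [if_neg (by decide), if_neg (by decide), Wm_0, inv_one, Matrix.one_mul, Wm_0, Matrix.mul_one]

theorem gmat_10 (ε : ℝ) (l z u : Fin 2 → ℂ) :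
    u ᵥ* gmat ε 1 0 l z = (u ᵥ* (Wm ε 1 (z + l))⁻¹) ᵥ* Dm l z := by
  unfold gmat
  rw [if_neg (by decide), if_neg (by decide), Wm_0, Matrix.mul_one, Matrix.vecMul_vecMul]

theorem gmat_20 (ε : ℝ) (l z u : Fin 2 → ℂ) :
    u ᵥ* gmat ε 2 0 l z = (u ᵥ* (Wm ε 2 (z + l))⁻¹) ᵥ* Dm l z := by
  unfold gmat
  rw [if_neg (by decide), if_neg (by decide), Wm_0, Matrix.mul_one, Matrix.vecMul_vecMul]

theorem compat_00 (B : Fin 4 → ℝ) {ε : ℝ} {l : Fin 2 → ℂ} (hl : l ∈ gaussLattice 2)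
    (z u : Fin 2 → ℂ) : PP0 B (z, u ᵥ* gmat ε 0 0 l z) = PP0 B (z + l, u) := by
  rw [gmat_00]
  exact core0 B hl z u

theorem compat_01 (B : Fin 4 → ℝ) {ε : ℝ} (hε : 0 < ε) {l z : Fin 2 → ℂ}
    (hl : l ∈ gaussLattice 2) (hzl : z + l ∈ Uset 0) (u : Fin 2 → ℂ) :
    PP1 ε B (z, u ᵥ* gmat ε 0 1 l z) = PP0 B (z + l, u) := by
  rw [gmat_01]
  show Pgen B (f1 ε z ((u ᵥ* Dm l z) ᵥ* Wm ε 1 z)) z = _
  rw [f1_away hε.ne' (away1 hl hzl)]
  exact core0 B hl z u

theorem compat_02 (B : Fin 4 → ℝ) {ε : ℝ} (hε : 0 < ε) {l z : Fin 2 → ℂ}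
    (hl : l ∈ gaussLattice 2) (hzl : z + l ∈ Uset 0) (u : Fin 2 → ℂ) :
    PP2 ε B (z, u ᵥ* gmat ε 0 2 l z) = PP0 B (z + l, u) := by
  rw [gmat_02]
  show Pgen B (f2 ε z ((u ᵥ* Dm l z) ᵥ* Wm ε 2 z)) z = _
  rw [f2_away hε.ne' (away2 hl hzl)]
  exact core0 B hl z u

theorem compat_10 (B : Fin 4 → ℝ) {ε : ℝ} (hε : 0 < ε) {l z : Fin 2 → ℂ}
    (hl : l ∈ gaussLattice 2) (hz : z ∈ Uset 0) (u : Fin 2 → ℂ) :
    PP0 B (z, u ᵥ* gmat ε 1 0 l z) = PP1 ε B (z + l, u) := by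
  have h := away1' hl hz
  have hdet : (Wm ε 1 (z + l)).det ≠ 0 := by
    rw [det_Wm1, neg_ne_zero]
    intro h'; rw [h', norm_zero] at h; norm_num at h
  rw [gmat_10]
  show Pgen B (f0 z ((u ᵥ* (Wm ε 1 (z + l))⁻¹) ᵥ* Dm l z)) z = Pgen B (f1 ε (z + l) u) (z + l)
  rw [core0 B hl, ← f1_away hε.ne' h, vecMul_inv_cancel _ hdet]

theorem compat_20 (B : Fin 4 → ℝ) {ε : ℝ} (hε : 0 < ε) {l z : Fin 2 → ℂ}
    (hl : l ∈ gaussLattice 2) (hz : z ∈ Uset 0) (u : Fin 2 → ℂ) :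
    PP0 B (z, u ᵥ* gmat ε 2 0 l z) = PP2 ε B (z + l, u) := by
  have h := away2' hl hz
  have hdet : (Wm ε 2 (z + l)).det ≠ 0 := by
    rw [det_Wm2]
    intro h'; rw [h', norm_zero] at h; norm_num at h
  rw [gmat_20]
  show Pgen B (f0 z ((u ᵥ* (Wm ε 2 (z + l))⁻¹) ᵥ* Dm l z)) z = Pgen B (f2 ε (z + l) u) (z + l)
  rw [core0 B hl, ← f2_away hε.ne' h, vecMul_inv_cancel _ hdet]

theorem eAut_ratio {l z : Fin 2 → ℂ} (h0 : l 0 = 0) :
    eAut 1 l z = eAut (-1) l z * exp (-(12 * Real.pi * I * (l 1).im) * z 0) := by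
  unfold eAut
  rw [← exp_add, h0]
  congr 1
  simp only [zero_im, ofReal_zero, ofReal_one, ofReal_neg]
  ring

theorem eAut_ratio' {l z : Fin 2 → ℂ} (hl : l ∈ gaussLattice 2) (h0 : l 0 = 0) :
    eAut (-1) l z = eAut 1 l z * exp ((12 * Real.pi * I * (l 1).im) * (z 0 - 1 / 2)) := by
  obtain ⟨m, n, hmn⟩ := hl 1
  have hn : (l 1).im = n := by rw [hmn]; simp
  have hper : exp ((12 * Real.pi * I * (l 1).im) * (z 0 - 1 / 2))
      = exp ((12 * Real.pi * I * (l 1).im) * z 0) := by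
    have e : (12 * Real.pi * I * (l 1).im) * (z 0 - 1 / 2)
        = (12 * Real.pi * I * (l 1).im) * z 0 - ((3 * n : ℤ) : ℂ) * (2 * Real.pi * I) := by
      rw [hn]; push_cast; ring
    rw [e, exp_sub, exp_int_mul_two_pi_mul_I, div_one]
  rw [hper, eAut_ratio h0, mul_assoc, ← exp_add]
  rw [show -(12 * (Real.pi : ℂ) * I * (l 1).im) * z 0 + (12 * (Real.pi : ℂ) * I * (l 1).im) * z 0 = 0
    by ring, exp_zero, mul_one]

theorem phiD_add {l : Fin 2 → ℂ} (h0 : l 0 = 0) (z : Fin 2 → ℂ) : phiD (z + l) = phiD z := by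
  unfold phiD
  have : (z + l) 0 = z 0 := by
    show z 0 + l 0 = z 0
    rw [h0, add_zero]
  rw [this]

theorem norm_sq_exp (δ : ℂ) (D : ℝ) : ‖δ‖ ^ 2 = (‖δ‖ ^ 2 * Real.exp (-D)) * Real.exp D := by
  rw [mul_assoc, ← Real.exp_add]; simp

theorem gmat_11_0 (ε : ℝ) (l z u : Fin 2 → ℂ) :
    (u ᵥ* gmat ε 1 1 l z) 0 = eAut (-1) l z *
      (u 0 + ε * expm (-(12 * Real.pi * I * (l 1).im)) (z 0) * u 1) := by
  rw [vecMul_apply2]
  unfold gmat
  rw [if_pos (by decide)]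
  show u 0 * eAut (-1) l z
    + u 1 * (ε * eAut (-1) l z * expm (-(12 * Real.pi * I * (l 1).im)) (z 0)) = _
  ring

theorem gmat_11_1 (ε : ℝ) (l z u : Fin 2 → ℂ) :
    (u ᵥ* gmat ε 1 1 l z) 1 = eAut 1 l z * u 1 := by
  rw [vecMul_apply2]
  unfold gmat
  rw [if_pos (by decide)]
  show u 0 * 0 + u 1 * eAut 1 l z = _
  ring

theorem gmat_22_0 (ε : ℝ) (l z u : Fin 2 → ℂ) :
    (u ᵥ* gmat ε 2 2 l z) 0 = eAut 1 l z *
      (u 0 + ε * expm (12 * Real.pi * I * (l 1).im) (z 0 - 1 / 2) * u 1) := by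
  rw [vecMul_apply2]
  unfold gmat
  rw [if_neg (by decide), if_pos (by decide)]
  show u 0 * eAut 1 l z
    + u 1 * (ε * eAut 1 l z * expm (12 * Real.pi * I * (l 1).im) (z 0 - 1 / 2)) = _
  ring

theorem gmat_22_1 (ε : ℝ) (l z u : Fin 2 → ℂ) :
    (u ᵥ* gmat ε 2 2 l z) 1 = eAut (-1) l z * u 1 := by
  rw [vecMul_apply2]
  unfold gmat
  rw [if_neg (by decide), if_pos (by decide)]
  show u 0 * 0 + u 1 * eAut (-1) l z = _
  ring

theorem Gk_congr {δ g0 g1 g2 g3 h0 h1 h2 h3 : ℂ} (e0 : g0 = h0) (e1 : g1 = h1) (e2 : g2 = h2)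
    (e3 : g3 = h3) : Gk δ g0 g1 g2 g3 = Gk δ h0 h1 h2 h3 := by
  rw [e0, e1, e2, e3]

theorem alg11 {ε' s m M1 M1' M2 M2' e1 e2 A b δ : ℂ} (hε : ε' ≠ 0) (hr : e1 = e2 * (1 + s * m))
    (k1 : (1 + s * m) * M1' = M1 + m) (k2 : M2' = (1 + s * m) * M2 - m) :
    Gk δ (((e2 * (A + ε' * m * b) - M1 * (s * (e2 * (A + ε' * m * b)) - ε' * (e1 * b))) / ε') ^ 3)
      ((s * (e2 * (A + ε' * m * b)) - ε' * (e1 * b)) *
        (e2 * (A + ε' * m * b) - ε' * M2 * (e1 * b)) ^ 2)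
      (e1 * b * (s * (e2 * (A + ε' * m * b)) - ε' * (e1 * b)) *
        ((e2 * (A + ε' * m * b) - M1 * (s * (e2 * (A + ε' * m * b)) - ε' * (e1 * b))) / ε'))
      (e1 * b * (s * (e2 * (A + ε' * m * b)) - ε' * (e1 * b)) ^ 2)
    = Gk δ (e1 ^ 3 * (((A - M1' * (s * A - ε' * b)) / ε') ^ 3))
      (e2 ^ 3 * ((s * A - ε' * b) * (A - ε' * M2' * b) ^ 2))
      (e1 ^ 2 * e2 * (b * (s * A - ε' * b) * ((A - M1' * (s * A - ε' * b)) / ε')))
      (e1 * e2 ^ 2 * (b * (s * A - ε' * b) ^ 2)) := by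
  have L : s * (e2 * (A + ε' * m * b)) - ε' * (e1 * b) = e2 * (s * A - ε' * b) := by
    rw [hr]; ring
  have C1 : (e2 * (A + ε' * m * b) - M1 * (e2 * (s * A - ε' * b))) / ε'
      = e1 * ((A - M1' * (s * A - ε' * b)) / ε') := by
    have hM : M1 = (1 + s * m) * M1' - m := by linear_combination -k1
    rw [hr, hM]; field_simp; ring
  have C2 : e2 * (A + ε' * m * b) - ε' * M2 * (e1 * b) = e2 * (A - ε' * M2' * b) := by
    rw [hr, k2]; ring
  rw [L, C1, C2]
  apply Gk_congr <;> ring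

theorem alg22 {ε' s m M1 M1' M2 M2' e1 e2 A b δ : ℂ} (hε : ε' ≠ 0) (hr : e2 = e1 * (1 + s * m))
    (k1 : M1' = (1 + s * m) * M1 - m) (k2 : (1 + s * m) * M2' = M2 + m) :
    Gk δ ((e1 * (A + ε' * m * b) - ε' * M1 * (e2 * b)) ^ 3)
      (e2 * b * ((e1 * (A + ε' * m * b) - M2 * (s * (e1 * (A + ε' * m * b)) - ε' * (e2 * b)))
        / ε') ^ 2)
      ((s * (e1 * (A + ε' * m * b)) - ε' * (e2 * b)) * (e2 * b) *
        (e1 * (A + ε' * m * b) - ε' * M1 * (e2 * b)))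
      ((s * (e1 * (A + ε' * m * b)) - ε' * (e2 * b)) * (e2 * b) ^ 2)
    = Gk δ (e1 ^ 3 * ((A - ε' * M1' * b) ^ 3))
      (e2 ^ 3 * (b * ((A - M2' * (s * A - ε' * b)) / ε') ^ 2))
      (e1 ^ 2 * e2 * ((s * A - ε' * b) * b * (A - ε' * M1' * b)))
      (e1 * e2 ^ 2 * ((s * A - ε' * b) * b ^ 2)) := by
  have L : s * (e1 * (A + ε' * m * b)) - ε' * (e2 * b) = e1 * (s * A - ε' * b) := by
    rw [hr]; ring
  have C2 : (e1 * (A + ε' * m * b) - M2 * (e1 * (s * A - ε' * b))) / ε'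
      = e2 * ((A - M2' * (s * A - ε' * b)) / ε') := by
    have hM : M2 = (1 + s * m) * M2' - m := by linear_combination -k2
    rw [hr, hM]; field_simp; ring
  have C1 : e1 * (A + ε' * m * b) - ε' * M1 * (e2 * b) = e1 * (A - ε' * M1' * b) := by
    rw [hr, k1]; ring
  rw [L, C1, C2]
  apply Gk_congr <;> ring

theorem compat_11 (B : Fin 4 → ℝ) {ε : ℝ} (hε : 0 < ε) {l z : Fin 2 → ℂ}
    (hl : l ∈ gaussLattice 2) (hz : z ∈ Uset 1) (hzl : z + l ∈ Uset 1) (u : Fin 2 → ℂ) :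
    PP1 ε B (z, u ᵥ* gmat ε 1 1 l z) = PP1 ε B (z + l, u) := by
  have h0 := l0_zero1 hl hz hzl
  have hεc : (ε : ℂ) ≠ 0 := by exact_mod_cast hε.ne'
  show Pgen B (f1 ε z (u ᵥ* gmat ε 1 1 l z)) z = Pgen B (f1 ε (z + l) u) (z + l)
  have hs : (z + l) 0 = z 0 := by
    show z 0 + l 0 = z 0
    rw [h0, add_zero]
  have ht : (z + l) 1 = z 1 + l 1 := rfl
  rw [f1_eq, f1_eq, gmat_11_0, gmat_11_1, hs, ht]
  have hδ := norm_sq_exp (del1 (z 0)) (phiD z)
  have hδ' : ‖del1 (z 0)‖ ^ 2 = (‖del1 (z 0)‖ ^ 2 * Real.exp (-(phiD z)))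
      * Real.exp (phiD (z + l)) := by rw [phiD_add h0]; exact hδ
  have h1 := norm_eAut_sq 1 l z
  have h2 := norm_eAut_sq (-1) l z
  have hr : eAut 1 l z = eAut (-1) l z *
      (1 + z 0 * expm (-(12 * Real.pi * I * (l 1).im)) (z 0)) := by
    rw [expm_mul, add_sub_cancel]; exact eAut_ratio h0
  have k1 := mfun_rel2 1 (z 0) (z 1) (l 1)
  have k2 := mfun_rel (-1) (z 0) (z 1) (l 1)
  have c1 : (12 * (Real.pi : ℂ) * I * ((1 : ℝ) : ℂ) * (l 1).im) = 12 * Real.pi * I * (l 1).im := by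
    push_cast; ring
  have c2 : (12 * (Real.pi : ℂ) * I * ((-1 : ℝ) : ℂ) * (l 1).im)
      = -(12 * Real.pi * I * (l 1).im) := by
    push_cast; ring
  rw [c1] at k1
  rw [c2] at k2
  rw [F1, F1, alg11 hεc hr k1 k2]
  exact Pgen_auto B h1 h2 hδ hδ'

theorem compat_22 (B : Fin 4 → ℝ) {ε : ℝ} (hε : 0 < ε) {l z : Fin 2 → ℂ}
    (hl : l ∈ gaussLattice 2) (hz : z ∈ Uset 2) (hzl : z + l ∈ Uset 2) (u : Fin 2 → ℂ) :
    PP2 ε B (z, u ᵥ* gmat ε 2 2 l z) = PP2 ε B (z + l, u) := by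
  have h0 := l0_zero2 hl hz hzl
  have hεc : (ε : ℂ) ≠ 0 := by exact_mod_cast hε.ne'
  show Pgen B (f2 ε z (u ᵥ* gmat ε 2 2 l z)) z = Pgen B (f2 ε (z + l) u) (z + l)
  have hs : (z + l) 0 = z 0 := by
    show z 0 + l 0 = z 0
    rw [h0, add_zero]
  have ht : (z + l) 1 = z 1 + l 1 := rfl
  rw [f2_eq, f2_eq, gmat_22_0, gmat_22_1, hs, ht]
  have hδ := norm_sq_exp (del2 (z 0)) (phiD z)
  have hδ' : ‖del2 (z 0)‖ ^ 2 = (‖del2 (z 0)‖ ^ 2 * Real.exp (-(phiD z)))
      * Real.exp (phiD (z + l)) := by rw [phiD_add h0]; exact hδ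
  have h1 := norm_eAut_sq 1 l z
  have h2 := norm_eAut_sq (-1) l z
  have hr : eAut (-1) l z = eAut 1 l z *
      (1 + (z 0 - 1 / 2) * expm (12 * Real.pi * I * (l 1).im) (z 0 - 1 / 2)) := by
    rw [expm_mul, add_sub_cancel]; exact eAut_ratio' hl h0
  have k1 := mfun_rel 1 (z 0 - 1 / 2) (z 1) (l 1)
  have k2 := mfun_rel2 (-1) (z 0 - 1 / 2) (z 1) (l 1)
  have c1 : (12 * (Real.pi : ℂ) * I * ((1 : ℝ) : ℂ) * (l 1).im) = 12 * Real.pi * I * (l 1).im := by
    push_cast; ring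
  have c2 : -(12 * (Real.pi : ℂ) * I * ((-1 : ℝ) : ℂ) * (l 1).im)
      = 12 * Real.pi * I * (l 1).im := by
    push_cast; ring
  rw [c1] at k1
  rw [c2] at k2
  rw [F2, F2, alg22 hεc hr k1 k2]
  exact Pgen_auto B h1 h2 hδ hδ'

end Compat

noncomputable def PPi (ε : ℝ) (B : Fin 4 → ℝ) : Fin 3 → (Fin 2 → ℂ) × (Fin 2 → ℂ) → ℝ :=
  ![PP0 B, PP1 ε B, PP2 ε B]

theorem PPi_compat {ε : ℝ} (hε : 0 < ε) (B : Fin 4 → ℝ) (i j : Fin 3) {l z : Fin 2 → ℂ}
    (hl : l ∈ gaussLattice 2) (hz : z ∈ Uset j) (hzl : z + l ∈ Uset i) (u : Fin 2 → ℂ) :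
    PPi ε B j (z, u ᵥ* gmat ε i j l z) = PPi ε B i (z + l, u) := by
  fin_cases i <;> fin_cases j
  · exact Compat.compat_00 B hl z u
  · exact Compat.compat_01 B hε hl hzl u
  · exact Compat.compat_02 B hε hl hzl u
  · exact Compat.compat_10 B hε hl hz u
  · exact Compat.compat_11 B hε hl hz hzl u
  · exact (Compat.not_12 hl hz hzl).elim
  · exact Compat.compat_20 B hε hl hz u
  · exact (Compat.not_21 hl hz hzl).elim
  · exact Compat.compat_22 B hε hl hz hzl u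

namespace Compat

/-! ### homogeneity -/

theorem Pgen_homog (B : Fin 4 → ℝ) (z : Fin 2 → ℂ) (t δ g0 g1 g2 g3 : ℂ) :
    Pgen B (Gk δ (t ^ 3 * g0) (t ^ 3 * g1) (t ^ 3 * g2) (t ^ 3 * g3)) z
      = ‖t‖ ^ 6 * Pgen B (Gk δ g0 g1 g2 g3) z := by
  unfold Pgen
  rw [Fin.sum_univ_four, Fin.sum_univ_four]
  simp only [Gk, Matrix.cons_val_zero, Matrix.cons_val_one, Matrix.cons_val]
  simp only [norm_mul, norm_pow, mul_pow]
  ring

theorem f0_smul (z u : Fin 2 → ℂ) (t : ℂ) : f0 z (t • u) = Gk (del (z 0)) (t ^ 3 * (u 0 ^ 3))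
    (t ^ 3 * u 1 ^ 3) (t ^ 3 * (u 0 ^ 2 * u 1)) (t ^ 3 * (u 0 * u 1 ^ 2)) := by
  rw [f0_eq]
  apply Gk_congr
  · rw [Pi.smul_apply, smul_eq_mul]; ring
  · rw [Pi.smul_apply, smul_eq_mul]; ring
  · rw [Pi.smul_apply, Pi.smul_apply, smul_eq_mul, smul_eq_mul]; ring
  · rw [Pi.smul_apply, Pi.smul_apply, smul_eq_mul, smul_eq_mul]; ring

theorem f1_smul (ε : ℝ) (z u : Fin 2 → ℂ) (t : ℂ) (B : Fin 4 → ℝ) :
    Pgen B (f1 ε z (t • u)) z = ‖t‖ ^ 6 * Pgen B (f1 ε z u) z := by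
  rw [f1_eq, f1_eq, Pi.smul_apply, Pi.smul_apply, smul_eq_mul, smul_eq_mul, F1, F1, ← Pgen_homog]
  congr 1
  apply Gk_congr <;> ring

theorem f2_smul (ε : ℝ) (z u : Fin 2 → ℂ) (t : ℂ) (B : Fin 4 → ℝ) :
    Pgen B (f2 ε z (t • u)) z = ‖t‖ ^ 6 * Pgen B (f2 ε z u) z := by
  rw [f2_eq, f2_eq, Pi.smul_apply, Pi.smul_apply, smul_eq_mul, smul_eq_mul, F2, F2, ← Pgen_homog]
  congr 1
  apply Gk_congr <;> ring

/-! ### positivity -/

theorem Pgen_pos {B : Fin 4 → ℝ} (hB : ∀ k, 0 < B k) (z : Fin 2 → ℂ) {δ g0 g1 g2 g3 : ℂ}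
    (hδ : δ ≠ 0) (h : ¬ (g0 = 0 ∧ g1 = 0 ∧ g2 = 0 ∧ g3 = 0)) :
    0 < Pgen B (Gk δ g0 g1 g2 g3) z := by
  unfold Pgen
  have hnn : ∀ k ∈ Finset.univ, 0 ≤ B k * ‖Gk δ g0 g1 g2 g3 k‖ ^ 2 * Real.exp (om k z) := by
    intro k _
    have := hB k
    (clear * - this; positivity)
  apply lt_of_le_of_ne (Finset.sum_nonneg hnn)
  intro h0
  rw [eq_comm, Finset.sum_eq_zero_iff_of_nonneg hnn] at h0
  have hk : ∀ k, Gk δ g0 g1 g2 g3 k = 0 := by
    intro k
    have h1 := h0 k (Finset.mem_univ k)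
    have h2 : ‖Gk δ g0 g1 g2 g3 k‖ ^ 2 = 0 := by
      rcases mul_eq_zero.mp h1 with h1 | h1
      · rcases mul_eq_zero.mp h1 with h1 | h1
        · exact absurd h1 (hB k).ne'
        · exact h1
      · exact absurd h1 (Real.exp_pos _).ne'
    rwa [sq_eq_zero_iff, norm_eq_zero] at h2
  have k0 : g0 = 0 := hk 0
  have k1 : δ * g1 = 0 := hk 1
  have k2 : δ ^ 2 * g2 = 0 := hk 2
  have k3 : δ ^ 3 * g3 = 0 := hk 3
  refine h ⟨k0, (mul_eq_zero.mp k1).resolve_left hδ, (mul_eq_zero.mp k2).resolve_left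
    (pow_ne_zero 2 hδ), (mul_eq_zero.mp k3).resolve_left (pow_ne_zero 3 hδ)⟩

theorem dslope_th_ne {s : ℂ} (hs : ‖s‖ < 1) : dslope th 0 s ≠ 0 := by
  by_cases h0 : s = 0
  · subst h0
    rw [dslope_same]
    exact deriv_th_zero
  · rw [dslope_of_ne _ h0, slope_def_field, th_zero, sub_zero, sub_zero]
    exact div_ne_zero (th_ne_zero fun h => h0 (h.zero_of_norm hs)) h0

theorem del_ne {s : ℂ} (h1 : 1 / 10 < Metric.infDist s Lset)
    (h2 : 1 / 10 < Metric.infDist (s - 1 / 2) Lset) : del s ≠ 0 := by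
  have hn : ∀ w : ℂ, 1 / 10 < Metric.infDist w Lset → ¬ IsLat w := by
    intro w hw h
    have : Metric.infDist w Lset = 0 := Metric.infDist_zero_of_mem (show w ∈ Lset from h)
    rw [this] at hw; norm_num at hw
  exact mul_ne_zero (th_ne_zero (hn _ h1)) (th_ne_zero (hn _ h2))

theorem half_not_lat {s : ℂ} (hs : ‖s‖ < 1 / 5) : ¬ IsLat (s - 1 / 2) := by
  intro h
  have h1 := half_lat (IsLat.neg h)
  have e : -(s - 1 / 2) - 1 / 2 = -s := by ring
  rw [e, norm_neg] at h1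
  linarith only [hs, h1]

theorem half_not_lat' {s : ℂ} (hs : ‖s - 1 / 2‖ < 1 / 5) : ¬ IsLat s := by
  intro h
  have h1 := half_lat h
  linarith only [hs, h1]

theorem del1_ne {s : ℂ} (hs : ‖s‖ < 1 / 5) : del1 s ≠ 0 :=
  mul_ne_zero (dslope_th_ne (hs.trans (by norm_num))) (th_ne_zero (half_not_lat hs))

theorem del2_ne {s : ℂ} (hs : ‖s - 1 / 2‖ < 1 / 5) : del2 s ≠ 0 :=
  mul_ne_zero (th_ne_zero (half_not_lat' hs)) (dslope_th_ne (hs.trans (by norm_num)))

theorem ne_zero_two {u : Fin 2 → ℂ} (hu : u ≠ 0) : ¬ (u 0 = 0 ∧ u 1 = 0) := by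
  rintro ⟨h0, h1⟩
  apply hu
  funext k
  fin_cases k
  · exact h0
  · exact h1

theorem pos0 {B : Fin 4 → ℝ} (hB : ∀ k, 0 < B k) {z : Fin 2 → ℂ} (hz : z ∈ Uset 0)
    {u : Fin 2 → ℂ} (hu : u ≠ 0) : 0 < PP0 B (z, u) := by
  show 0 < Pgen B (f0 z u) z
  rw [f0_eq]
  apply Pgen_pos hB z (del_ne hz.1 hz.2)
  rintro ⟨h0, h1, -, -⟩
  exact ne_zero_two hu ⟨pow_eq_zero_iff (by norm_num) |>.mp h0,
    pow_eq_zero_iff (by norm_num) |>.mp h1⟩

theorem pos1 {ε : ℝ} (hε : 0 < ε) {B : Fin 4 → ℝ} (hB : ∀ k, 0 < B k) {z : Fin 2 → ℂ}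
    (hz : z ∈ Uset 1) {u : Fin 2 → ℂ} (hu : u ≠ 0) : 0 < PP1 ε B (z, u) := by
  show 0 < Pgen B (f1 ε z u) z
  have hεc : (ε : ℂ) ≠ 0 := by exact_mod_cast hε.ne'
  rw [f1_eq, F1]
  have hz' : ‖z 0‖ < 1 / 5 := hz
  apply Pgen_pos hB z (del1_ne hz')
  have hu2 := ne_zero_two hu
  generalize u 0 = a at *
  generalize u 1 = b at *
  generalize mfun 1 (z 0) (z 1) = M1
  generalize mfun (-1) (z 0) (z 1) = M2
  generalize z 0 = s
  rintro ⟨h0, h1, -, h3⟩
  apply hu2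
  have g0 : a - M1 * (s * a - ε * b) = 0 := by
    have := pow_eq_zero_iff (by norm_num) |>.mp h0
    rcases div_eq_zero_iff.mp this with h | h
    · exact h
    · exact absurd h hεc
  by_cases hl : s * a - ε * b = 0
  · rw [hl, mul_zero, sub_zero] at g0
    refine ⟨g0, ?_⟩
    rw [g0, mul_zero, zero_sub, neg_eq_zero] at hl
    exact (mul_eq_zero.mp hl).resolve_left hεc
  · have hb : b = 0 := (mul_eq_zero.mp h3).resolve_right (pow_ne_zero 2 hl)
    have hc : a - ε * M2 * b = 0 :=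
      pow_eq_zero_iff (by norm_num) |>.mp ((mul_eq_zero.mp h1).resolve_left hl)
    rw [hb, mul_zero, sub_zero] at hc
    exact ⟨hc, hb⟩

theorem pos2 {ε : ℝ} (hε : 0 < ε) {B : Fin 4 → ℝ} (hB : ∀ k, 0 < B k) {z : Fin 2 → ℂ}
    (hz : z ∈ Uset 2) {u : Fin 2 → ℂ} (hu : u ≠ 0) : 0 < PP2 ε B (z, u) := by
  show 0 < Pgen B (f2 ε z u) z
  have hεc : (ε : ℂ) ≠ 0 := by exact_mod_cast hε.ne'
  rw [f2_eq, F2]
  have hz' : ‖z 0 - 1 / 2‖ < 1 / 5 := hz
  apply Pgen_pos hB z (del2_ne hz')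
  have hu2 := ne_zero_two hu
  generalize u 0 = a at *
  generalize u 1 = b at *
  generalize mfun 1 (z 0 - 1 / 2) (z 1) = M1
  generalize mfun (-1) (z 0 - 1 / 2) (z 1) = M2
  generalize z 0 - 1 / 2 = s
  rintro ⟨h0, h1, -, h3⟩
  apply hu2
  have g0 : a - ε * M1 * b = 0 := pow_eq_zero_iff (by norm_num) |>.mp h0
  by_cases hb : b = 0
  · rw [hb, mul_zero, sub_zero] at g0
    exact ⟨g0, hb⟩
  · have hl : s * a - ε * b = 0 := (mul_eq_zero.mp h3).resolve_right (pow_ne_zero 2 hb)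
    have hc : (a - M2 * (s * a - ε * b)) / ε = 0 :=
      pow_eq_zero_iff (by norm_num) |>.mp ((mul_eq_zero.mp h1).resolve_left hb)
    rw [hl, mul_zero, sub_zero] at hc
    have ha : a = 0 := by
      rcases div_eq_zero_iff.mp hc with h | h
      · exact h
      · exact absurd h hεc
    rw [ha, mul_zero, zero_sub, neg_eq_zero] at hl
    exact ⟨ha, (mul_eq_zero.mp hl).resolve_left hεc⟩

/-! ### smoothness -/

theorem smooth_of_entire {f : ℂ → ℂ} (h : Differentiable ℂ f) : ContDiff ℝ ∞ f :=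
  (h.contDiff (n := ∞)).restrict_scalars ℝ

theorem entire_dslope {f : ℂ → ℂ} (h : Differentiable ℂ f) : Differentiable ℂ (dslope f 0) := by
  have h := (Complex.differentiableOn_dslope (s := Set.univ) (c := (0 : ℂ)) (f := f)
    Filter.univ_mem).mpr h.differentiableOn
  exact differentiableOn_univ.mp h

theorem smooth_del : ContDiff ℝ ∞ del := by
  apply smooth_of_entire
  unfold del
  exact differentiable_th.mul (differentiable_th.comp (by fun_prop))

theorem smooth_del1 : ContDiff ℝ ∞ del1 := by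
  apply smooth_of_entire
  unfold del1
  exact (entire_dslope differentiable_th).mul (differentiable_th.comp (by fun_prop))

theorem smooth_del2 : ContDiff ℝ ∞ del2 := by
  apply smooth_of_entire
  unfold del2
  exact differentiable_th.mul ((entire_dslope differentiable_th).comp (by fun_prop))

theorem smooth_chi : ContDiff ℝ ∞ chi := chiB.contDiff

theorem smooth_chi_div : ContDiff ℝ ∞ (fun s : ℂ => ((1 : ℂ) - chi s) / s) := by
  rw [contDiff_iff_contDiffAt]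
  intro s
  by_cases hs : ‖s‖ < 1 / 20
  · have hev : (fun s : ℂ => ((1 : ℂ) - chi s) / s) =ᶠ[𝓝 s] fun _ => 0 := by
      filter_upwards [(isOpen_lt continuous_norm continuous_const).mem_nhds hs] with w hw
      have h1 : chi w = 1 := by
        unfold chi
        apply chiB.one_of_mem_closedBall
        rw [mem_closedBall_zero_iff]
        exact le_of_lt hw
      rw [h1]; simp
    exact contDiffAt_const.congr_of_eventuallyEq hev
  · have h0 : s ≠ 0 := by
      intro h; rw [h, norm_zero] at hs; norm_num at hs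
    have h1 : ContDiffAt ℝ ∞ (fun s : ℂ => ((1 : ℂ) - chi s)) s :=
      contDiffAt_const.sub (Complex.ofRealCLM.contDiff.contDiffAt.comp s smooth_chi.contDiffAt)
    have h2 : ContDiffAt ℝ ∞ (fun s : ℂ => s⁻¹) s := contDiffAt_id.inv h0
    simp_rw [div_eq_mul_inv]
    exact h1.mul h2

theorem smooth_mfun (ς : ℝ) {E : Type*} [NormedAddCommGroup E] [NormedSpace ℝ E] {f g : E → ℂ}
    (hf : ContDiff ℝ ∞ f) (hg : ContDiff ℝ ∞ g) : ContDiff ℝ ∞ (fun p => mfun ς (f p) (g p)) := by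
  unfold mfun expm
  have h1 : ContDiff ℝ ∞ (fun p => ((1 : ℂ) - chi (f p)) / f p) := smooth_chi_div.comp hf
  have h2 : ContDiff ℝ ∞ (fun p => ((chi (f p) : ℝ) : ℂ)) :=
    Complex.ofRealCLM.contDiff.comp (smooth_chi.comp hf)
  have h3 : ContDiff ℝ ∞ (fun p => (12 * Real.pi * I * ς * ((g p).im : ℝ) : ℂ)) :=
    contDiff_const.mul (Complex.ofRealCLM.contDiff.comp (Complex.imCLM.contDiff.comp hg))
  have h4 : ContDiff ℝ ∞ (dslope Complex.exp 0) :=
    smooth_of_entire (entire_dslope Complex.differentiable_exp)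
  exact h1.sub (h2.mul (h3.mul (h4.comp (h3.mul hf))))

theorem smooth_om (k : Fin 4) {E : Type*} [NormedAddCommGroup E] [NormedSpace ℝ E]
    {f : E → Fin 2 → ℂ} (hf : ContDiff ℝ ∞ f) : ContDiff ℝ ∞ (fun p => om k (f p)) := by
  have him : ∀ j, ContDiff ℝ ∞ (fun p => (f p j).im) := fun j =>
    Complex.imCLM.contDiff.comp ((contDiff_pi.mp hf) j)
  have hphi : ∀ σ : ℝ, ContDiff ℝ ∞ (fun p => phi σ (f p)) := by
    intro σ
    unfold phi
    exact contDiff_const.mul (((contDiff_const.mul ((him 0).pow 2)).add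
      ((contDiff_const.mul (him 0)).mul (him 1))).add (contDiff_const.mul ((him 1).pow 2)))
  have hD : ContDiff ℝ ∞ (fun p => phiD (f p)) := by
    unfold phiD
    exact (contDiff_const.mul ((him 0).pow 2)).sub (contDiff_const.mul (him 0))
  fin_cases k
  · exact contDiff_const.mul (hphi 1)
  · exact (contDiff_const.mul (hphi (-1))).sub hD
  · exact ((contDiff_const.mul (hphi 1)).add (hphi (-1))).sub (contDiff_const.mul hD)
  · exact ((hphi 1).add (contDiff_const.mul (hphi (-1)))).sub (contDiff_const.mul hD)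

theorem smooth_Pgen (B : Fin 4 → ℝ) {E : Type*} [NormedAddCommGroup E] [NormedSpace ℝ E]
    {f : E → Fin 2 → ℂ} {δ g0 g1 g2 g3 : E → ℂ} (hf : ContDiff ℝ ∞ f) (hδ : ContDiff ℝ ∞ δ)
    (h0 : ContDiff ℝ ∞ g0) (h1 : ContDiff ℝ ∞ g1) (h2 : ContDiff ℝ ∞ g2) (h3 : ContDiff ℝ ∞ g3) :
    ContDiff ℝ ∞ (fun p => Pgen B (Gk (δ p) (g0 p) (g1 p) (g2 p) (g3 p)) (f p)) := by
  unfold Pgen
  have key : ∀ k, ContDiff ℝ ∞ (fun p => Gk (δ p) (g0 p) (g1 p) (g2 p) (g3 p) k) := by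
    intro k
    fin_cases k
    · exact h0
    · exact hδ.mul h1
    · exact (hδ.pow 2).mul h2
    · exact (hδ.pow 3).mul h3
  apply ContDiff.sum
  intro k _
  exact (contDiff_const.mul ((key k).norm_sq ℝ)).mul (Real.contDiff_exp.comp (smooth_om k hf))

theorem smooth_fst (j : Fin 2) : ContDiff ℝ ∞ (fun p : (Fin 2 → ℂ) × (Fin 2 → ℂ) => p.1 j) :=
  (contDiff_pi.mp contDiff_fst) j

theorem smooth_snd (j : Fin 2) : ContDiff ℝ ∞ (fun p : (Fin 2 → ℂ) × (Fin 2 → ℂ) => p.2 j) :=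
  (contDiff_pi.mp contDiff_snd) j

theorem smooth_PP0 (B : Fin 4 → ℝ) : ContDiff ℝ ∞ (PP0 B) := by
  have ha := smooth_snd 0
  have hb := smooth_snd 1
  exact smooth_Pgen B contDiff_fst (smooth_del.comp (smooth_fst 0)) (ha.pow 3) (hb.pow 3)
    ((ha.pow 2).mul hb) (ha.mul (hb.pow 2))

theorem smooth_PP1 (ε : ℝ) (B : Fin 4 → ℝ) : ContDiff ℝ ∞ (PP1 ε B) := by
  have ha := smooth_snd 0
  have hb := smooth_snd 1
  have hs := smooth_fst 0
  have ht := smooth_fst 1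
  have hc : ContDiff ℝ ∞ (fun _ : (Fin 2 → ℂ) × (Fin 2 → ℂ) => (ε : ℂ)) := contDiff_const
  have hl := (hs.mul ha).sub (hc.mul hb)
  have hc1 := (ha.sub ((smooth_mfun 1 hs ht).mul hl)).div_const (ε : ℂ)
  have hc2 := ha.sub ((hc.mul (smooth_mfun (-1) hs ht)).mul hb)
  exact smooth_Pgen B contDiff_fst (smooth_del1.comp hs) (hc1.pow 3) (hl.mul (hc2.pow 2))
    ((hb.mul hl).mul hc1) (hb.mul (hl.pow 2))

theorem smooth_PP2 (ε : ℝ) (B : Fin 4 → ℝ) : ContDiff ℝ ∞ (PP2 ε B) := by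
  have ha := smooth_snd 0
  have hb := smooth_snd 1
  have hs := smooth_fst 0
  have hs' : ContDiff ℝ ∞ (fun p : (Fin 2 → ℂ) × (Fin 2 → ℂ) => p.1 0 - 1 / 2) :=
    hs.sub contDiff_const
  have ht := smooth_fst 1
  have hc : ContDiff ℝ ∞ (fun _ : (Fin 2 → ℂ) × (Fin 2 → ℂ) => (ε : ℂ)) := contDiff_const
  have hl := (hs'.mul ha).sub (hc.mul hb)
  have hc1 := ha.sub ((hc.mul (smooth_mfun 1 hs' ht)).mul hb)
  have hc2 := (ha.sub ((smooth_mfun (-1) hs' ht).mul hl)).div_const (ε : ℂ)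
  exact smooth_Pgen B contDiff_fst (smooth_del2.comp hs) (hc1.pow 3) (hb.mul (hc2.pow 2))
    ((hl.mul hb).mul hc1) (hl.mul (hb.pow 2))

end Compat

theorem PPi_smooth' (ε : ℝ) (B : Fin 4 → ℝ) (i : Fin 3) : ContDiff ℝ ∞ (PPi ε B i) := by
  fin_cases i
  · exact Compat.smooth_PP0 B
  · exact Compat.smooth_PP1 ε B
  · exact Compat.smooth_PP2 ε B

theorem PPi_smooth {ε : ℝ} (_hε : 0 < ε) (B : Fin 4 → ℝ) (i : Fin 3) :
    ContDiffOn ℝ ∞ (PPi ε B i) {p | p.1 ∈ Uset i} :=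
  (PPi_smooth' ε B i).contDiffOn

theorem PPi_homog (ε : ℝ) (B : Fin 4 → ℝ) (i : Fin 3) (z u : Fin 2 → ℂ) (t : ℂ) :
    PPi ε B i (z, t • u) = ‖t‖ ^ 6 * PPi ε B i (z, u) := by
  fin_cases i
  · show Pgen B (f0 z (t • u)) z = ‖t‖ ^ 6 * Pgen B (f0 z u) z
    rw [Compat.f0_smul, Compat.Pgen_homog, ← Compat.f0_eq]
  · exact Compat.f1_smul ε z u t B
  · exact Compat.f2_smul ε z u t B

theorem PPi_pos {ε : ℝ} (hε : 0 < ε) {B : Fin 4 → ℝ} (hB : ∀ k, 0 < B k) (i : Fin 3) :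
    ∀ z ∈ Uset i, ∀ u, u ≠ 0 → 0 < PPi ε B i (z, u) := by
  intro z hz u hu
  fin_cases i
  · exact Compat.pos0 hB hz hu
  · exact Compat.pos1 hε hB hz hu
  · exact Compat.pos2 hε hB hz hu

end Vale.Agent.P296
end
end

section

section

/-!
# P296: positivity in chart 0, and smoothness of the weights
-/

namespace Vale.Agent.P296

open Complex Matrix Theta
open scoped ContDiff ComplexOrder Topology

section Second

variable {V : Type*} [NormedAddCommGroup V] [NormedSpace ℂ V]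

/-- second derivative along a real line -/
theorem iteratedFDeriv_two_eq_of_line {F : V → ℝ} (hF : ContDiff ℝ 2 F) (p X : V) {g' : ℝ → ℝ}
    {d : ℝ} (h1 : ∀ t, HasDerivAt (fun t : ℝ => F (p + t • X)) (g' t) t)
    (h2 : HasDerivAt g' d 0) : iteratedFDeriv ℝ 2 F p ![X, X] = d := by
  have hd : ∀ q, HasFDerivAt F (fderiv ℝ F q) q := fun q =>
    ((hF.differentiable (by norm_num)) q).hasFDerivAt
  have hline : ∀ t : ℝ, HasDerivAt (fun t : ℝ => p + t • X) X t := by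
    intro t
    simpa using ((hasDerivAt_id t).smul_const X).const_add p
  have e1 : ∀ t, g' t = fderiv ℝ F (p + t • X) X := fun t =>
    (h1 t).unique ((hd (p + t • X)).comp_hasDerivAt t (hline t))
  have hd2 : HasFDerivAt (fderiv ℝ F) (fderiv ℝ (fderiv ℝ F) p) (p + (0 : ℝ) • X) := by
    have : ContDiff ℝ 1 (fderiv ℝ F) := hF.fderiv_right (by norm_num)
    simpa using ((this.differentiable (by norm_num)) p).hasFDerivAt
  have h3 : HasDerivAt (fun t : ℝ => fderiv ℝ F (p + t • X))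
      (fderiv ℝ (fderiv ℝ F) p X) 0 := hd2.comp_hasDerivAt (0 : ℝ) (hline 0)
  have h4 : HasDerivAt (fun t : ℝ => fderiv ℝ F (p + t • X) X)
      (fderiv ℝ (fderiv ℝ F) p X X) 0 := by
    simpa using h3.clm_apply (hasDerivAt_const (0 : ℝ) X)
  have h5 : g' = fun t : ℝ => fderiv ℝ F (p + t • X) X := funext e1
  rw [h5] at h2
  rw [iteratedFDeriv_two_apply]
  simpa only [Fin.isValue, cons_val_zero, cons_val_one, cons_val_fin_one] using h4.unique h2

theorem hasDerivAt_mul_exp_aux {a b w a1 b1 w1 : ℝ → ℝ} {a2 b2 w2 : ℝ}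
    (ha : ∀ t, HasDerivAt a (a1 t) t) (hb : ∀ t, HasDerivAt b (b1 t) t)
    (hw : ∀ t, HasDerivAt w (w1 t) t) (ha1 : HasDerivAt a1 a2 0) (hb1 : HasDerivAt b1 b2 0)
    (hw1 : HasDerivAt w1 w2 0) :
    (∀ t, HasDerivAt (fun t => (a t ^ 2 + b t ^ 2) * Real.exp (w t))
      ((2 * a t * a1 t + 2 * b t * b1 t) * Real.exp (w t) +
        (a t ^ 2 + b t ^ 2) * (Real.exp (w t) * w1 t)) t) ∧
    HasDerivAt (fun t => (2 * a t * a1 t + 2 * b t * b1 t) * Real.exp (w t) +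
        (a t ^ 2 + b t ^ 2) * (Real.exp (w t) * w1 t))
      (Real.exp (w 0) * (2 * a1 0 ^ 2 + 2 * a 0 * a2 + 2 * b1 0 ^ 2 + 2 * b 0 * b2 +
        2 * (2 * a 0 * a1 0 + 2 * b 0 * b1 0) * w1 0 +
        (a 0 ^ 2 + b 0 ^ 2) * (w2 + w1 0 ^ 2))) 0 := by
  constructor
  · intro t
    have h := (((ha t).pow 2).add ((hb t).pow 2)).mul (hw t).exp
    refine h.congr_deriv ?_
    simp only [Pi.add_apply, Pi.pow_apply]
    ring
  · have h := (((((ha 0).const_mul 2).mul ha1).add (((hb 0).const_mul 2).mul hb1)).mul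
      (hw 0).exp).add ((((ha 0).pow 2).add ((hb 0).pow 2)).mul ((hw 0).exp.mul hw1))
    refine h.congr_deriv ?_
    simp only [Pi.add_apply, Pi.pow_apply, Pi.mul_apply]
    ring

/-- second derivative of `‖f‖² e^ψ` along a complex line -/
theorem second_normSq_mul_exp {φ : ℂ → ℂ} (hφ : ContDiff ℂ 2 φ) (c : ℂ) {w w1 : ℝ → ℝ} {w2 : ℝ}
    (hw : ∀ t, HasDerivAt w (w1 t) t) (hw1 : HasDerivAt w1 w2 0) :
    ∃ g' : ℝ → ℝ, (∀ t : ℝ, HasDerivAt (fun t : ℝ => ‖φ (t * c)‖ ^ 2 * Real.exp (w t)) (g' t) t) ∧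
      HasDerivAt g' (Real.exp (w 0) * (2 * ‖c * deriv φ 0‖ ^ 2 +
        2 * ((starRingEnd ℂ) (φ 0) * (c ^ 2 * deriv (deriv φ) 0)).re +
        4 * ((starRingEnd ℂ) (φ 0) * (c * deriv φ 0)).re * w1 0 +
        ‖φ 0‖ ^ 2 * (w2 + w1 0 ^ 2))) 0 := by
  have hline : ∀ t : ℝ, HasDerivAt (fun t : ℝ => (t : ℂ) * c) c t := by
    intro t
    simpa only [ofRealCLM_apply, ofReal_one, one_mul] using (Complex.ofRealCLM.hasDerivAt (x := t)).mul_const c
  have hd : ∀ τ, HasDerivAt φ (deriv φ τ) τ := fun τ =>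
    ((hφ.differentiable (by norm_num)) τ).hasDerivAt
  have hd2 : ∀ τ, HasDerivAt (deriv φ) (deriv (deriv φ) τ) τ := by
    intro τ
    have : ContDiff ℂ 1 (deriv φ) := by
      have := (contDiff_succ_iff_deriv (n := 1) (f := φ)).mp (by simpa [one_add_one_eq_two] using hφ)
      exact this.2.2
    exact ((this.differentiable (by norm_num)) τ).hasDerivAt
  have h1 : ∀ t : ℝ, HasDerivAt (fun t : ℝ => φ (t * c)) (c * deriv φ (t * c)) t := by
    intro t
    have := (hd (t * c)).comp t (hline t)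
    simpa only [mul_comm, Function.comp_def] using this
  have h2 : ∀ t : ℝ, HasDerivAt (fun t : ℝ => c * deriv φ (t * c))
      (c ^ 2 * deriv (deriv φ) (t * c)) t := by
    intro t
    have := ((hd2 (t * c)).comp t (hline t)).const_mul c
    refine this.congr_deriv ?_
    ring
  have hre : ∀ {F : ℝ → ℂ} {F' : ℂ} {t : ℝ}, HasDerivAt F F' t →
      HasDerivAt (fun t => (F t).re) F'.re t := by
    intro F F' t h
    exact (Complex.reCLM.hasFDerivAt.comp_hasDerivAt t h)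
  have him : ∀ {F : ℝ → ℂ} {F' : ℂ} {t : ℝ}, HasDerivAt F F' t →
      HasDerivAt (fun t => (F t).im) F'.im t := by
    intro F F' t h
    exact (Complex.imCLM.hasFDerivAt.comp_hasDerivAt t h)
  obtain ⟨k1, k2⟩ := hasDerivAt_mul_exp_aux (fun t => hre (h1 t)) (fun t => him (h1 t)) hw
    (hre (h2 0)) (him (h2 0)) hw1
  have e0 : (fun t : ℝ => ‖φ (t * c)‖ ^ 2 * Real.exp (w t)) =
      fun t : ℝ => ((φ (↑t * c)).re ^ 2 + (φ (↑t * c)).im ^ 2) * Real.exp (w t) := by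
    ext t
    simp only [Complex.sq_norm, Complex.normSq_apply]
    ring
  rw [e0]
  refine ⟨_, k1, k2.congr_deriv ?_⟩
  simp only [ofReal_zero, zero_mul, Complex.sq_norm, Complex.normSq_apply]
  simp only [Complex.mul_re, Complex.mul_im, Complex.conj_re, Complex.conj_im]
  ring

/-- Levi form of `‖f‖² e^ψ`, `f` holomorphic -/
theorem levi_normSq_mul_exp {f : V → ℂ} (hf : ContDiff ℂ 2 f) {ψ : V → ℝ} (hψ : ContDiff ℝ 2 ψ)
    (p X : V) :
    levi (fun q => ‖f q‖ ^ 2 * Real.exp (ψ q)) p X = Real.exp (ψ p) *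
      (‖fderiv ℂ f p X + f p * (((fderiv ℝ ψ p X : ℂ) - I * (fderiv ℝ ψ p (I • X) : ℂ)) / 2)‖ ^ 2 +
        ‖f p‖ ^ 2 * levi ψ p X) := by
  have hfR : ContDiff ℝ 2 f := hf.restrict_scalars ℝ
  have hF : ContDiff ℝ 2 (fun q => ‖f q‖ ^ 2 * Real.exp (ψ q)) :=
    (hfR.norm_sq ℝ).mul hψ.exp
  set φ : ℂ → ℂ := fun τ => f (p + τ • X) with hφdef
  have hφ : ContDiff ℂ 2 φ := hf.comp (by fun_prop)
  have hline : ∀ (Y : V) (t : ℝ), HasDerivAt (fun t : ℝ => p + t • Y) Y t := by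
    intro Y t
    simpa using ((hasDerivAt_id t).smul_const Y).const_add p
  have hdψ : ∀ q, HasFDerivAt ψ (fderiv ℝ ψ q) q := fun q =>
    ((hψ.differentiable (by norm_num)) q).hasFDerivAt
  have hd2 : HasFDerivAt (fderiv ℝ ψ) (fderiv ℝ (fderiv ℝ ψ) p) (p + (0 : ℝ) • X) := by
    have : ContDiff ℝ 1 (fderiv ℝ ψ) := hψ.fderiv_right (by norm_num)
    simpa using ((this.differentiable (by norm_num)) p).hasFDerivAt
  have hw : ∀ Y : V, (∀ t : ℝ, HasDerivAt (fun t : ℝ => ψ (p + t • Y))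
      (fderiv ℝ ψ (p + t • Y) Y) t) ∧ HasDerivAt (fun t : ℝ => fderiv ℝ ψ (p + t • Y) Y)
      (iteratedFDeriv ℝ 2 ψ p ![Y, Y]) 0 := by
    intro Y
    refine ⟨fun t => (hdψ (p + t • Y)).comp_hasDerivAt t (hline Y t), ?_⟩
    have hd2 : HasFDerivAt (fderiv ℝ ψ) (fderiv ℝ (fderiv ℝ ψ) p) (p + (0 : ℝ) • Y) := by
      have : ContDiff ℝ 1 (fderiv ℝ ψ) := hψ.fderiv_right (by norm_num)
      simpa only [zero_smul, add_zero] using ((this.differentiable (by norm_num)) p).hasFDerivAt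
    have h3 : HasDerivAt (fun t : ℝ => fderiv ℝ ψ (p + t • Y))
        (fderiv ℝ (fderiv ℝ ψ) p Y) 0 := hd2.comp_hasDerivAt (0 : ℝ) (hline Y 0)
    have h4 : HasDerivAt (fun t : ℝ => fderiv ℝ ψ (p + t • Y) Y)
        (fderiv ℝ (fderiv ℝ ψ) p Y Y) 0 := by
      simpa using h3.clm_apply (hasDerivAt_const (0 : ℝ) Y)
    rw [iteratedFDeriv_two_apply]
    simpa only [Fin.isValue, cons_val_zero, cons_val_one, cons_val_fin_one] using h4
  have hφ1 : deriv φ 0 = fderiv ℂ f p X := by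
    have h1 : HasFDerivAt f (fderiv ℂ f p) (p + (0 : ℂ) • X) := by
      simpa only [zero_smul, add_zero] using ((hf.differentiable (by norm_num)) p).hasFDerivAt
    have h2 : HasDerivAt (fun τ : ℂ => p + τ • X) X 0 := by
      simpa using ((hasDerivAt_id (0 : ℂ)).smul_const X).const_add p
    exact (h1.comp_hasDerivAt (0 : ℂ) h2).deriv
  have hφ0 : φ 0 = f p := by simp only [hφdef, zero_smul, add_zero]
  have key : ∀ c : ℂ, iteratedFDeriv ℝ 2 (fun q => ‖f q‖ ^ 2 * Real.exp (ψ q)) p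
      ![c • X, c • X] = Real.exp (ψ p) * (2 * ‖c * deriv φ 0‖ ^ 2 +
        2 * ((starRingEnd ℂ) (φ 0) * (c ^ 2 * deriv (deriv φ) 0)).re +
        4 * ((starRingEnd ℂ) (φ 0) * (c * deriv φ 0)).re * fderiv ℝ ψ p (c • X) +
        ‖φ 0‖ ^ 2 * (iteratedFDeriv ℝ 2 ψ p ![c • X, c • X] + fderiv ℝ ψ p (c • X) ^ 2)) := by
    intro c
    obtain ⟨g', k1, k2⟩ := second_normSq_mul_exp hφ c (hw (c • X)).1 (hw (c • X)).2
    simp only [zero_smul, add_zero] at k2
    refine iteratedFDeriv_two_eq_of_line hF p (c • X) (g' := g') ?_ k2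
    intro t
    have := k1 t
    simp only [hφdef] at this
    convert this using 4 with t
    · congr 1
      rw [mul_smul]
      rfl
  have k1 := key 1
  have k2 := key I
  rw [one_smul] at k1
  unfold levi
  rw [k1, k2, hφ1, hφ0]
  simp only [Complex.sq_norm, Complex.normSq_apply, smul_eq_mul]
  simp only [Complex.mul_re, Complex.mul_im, Complex.conj_re, Complex.conj_im, Complex.add_re,
    Complex.add_im, Complex.I_re, Complex.I_im, Complex.one_re, Complex.one_im, I_sq,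
    Complex.neg_re, Complex.neg_im, one_pow, Complex.sub_re, Complex.sub_im, Complex.ofReal_re,
    Complex.ofReal_im, Complex.div_ofNat_re, Complex.div_ofNat_im]
  ring

end Second

section Weights

/-- quadratic weight in the imaginary parts -/
noncomputable def quadIm (α β γ δ : ℝ) (z : Fin 2 → ℂ) : ℝ :=
  α * (z 0).im ^ 2 + β * ((z 0).im * (z 1).im) + γ * (z 1).im ^ 2 + δ * (z 0).im

theorem contDiff_im_apply {n : WithTop ℕ∞} (k : Fin 2) :
    ContDiff ℝ n (fun z : Fin 2 → ℂ => (z k).im) :=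
  Complex.imCLM.contDiff.comp (contDiff_apply ℝ ℂ k)

theorem contDiff_quadIm (α β γ δ : ℝ) {n : WithTop ℕ∞} : ContDiff ℝ n (quadIm α β γ δ) := by
  unfold quadIm
  have h0 := contDiff_im_apply (n := n) 0
  have h1 := contDiff_im_apply (n := n) 1
  exact ((((h0.pow 2).const_smul α).add ((h0.mul h1).const_smul β)).add
    ((h1.pow 2).const_smul γ)).add (h0.const_smul δ)

theorem levi_quadIm (α β γ δ : ℝ) (z ξ : Fin 2 → ℂ) :
    levi (quadIm α β γ δ) z ξ =
      (α * ((ξ 0).re ^ 2 + (ξ 0).im ^ 2) + β * ((ξ 0).re * (ξ 1).re + (ξ 0).im * (ξ 1).im) +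
        γ * ((ξ 1).re ^ 2 + (ξ 1).im ^ 2)) / 2 := by
  have key : ∀ X : Fin 2 → ℂ, iteratedFDeriv ℝ 2 (quadIm α β γ δ) z ![X, X] =
      2 * (α * (X 0).im ^ 2 + β * ((X 0).im * (X 1).im) + γ * (X 1).im ^ 2) := by
    intro X
    refine iteratedFDeriv_two_eq_of_line (contDiff_quadIm α β γ δ) z X
      (g' := fun t => (2 * α * (z 0).im * (X 0).im + β * ((z 0).im * (X 1).im +
        (z 1).im * (X 0).im) + 2 * γ * (z 1).im * (X 1).im + δ * (X 0).im) +
        (2 * (α * (X 0).im ^ 2 + β * ((X 0).im * (X 1).im) + γ * (X 1).im ^ 2)) * t) ?_ ?_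
    · intro t
      have e : (fun t : ℝ => quadIm α β γ δ (z + t • X)) = fun t : ℝ =>
          quadIm α β γ δ z + (2 * α * (z 0).im * (X 0).im + β * ((z 0).im * (X 1).im +
        (z 1).im * (X 0).im) + 2 * γ * (z 1).im * (X 1).im + δ * (X 0).im) * t +
          (α * (X 0).im ^ 2 + β * ((X 0).im * (X 1).im) + γ * (X 1).im ^ 2) * t ^ 2 := by
        ext t
        simp only [quadIm, Pi.add_apply, Pi.smul_apply, Complex.add_im, Complex.real_smul,
          Complex.mul_im, Complex.ofReal_re, Complex.ofReal_im]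
        ring
      rw [e]
      have h := (((hasDerivAt_id t).const_mul (2 * α * (z 0).im * (X 0).im + β * ((z 0).im *
        (X 1).im + (z 1).im * (X 0).im) + 2 * γ * (z 1).im * (X 1).im + δ * (X 0).im)).const_add
        (quadIm α β γ δ z)).add (((hasDerivAt_id t).pow 2).const_mul
        (α * (X 0).im ^ 2 + β * ((X 0).im * (X 1).im) + γ * (X 1).im ^ 2))
      refine h.congr_deriv ?_
      simp only [id]
      ring
    · have h := ((hasDerivAt_id (0 : ℝ)).const_mul (2 * (α * (X 0).im ^ 2 + β * ((X 0).im *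
        (X 1).im) + γ * (X 1).im ^ 2))).const_add (2 * α * (z 0).im * (X 0).im + β * ((z 0).im *
        (X 1).im + (z 1).im * (X 0).im) + 2 * γ * (z 1).im * (X 1).im + δ * (X 0).im)
      refine h.congr_deriv ?_
      ring
  unfold levi
  rw [key, key]
  simp only [Pi.smul_apply, smul_eq_mul, Complex.mul_im, Complex.I_re, Complex.I_im]
  ring

theorem levi_quadIm_pos {α β γ δ : ℝ} (hα : 0 < α) (h : β ^ 2 < 4 * α * γ) (z ξ : Fin 2 → ℂ)
    (hξ : ξ ≠ 0) : 0 < levi (quadIm α β γ δ) z ξ := by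
  rw [levi_quadIm]
  have key : ∀ x y : ℝ, 0 ≤ α * x ^ 2 + β * (x * y) + γ * y ^ 2 ∧
      (α * x ^ 2 + β * (x * y) + γ * y ^ 2 = 0 → x = 0 ∧ y = 0) := by
    intro x y
    have e : 4 * α * (α * x ^ 2 + β * (x * y) + γ * y ^ 2) =
        (2 * α * x + β * y) ^ 2 + (4 * α * γ - β ^ 2) * y ^ 2 := by ring
    constructor
    · have h1 : 0 ≤ 4 * α * (α * x ^ 2 + β * (x * y) + γ * y ^ 2) := by
        rw [e]
        have : 0 ≤ 4 * α * γ - β ^ 2 := by linarith only [h]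
        (clear * - h; positivity)
      by_contra hneg
      push Not at hneg
      nlinarith only [h1, hα, hneg]
    · intro h0
      rw [h0, mul_zero] at e
      have h2 : 0 < 4 * α * γ - β ^ 2 := by linarith
      have h3 : (4 * α * γ - β ^ 2) * y ^ 2 = 0 := by
        have := sq_nonneg (2 * α * x + β * y)
        have : 0 ≤ (4 * α * γ - β ^ 2) * y ^ 2 := by (clear * - h; positivity)
        (clear δ hα z ξ hξ h0 h2; linarith)
      have hy : y = 0 := by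
        rcases mul_eq_zero.mp h3 with h4 | h4
        · exact absurd h4 h2.ne'
        · exact pow_eq_zero_iff (two_ne_zero) |>.mp h4
      subst hy
      have h4 : (2 * α * x) ^ 2 = 0 := by linarith
      have h5 : 2 * α * x = 0 := pow_eq_zero_iff (two_ne_zero) |>.mp h4
      refine ⟨?_, rfl⟩
      rcases mul_eq_zero.mp h5 with h6 | h6
      · linarith only [hα, h6]
      · exact h6
  obtain ⟨k1, k2⟩ := key (ξ 0).re (ξ 1).re
  obtain ⟨k3, k4⟩ := key (ξ 0).im (ξ 1).im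
  by_contra hneg
  push Not at hneg
  have e1 : α * (ξ 0).re ^ 2 + β * ((ξ 0).re * (ξ 1).re) + γ * (ξ 1).re ^ 2 = 0 := by linarith
  have e2 : α * (ξ 0).im ^ 2 + β * ((ξ 0).im * (ξ 1).im) + γ * (ξ 1).im ^ 2 = 0 := by linarith
  apply hξ
  obtain ⟨a, b⟩ := k2 e1
  obtain ⟨c, d⟩ := k4 e2
  ext k
  fin_cases k
  · exact Complex.ext a c
  · exact Complex.ext b d

theorem om_eq (k : Fin 4) : om k = ![quadIm (18 * Real.pi) (36 * Real.pi) (24 * Real.pi) 0,
    quadIm (14 * Real.pi) (-(36 * Real.pi)) (24 * Real.pi) (4 * Real.pi),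
    quadIm (10 * Real.pi) (12 * Real.pi) (24 * Real.pi) (8 * Real.pi),
    quadIm (6 * Real.pi) (-(12 * Real.pi)) (24 * Real.pi) (12 * Real.pi)] k := by
  fin_cases k <;> ext z <;> simp [om, quadIm, phi, phiD] <;> ring

theorem om_levi_pos (k : Fin 4) (z ξ : Fin 2 → ℂ) (hξ : ξ ≠ 0) : 0 < levi (om k) z ξ := by
  have hpi := Real.pi_pos
  have hpi2 : 0 < Real.pi ^ 2 := by positivity
  rw [om_eq]
  fin_cases k
  · exact levi_quadIm_pos (by positivity) (by linarith) z ξ hξ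
  · exact levi_quadIm_pos (by positivity) (by linarith) z ξ hξ
  · exact levi_quadIm_pos (by positivity) (by linarith) z ξ hξ
  · exact levi_quadIm_pos (by positivity) (by linarith) z ξ hξ

theorem contDiff_om' (k : Fin 4) {n : WithTop ℕ∞} : ContDiff ℝ n (om k) := by
  rw [om_eq]
  fin_cases k <;> exact contDiff_quadIm _ _ _ _

theorem contDiff_om (k : Fin 4) : ContDiff ℝ ∞ (om k) := contDiff_om' k

end Weights

section Mfun

theorem differentiable_dslope_exp : Differentiable ℂ (dslope Complex.exp 0) := by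
  rw [← differentiableOn_univ]
  exact (Complex.differentiableOn_dslope Filter.univ_mem).mpr
    Complex.differentiable_exp.differentiableOn

theorem contDiff_expm {n : WithTop ℕ∞} : ContDiff ℂ n (fun p : ℂ × ℂ => expm p.1 p.2) := by
  unfold expm
  have h : ContDiff ℂ n (dslope Complex.exp 0) := differentiable_dslope_exp.contDiff
  exact contDiff_fst.mul (h.comp (contDiff_fst.mul contDiff_snd))

theorem contDiff_chi {n : ℕ∞} : ContDiff ℝ n chi := chiB.contDiff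

theorem chi_eq_one {s : ℂ} (hs : ‖s‖ ≤ 1 / 20) : chi s = 1 :=
  chiB.one_of_mem_closedBall (by simpa only [chiB, one_div, Metric.mem_closedBall, dist_zero_right] using hs)

theorem contDiff_chi_div : ContDiff ℝ ∞ (fun s : ℂ => ((1 - chi s : ℝ) : ℂ) / s) := by
  rw [contDiff_iff_contDiffAt]
  intro s
  by_cases hs : s = 0
  · subst hs
    have : (fun s : ℂ => ((1 - chi s : ℝ) : ℂ) / s) =ᶠ[𝓝 0] fun _ => 0 := by
      filter_upwards [Metric.ball_mem_nhds (0 : ℂ) (by norm_num : (0 : ℝ) < 1 / 20)] with s hs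
      rw [chi_eq_one (by simpa only [one_div] using (mem_ball_zero_iff.mp hs).le)]
      simp
    exact contDiffAt_const.congr_of_eventuallyEq this
  · have h1 : ContDiff ℝ ∞ (fun s : ℂ => ((1 - chi s : ℝ) : ℂ)) :=
      Complex.ofRealCLM.contDiff.comp (contDiff_const.sub contDiff_chi)
    have h2 : ContDiffAt ℝ ∞ (fun s : ℂ => s⁻¹) s := contDiffAt_id.inv hs
    exact h1.contDiffAt.mul h2

theorem contDiffOn_mfun (ς : ℝ) : ContDiff ℝ ∞ (fun z : Fin 2 → ℂ => mfun ς (z 0) (z 1)) := by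
  have h0 : ContDiff ℝ ∞ (fun z : Fin 2 → ℂ => z 0) := contDiff_apply ℝ ℂ 0
  have h1 : ContDiff ℝ ∞ (fun z : Fin 2 → ℂ => (((z 1).im : ℝ) : ℂ)) :=
    Complex.ofRealCLM.contDiff.comp (contDiff_im_apply 1)
  have h2 : ContDiff ℝ ∞ (fun p : ℂ × ℂ => expm p.1 p.2) :=
    (contDiff_expm (n := ∞)).restrict_scalars ℝ
  have h3 : ContDiff ℝ ∞ (fun z : Fin 2 → ℂ =>
      expm (12 * Real.pi * I * ς * ((z 1).im : ℂ)) (z 0)) :=
    h2.comp ((contDiff_const.mul h1).prodMk h0)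
  have h4 : ContDiff ℝ ∞ (fun z : Fin 2 → ℂ => ((chi (z 0) : ℝ) : ℂ)) :=
    Complex.ofRealCLM.contDiff.comp (contDiff_chi.comp h0)
  have h5 := (contDiff_chi_div.comp h0).sub (h4.mul h3)
  convert h5 using 1
  ext z
  simp [mfun]

end Mfun

section Chart0

theorem differentiable_del : Differentiable ℂ del := by
  unfold del
  exact differentiable_th.mul (differentiable_th.comp (differentiable_id.sub_const _))

theorem del_ne_zero {s : ℂ} (h1 : ¬ IsLat s) (h2 : ¬ IsLat (s - 1 / 2)) : del s ≠ 0 := by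
  unfold del
  exact mul_ne_zero (th_ne_zero h1) (th_ne_zero h2)

theorem del_ne_zero_of_mem {z : Fin 2 → ℂ} (hz : z ∈ Uset 0) : del (z 0) ≠ 0 := by
  have hz' : 1 / 10 < Metric.infDist (z 0) Lset ∧ 1 / 10 < Metric.infDist (z 0 - 1 / 2) Lset := hz
  refine del_ne_zero (fun h => ?_) (fun h => ?_)
  · have := Metric.infDist_zero_of_mem (show z 0 ∈ Lset from h)
    linarith only [hz', this]
  · have := Metric.infDist_zero_of_mem (show z 0 - 1 / 2 ∈ Lset from h)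
    linarith only [hz', this]

theorem contDiff_f0 (k : Fin 4) : ContDiff ℂ 2 (fun p : (Fin 2 → ℂ) × (Fin 2 → ℂ) =>
    f0 p.1 p.2 k) := by
  have hd : ContDiff ℂ 2 (fun p : (Fin 2 → ℂ) × (Fin 2 → ℂ) => del (p.1 0)) :=
    differentiable_del.contDiff.comp ((contDiff_apply ℂ ℂ 0).comp contDiff_fst)
  have hu : ∀ a : Fin 2, ContDiff ℂ 2 (fun p : (Fin 2 → ℂ) × (Fin 2 → ℂ) => p.2 a) :=
    fun a => (contDiff_apply ℂ ℂ a).comp contDiff_snd
  fin_cases k
  · exact (hu 0).pow 3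
  · exact hd.mul ((hu 1).pow 3)
  · exact (hd.pow 2).mul (((hu 0).pow 2).mul (hu 1))
  · exact (hd.pow 3).mul ((hu 0).mul ((hu 1).pow 2))

/-- the Levi form of one term, in direction `(ξ, w)` -/
theorem levi_term {k : Fin 4} {f : (Fin 2 → ℂ) × (Fin 2 → ℂ) → ℂ} (hf : ContDiff ℂ 2 f)
    (p X : (Fin 2 → ℂ) × (Fin 2 → ℂ)) :
    0 ≤ levi (fun q => ‖f q‖ ^ 2 * Real.exp (om k q.1)) p X ∧
      (levi (fun q => ‖f q‖ ^ 2 * Real.exp (om k q.1)) p X = 0 →
        (f p = 0 ∨ X.1 = 0) ∧ (X.1 = 0 → fderiv ℂ f p X = 0)) := by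
  have hω : ContDiff ℝ 2 (fun q : (Fin 2 → ℂ) × (Fin 2 → ℂ) => om k q.1) :=
    (contDiff_om' k).comp contDiff_fst
  have hl : levi (fun q : (Fin 2 → ℂ) × (Fin 2 → ℂ) => om k q.1) p X = levi (om k) p.1 X.1 := by
    have := levi_comp_hol (f := om k) (Θ := fun q : (Fin 2 → ℂ) × (Fin 2 → ℂ) => q.1) (p := p)
      (contDiff_om' k).contDiffAt contDiff_fst.contDiffAt X
    rw [this]
    congr 1
    have h : HasFDerivAt (fun q : (Fin 2 → ℂ) × (Fin 2 → ℂ) => q.1)
      (ContinuousLinearMap.fst ℂ (Fin 2 → ℂ) (Fin 2 → ℂ)) p := hasFDerivAt_fst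
    rw [h.fderiv]
    rfl
  have hnn : 0 ≤ levi (om k) p.1 X.1 := by
    by_cases h : X.1 = 0
    · rw [h]
      simp [levi_eq']
    · exact (om_levi_pos k p.1 X.1 h).le
  rw [levi_normSq_mul_exp hf hω p X, hl]
  have hexp := Real.exp_pos (om k p.1)
  refine ⟨by (clear * - hnn; positivity), fun h0 => ?_⟩
  have h1 := (mul_eq_zero.mp h0).resolve_left hexp.ne'
  have h2 : 0 ≤ ‖f p‖ ^ 2 * levi (om k) p.1 X.1 := by (clear * - hnn; positivity)
  have h3 : ‖f p‖ ^ 2 * levi (om k) p.1 X.1 = 0 := by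
    have := sq_nonneg ‖(fderiv ℂ f p X + f p * (((fderiv ℝ (fun q : (Fin 2 → ℂ) × (Fin 2 → ℂ) =>
      om k q.1) p X : ℂ) - I * (fderiv ℝ (fun q : (Fin 2 → ℂ) × (Fin 2 → ℂ) =>
      om k q.1) p (I • X) : ℂ)) / 2))‖
    linarith only [h2, h1, this]
  refine ⟨?_, fun hX => ?_⟩
  · rcases mul_eq_zero.mp h3 with h4 | h4
    · left
      exact norm_eq_zero.mp (pow_eq_zero_iff (two_ne_zero) |>.mp h4)
    · right
      by_contra h
      exact (om_levi_pos k p.1 X.1 h).ne' h4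
  · rw [h3, add_zero] at h1
    have h4 := norm_eq_zero.mp (pow_eq_zero_iff (two_ne_zero) |>.mp h1)
    have h5 : ∀ Y : (Fin 2 → ℂ) × (Fin 2 → ℂ), Y.1 = 0 →
        fderiv ℝ (fun q : (Fin 2 → ℂ) × (Fin 2 → ℂ) => om k q.1) p Y = 0 := by
      intro Y hY
      have hd : HasFDerivAt (fun q : (Fin 2 → ℂ) × (Fin 2 → ℂ) => om k q.1)
          ((fderiv ℝ (om k) p.1).comp (ContinuousLinearMap.fst ℝ (Fin 2 → ℂ) (Fin 2 → ℂ))) p :=
        (((contDiff_om' k (n := 2)).differentiable (by norm_num)) p.1).hasFDerivAt.comp p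
          hasFDerivAt_fst
      rw [hd.fderiv]
      simp [hY]
    rw [h5 X hX, h5 (I • X) (by simp [hX])] at h4
    simpa only [ofReal_zero, mul_zero, sub_self, zero_div, add_zero] using h4

theorem chart0_pos {B : Fin 4 → ℝ} (hB : ∀ k, 0 < B k) : ∀ z ∈ Uset 0, ∀ u : Fin 2 → ℂ, u ≠ 0 →
    ∀ X, X ≠ 0 → 0 < levi (PP0 B) (z, u) X := by
  intro z hz u hu X hX
  have hdel := del_ne_zero_of_mem hz
  set T : Fin 4 → (Fin 2 → ℂ) × (Fin 2 → ℂ) → ℝ :=
    fun k q => ‖f0 q.1 q.2 k‖ ^ 2 * Real.exp (om k q.1) with hT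
  have hTc : ∀ k, ContDiff ℝ 2 (T k) := fun k =>
    (((contDiff_f0 k).restrict_scalars ℝ).norm_sq ℝ).mul
      (((contDiff_om' k).comp contDiff_fst).exp)
  have hBT : ∀ k, ContDiff ℝ 2 (fun q => B k • T k q) := fun k => (hTc k).const_smul (B k)
  have e : PP0 B = fun q => B 0 • T 0 q + B 1 • T 1 q + B 2 • T 2 q + B 3 • T 3 q := by
    ext q
    simp only [PP0, Pgen, Fin.sum_univ_four, hT, smul_eq_mul, mul_assoc]
  have hterm := fun k => levi_term (k := k) (contDiff_f0 k) (z, u) X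
  have hsum : levi (PP0 B) (z, u) X = B 0 * levi (T 0) (z, u) X + B 1 * levi (T 1) (z, u) X +
      B 2 * levi (T 2) (z, u) X + B 3 * levi (T 3) (z, u) X := by
    rw [e, levi_add (((hBT 0).add (hBT 1)).add (hBT 2)).contDiffAt (hBT 3).contDiffAt,
      levi_add ((hBT 0).add (hBT 1)).contDiffAt (hBT 2).contDiffAt,
      levi_add (hBT 0).contDiffAt (hBT 1).contDiffAt,
      levi_const_smul (hTc 0).contDiffAt, levi_const_smul (hTc 1).contDiffAt,
      levi_const_smul (hTc 2).contDiffAt, levi_const_smul (hTc 3).contDiffAt]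
    simp only [smul_eq_mul]
  by_contra hneg
  push Not at hneg
  rw [hsum] at hneg
  have hp : ∀ k, 0 ≤ B k * levi (T k) (z, u) X := fun k => mul_nonneg (hB k).le (hterm k).1
  have hz0 : ∀ k, levi (T k) (z, u) X = 0 := by
    have h0 := hp 0
    have h1 := hp 1
    have h2 := hp 2
    have h3 := hp 3
    intro k
    have hk : B k * levi (T k) (z, u) X = 0 := by
      fin_cases k
      · show B 0 * levi (T 0) (z, u) X = 0
        linarith only [h0, hneg, h1, h2, h3]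
      · show B 1 * levi (T 1) (z, u) X = 0
        linarith only [h1, hneg, h0, h2, h3]
      · show B 2 * levi (T 2) (z, u) X = 0
        linarith only [h2, hneg, h0, h1, h3]
      · show B 3 * levi (T 3) (z, u) X = 0
        linarith only [h3, hneg, h0, h1, h2]
    exact (mul_eq_zero.mp hk).resolve_left (hB k).ne'
  have hu' : u 0 ≠ 0 ∨ u 1 ≠ 0 := by
    by_contra h
    push Not at h
    apply hu
    ext k
    fin_cases k
    · exact h.1
    · exact h.2
  have hX1 : X.1 = 0 := by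
    rcases hu' with h | h
    · refine (((hterm 0).2 (hz0 0)).1).resolve_left ?_
      exact pow_ne_zero 3 h
    · refine (((hterm 1).2 (hz0 1)).1).resolve_left ?_
      exact mul_ne_zero hdel (pow_ne_zero 3 h)
  have hfd := fun k => ((hterm k).2 (hz0 k)).2 hX1
  have hX2 : X.2 ≠ 0 := fun h => hX (Prod.ext hX1 h)
  -- derivatives in the vertical direction
  have hline : HasDerivAt (fun τ : ℂ => (z, u) + τ • X) X 0 := by
    simpa using ((hasDerivAt_id (0 : ℂ)).smul_const X).const_add (z, u)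
  have hfd' : ∀ k, HasDerivAt (fun τ : ℂ => f0 z (u + τ • X.2) k) 0 0 := by
    intro k
    have h1 : HasFDerivAt (fun q : (Fin 2 → ℂ) × (Fin 2 → ℂ) => f0 q.1 q.2 k)
        (fderiv ℂ (fun q : (Fin 2 → ℂ) × (Fin 2 → ℂ) => f0 q.1 q.2 k) (z, u))
        ((z, u) + (0 : ℂ) • X) := by
      simpa using (((contDiff_f0 k).differentiable (by norm_num)) (z, u)).hasFDerivAt
    have h2 := h1.comp_hasDerivAt (0 : ℂ) hline
    rw [hfd k] at h2
    refine h2.congr_of_eventuallyEq (Filter.Eventually.of_forall fun τ => ?_)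
    simp [hX1]
  have hl0 : HasDerivAt (fun τ : ℂ => (u + τ • X.2) 0) (X.2 0) 0 := by
    simpa using ((hasDerivAt_id (0 : ℂ)).mul_const (X.2 0)).const_add (u 0)
  have hl1 : HasDerivAt (fun τ : ℂ => (u + τ • X.2) 1) (X.2 1) 0 := by
    simpa using ((hasDerivAt_id (0 : ℂ)).mul_const (X.2 1)).const_add (u 1)
  have d0 : u 0 ^ 2 * X.2 0 = 0 := by
    have h := (hfd' 0).unique (hl0.pow 3)
    simp only [zero_smul, add_zero] at h
    linear_combination (-1 / 3 : ℂ) * h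
  have d1 : u 1 ^ 2 * X.2 1 = 0 := by
    have h := (hfd' 1).unique ((hl1.pow 3).const_mul (del (z 0)))
    simp only [zero_smul, add_zero] at h
    have h' : del (z 0) * (u 1 ^ 2 * X.2 1) = 0 := by linear_combination (-1 / 3 : ℂ) * h
    exact (mul_eq_zero.mp h').resolve_left hdel
  have d2 : 2 * u 0 * u 1 * X.2 0 + u 0 ^ 2 * X.2 1 = 0 := by
    have h := (hfd' 2).unique (((hl0.pow 2).mul hl1).const_mul (del (z 0) ^ 2))
    simp only [zero_smul, add_zero, Pi.pow_apply] at h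
    have h' : del (z 0) ^ 2 * (2 * u 0 * u 1 * X.2 0 + u 0 ^ 2 * X.2 1) = 0 := by
      linear_combination -h
    exact (mul_eq_zero.mp h').resolve_left (pow_ne_zero 2 hdel)
  have d3 : u 1 ^ 2 * X.2 0 + 2 * u 0 * u 1 * X.2 1 = 0 := by
    have h := (hfd' 3).unique ((hl0.mul (hl1.pow 2)).const_mul (del (z 0) ^ 3))
    simp only [zero_smul, add_zero, Pi.pow_apply] at h
    have h' : del (z 0) ^ 3 * (u 1 ^ 2 * X.2 0 + 2 * u 0 * u 1 * X.2 1) = 0 := by
      linear_combination -h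
    exact (mul_eq_zero.mp h').resolve_left (pow_ne_zero 3 hdel)
  apply hX2
  rcases hu' with h | h
  · have e0 : X.2 0 = 0 := (mul_eq_zero.mp d0).resolve_left (pow_ne_zero 2 h)
    rw [e0, mul_zero, zero_add] at d2
    have e1 : X.2 1 = 0 := (mul_eq_zero.mp d2).resolve_left (pow_ne_zero 2 h)
    ext k
    fin_cases k
    · exact e0
    · exact e1
  · have e1 : X.2 1 = 0 := (mul_eq_zero.mp d1).resolve_left (pow_ne_zero 2 h)
    rw [e1, mul_zero, add_zero] at d3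
    have e0 : X.2 0 = 0 := (mul_eq_zero.mp d3).resolve_left (pow_ne_zero 2 h)
    ext k
    fin_cases k
    · exact e0
    · exact e1

end Chart0

end Vale.Agent.P296
end
end

section

section

/-!
# P296: extensions of positive by positive
-/

namespace Vale.Agent.P296

open Complex
open scoped ContDiff Topology

/-- `B F + G > 0` for small `B > 0` on a compact set. -/
theorem exists_small_pos {T : Type*} [TopologicalSpace T] [T2Space T] {S : Set T}
    (hS : IsCompact S) {F G : T → ℝ} (hF : ContinuousOn F S) (hG : ContinuousOn G S)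
    (hG0 : ∀ x ∈ S, 0 ≤ G x) (h : ∀ x ∈ S, G x = 0 → 0 < F x) :
    ∃ β : ℝ, 0 < β ∧ ∀ B : ℝ, 0 < B → B ≤ β → ∀ x ∈ S, 0 < B * F x + G x := by
  set S' : Set T := S ∩ F ⁻¹' Set.Iic 0 with hS'
  have hS'c : IsCompact S' :=
    hS.of_isClosed_subset (hF.preimage_isClosed_of_isClosed hS.isClosed isClosed_Iic)
      Set.inter_subset_left
  by_cases hne : S'.Nonempty
  · obtain ⟨x0, hx0, hmin⟩ := hS'c.exists_isMinOn hne (hG.mono Set.inter_subset_left)
    obtain ⟨x1, hx1, hmin1⟩ := hS'c.exists_isMinOn hne (hF.mono Set.inter_subset_left)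
    have hc : 0 < G x0 := by
      rcases (hG0 x0 hx0.1).lt_or_eq with h1 | h1
      · exact h1
      · have h2 := h x0 hx0.1 h1.symm
        have h3 : F x0 ≤ 0 := hx0.2
        linarith only [h2, h3]
    have hM : F x1 ≤ 0 := hx1.2
    refine ⟨G x0 / (-F x1 + 1), div_pos hc (by linarith), ?_⟩
    intro B hB hBle x hx
    by_cases hFx : 0 < F x
    · have h1 := mul_pos hB hFx
      have h2 := hG0 x hx
      linarith only [h1, h2]
    · have hx' : x ∈ S' := ⟨hx, not_lt.mp hFx⟩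
      have h1 : F x1 ≤ F x := hmin1 hx'
      have h2 : G x0 ≤ G x := hmin hx'
      have h3 : B * (-F x1 + 1) ≤ G x0 := by
        rwa [le_div_iff₀ (by linarith only [hM])] at hBle
      have h4 : B * F x1 ≤ B * F x := mul_le_mul_of_nonneg_left h1 hB.le
      linarith
  · refine ⟨1, one_pos, ?_⟩
    intro B hB _ x hx
    have hFx : 0 < F x := by
      by_contra hc
      exact hne ⟨x, hx, not_lt.mp hc⟩
    have h1 := mul_pos hB hFx
    have h2 := hG0 x hx
    linarith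

section

variable {V W : Type*} [NormedAddCommGroup V] [NormedSpace ℂ V]
  [NormedAddCommGroup W] [NormedSpace ℂ W]

/-- `H` is a `|t|²`-homogeneous function on `Ω × W`, with positive Levi form over `K` off the zero
section. -/
structure Good (Ω K : Set V) (H : V × W → ℝ) : Prop where
  smooth : ContDiffOn ℝ ∞ H (Ω ×ˢ Set.univ)
  homog : ∀ z ∈ Ω, ∀ (t : ℂ) (y : W), H (z, t • y) = ‖t‖ ^ 2 * H (z, y)
  pos : ∀ z ∈ K, ∀ y : W, y ≠ 0 → ∀ X : V × W, X ≠ 0 → 0 < levi H (z, y) X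
  zero : ∀ z ∈ K, ∀ (ξ : V) (η : W), 0 ≤ levi H (z, 0) (ξ, η) ∧
    (levi H (z, 0) (ξ, η) = 0 → η = 0)

theorem two_le_inf : (2 : WithTop ℕ∞) ≤ ∞ := WithTop.coe_le_coe.mpr le_top

/-- Levi form of `|a + τ η|² exp(w(z + τ ξ))`. -/
theorem levi_line_normSq_exp {w : V → ℝ} (hw : ContDiff ℝ 2 w) (z ξ : V) (a η : ℂ) :
    levi (fun τ : ℂ => ‖a + τ * η‖ ^ 2 * Real.exp (w (z + τ • ξ))) 0 1 = Real.exp (w z) *
      (‖η + a * (((fderiv ℝ (fun τ : ℂ => w (z + τ • ξ)) 0 1 : ℂ) -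
        I * (fderiv ℝ (fun τ : ℂ => w (z + τ • ξ)) 0 (I • 1) : ℂ)) / 2)‖ ^ 2 +
        ‖a‖ ^ 2 * levi w z ξ) := by
  have hf : ContDiff ℂ 2 (fun τ : ℂ => a + τ * η) := by fun_prop
  have hψ : ContDiff ℝ 2 (fun τ : ℂ => w (z + τ • ξ)) := by
    have h1 : ContDiff ℝ 2 (fun τ : ℂ => z + τ • ξ) := by fun_prop
    exact hw.comp h1
  have h := levi_normSq_mul_exp hf hψ 0 1
  rw [h, levi_line hw.contDiffAt]
  have hd : fderiv ℂ (fun τ : ℂ => a + τ * η) 0 1 = η := by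
    have : HasDerivAt (fun τ : ℂ => a + τ * η) (1 * η) 0 :=
      ((hasDerivAt_id (0 : ℂ)).mul_const η).const_add a
    rw [fderiv_apply_one_eq_deriv, this.deriv, one_mul]
  rw [hd]
  simp only [zero_smul, add_zero, zero_mul, smul_eq_mul, mul_one]

theorem levi_line_normSq_exp_pos {w : V → ℝ} (hw : ContDiff ℝ 2 w) (z ξ : V) (a η : ℂ)
    (hpos : ξ ≠ 0 → 0 < levi w z ξ) (h : η ≠ 0 ∨ a ≠ 0) (h2 : ¬ (ξ = 0 ∧ η = 0)) :
    0 < levi (fun τ : ℂ => ‖a + τ * η‖ ^ 2 * Real.exp (w (z + τ • ξ))) 0 1 := by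
  rw [levi_line_normSq_exp hw]
  refine mul_pos (Real.exp_pos _) ?_
  by_cases ha : a = 0
  · have hη : η ≠ 0 := by
      rcases h with h | h
      · exact h
      · exact absurd ha h
    subst ha
    have h3 := norm_pos_iff.mpr hη
    have h4 : 0 < ‖η‖ ^ 2 := by positivity
    simpa only [smul_eq_mul, mul_one, zero_mul, add_zero, norm_zero, ne_eq, OfNat.ofNat_ne_zero,     not_false_eq_true, zero_pow, gt_iff_lt] using h4
  · by_cases hξ : ξ = 0
    · have hη : η ≠ 0 := fun h0 => h2 ⟨hξ, h0⟩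
      subst hξ
      have hl : levi w z (0 : V) = 0 := by
        have := levi_smul_dir hw.contDiffAt (p := z) 0 (0 : V)
        simpa using this
      have hc : (fun τ : ℂ => w (z + τ • (0 : V))) = fun _ => w z := by
        funext τ; simp only [smul_zero, add_zero]
      have := norm_pos_iff.mpr hη
      rw [hl, hc]
      simp only [fderiv_fun_const, Pi.zero_apply, zero_apply, ofReal_zero,
        mul_zero, sub_zero, zero_div, add_zero]
      positivity
    · have h1 := hpos hξ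
      have := norm_pos_iff.mpr ha
      (clear * - ha h1; positivity)

/-- behaviour under scaling in the fibre -/
theorem levi_fibre_smul {Ω : Set V} (hΩ : IsOpen Ω) {H : V × W → ℝ}
    (smooth : ContDiffOn ℝ ∞ H (Ω ×ˢ Set.univ))
    (homog : ∀ z ∈ Ω, ∀ (t : ℂ) (y : W), H (z, t • y) = ‖t‖ ^ 2 * H (z, y))
    {z : V} (hz : z ∈ Ω) (y : W) (t : ℂ) (ξ : V) (η : W) :
    levi H (z, t • y) (ξ, t • η) = ‖t‖ ^ 2 * levi H (z, y) (ξ, η) := by
  have hopen : IsOpen (Ω ×ˢ (Set.univ : Set W)) := hΩ.prod isOpen_univ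
  have hat : ∀ y : W, ContDiffAt ℝ 2 H (z, y) := fun y =>
    (smooth.contDiffAt (hopen.mem_nhds ⟨hz, trivial⟩)).of_le two_le_inf
  have hΘ : ContDiff ℂ 2 (fun q : V × W => (q.1, t • q.2)) := by fun_prop
  have h1 := levi_comp_hol (f := H) (Θ := fun q : V × W => (q.1, t • q.2)) (p := (z, y))
    (hat (t • y)) hΘ.contDiffAt (ξ, η)
  have hd : fderiv ℂ (fun q : V × W => (q.1, t • q.2)) (z, y) =
      (ContinuousLinearMap.fst ℂ V W).prod (t • ContinuousLinearMap.snd ℂ V W) :=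
    (hasFDerivAt_fst.prodMk (hasFDerivAt_snd.const_smul t)).fderiv
  rw [hd] at h1
  have hev : (fun q : V × W => H (q.1, t • q.2)) =ᶠ[𝓝 (z, y)] fun q => ‖t‖ ^ 2 • H q := by
    filter_upwards [hopen.mem_nhds (show (z, y) ∈ Ω ×ˢ (Set.univ : Set W) from ⟨hz, trivial⟩)]
      with q hq
    rw [homog q.1 hq.1, smul_eq_mul]
  rw [levi_congr hev, levi_const_smul (hat y)] at h1
  simpa using h1.symm

/-- it suffices to check positivity for unit vectors -/
theorem pos_of_unit {Ω K : Set V} (hΩ : IsOpen Ω) (hKΩ : K ⊆ Ω) {H : V × W → ℝ}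
    (smooth : ContDiffOn ℝ ∞ H (Ω ×ˢ Set.univ))
    (homog : ∀ z ∈ Ω, ∀ (t : ℂ) (y : W), H (z, t • y) = ‖t‖ ^ 2 * H (z, y))
    (h : ∀ z ∈ K, ∀ y : W, ‖y‖ = 1 → ∀ X : V × W, ‖X‖ = 1 → 0 < levi H (z, y) X)
    (z : V) (hz : z ∈ K) (y : W) (hy : y ≠ 0) (X : V × W) (hX : X ≠ 0) :
    0 < levi H (z, y) X := by
  have hopen : IsOpen (Ω ×ˢ (Set.univ : Set W)) := hΩ.prod isOpen_univ
  have hat : ∀ y : W, ContDiffAt ℝ 2 H (z, y) := fun y =>
    (smooth.contDiffAt (hopen.mem_nhds ⟨hKΩ hz, trivial⟩)).of_le two_le_inf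
  obtain ⟨ξ, η⟩ := X
  have hny : 0 < ‖y‖ := norm_pos_iff.mpr hy
  set t : ℂ := ((‖y‖⁻¹ : ℝ) : ℂ) with ht
  have htn : ‖t‖ = ‖y‖⁻¹ := by
    rw [ht, Complex.norm_real, Real.norm_eq_abs, abs_of_pos (by positivity)]
  have ht0 : t ≠ 0 := by
    rw [← norm_pos_iff, htn]; positivity
  have h1 := levi_fibre_smul hΩ smooth homog (hKΩ hz) y t ξ η
  have hty : ‖t • y‖ = 1 := by
    rw [norm_smul, htn]
    field_simp
  have hX' : ((ξ, t • η) : V × W) ≠ 0 := by
    intro h0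
    apply hX
    rw [Prod.mk_eq_zero] at h0 ⊢
    refine ⟨h0.1, ?_⟩
    rcases smul_eq_zero.mp h0.2 with h2 | h2
    · exact absurd h2 ht0
    · exact h2
  have key : ∀ X : V × W, X ≠ 0 → 0 < levi H (z, t • y) X := by
    intro X hX
    have hn : 0 < ‖X‖ := norm_pos_iff.mpr hX
    set c : ℂ := ((‖X‖⁻¹ : ℝ) : ℂ) with hc
    have hcn : ‖c‖ = ‖X‖⁻¹ := by
      rw [hc, Complex.norm_real, Real.norm_eq_abs, abs_of_pos (by positivity)]
    have h2 := levi_smul_dir (hat (t • y)) c X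
    have h3 := h z hz (t • y) hty (c • X) (by rw [norm_smul, hcn]; field_simp)
    rw [h2, smul_eq_mul, hcn] at h3
    exact pos_of_mul_pos_right h3 (by positivity)
  have h4 := key _ hX'
  rw [h1] at h4
  exact pos_of_mul_pos_right h4 (by positivity)

theorem Good.base {Ω K : Set V}
    {w : V → ℝ} (hw : ContDiff ℝ ∞ w) (hwpos : ∀ z ∈ K, ∀ ξ : V, ξ ≠ 0 → 0 < levi w z ξ)
    {B : ℝ} (hB : 0 < B) :
    Good Ω K (fun p : V × ℂ => B * ‖p.2‖ ^ 2 * Real.exp (w p.1)) := by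
  have hw2 : ContDiff ℝ 2 w := hw.of_le two_le_inf
  have hsm : ContDiff ℝ ∞ (fun p : V × ℂ => B * ‖p.2‖ ^ 2 * Real.exp (w p.1)) := by
    have h1 : ContDiff ℝ ∞ (fun p : V × ℂ => ‖p.2‖ ^ 2) := contDiff_snd.norm_sq ℝ
    have h2 : ContDiff ℝ ∞ (fun p : V × ℂ => w p.1) := hw.comp contDiff_fst
    exact (contDiff_const.mul h1).mul h2.exp
  have hlevi : ∀ (z : V) (y : ℂ) (ξ : V) (η : ℂ),
      levi (fun p : V × ℂ => B * ‖p.2‖ ^ 2 * Real.exp (w p.1)) (z, y) (ξ, η) =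
      B * levi (fun τ : ℂ => ‖y + τ * η‖ ^ 2 * Real.exp (w (z + τ • ξ))) 0 1 := by
    intro z y ξ η
    rw [← levi_line ((hsm.of_le two_le_inf).contDiffAt)]
    have e : (fun τ : ℂ => (fun p : V × ℂ => B * ‖p.2‖ ^ 2 * Real.exp (w p.1))
        ((z, y) + τ • (ξ, η))) =
        fun τ => B • (‖y + τ * η‖ ^ 2 * Real.exp (w (z + τ • ξ))) := by
      funext τ
      simp [mul_assoc]
    rw [e, levi_const_smul, smul_eq_mul]
    have h1 : ContDiff ℝ 2 (fun τ : ℂ => ‖y + τ * η‖ ^ 2) :=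
      ContDiff.norm_sq ℝ (by fun_prop)
    have h2 : ContDiff ℝ 2 (fun τ : ℂ => w (z + τ • ξ)) :=
      hw2.comp (by fun_prop)
    exact (h1.mul h2.exp).contDiffAt
  refine ⟨hsm.contDiffOn, ?_, ?_, ?_⟩
  · intro z _ t y
    simp only [smul_eq_mul, norm_mul]
    ring
  · intro z hz y hy X hX
    obtain ⟨ξ, η⟩ := X
    rw [hlevi]
    refine mul_pos hB (levi_line_normSq_exp_pos hw2 z ξ y η (hwpos z hz ξ) (Or.inr hy) ?_)
    rintro ⟨h1, h2⟩
    exact hX (by rw [h1, h2]; rfl)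
  · intro z hz ξ η
    rw [hlevi]
    by_cases hη : η = 0
    · refine ⟨?_, fun _ => hη⟩
      subst hη
      have : (fun τ : ℂ => ‖(0 : ℂ) + τ * 0‖ ^ 2 * Real.exp (w (z + τ • ξ))) = fun _ => 0 := by
        funext τ; simp
      rw [this]
      simp [levi]
    · have h1 := levi_line_normSq_exp_pos hw2 z ξ 0 η (hwpos z hz ξ) (Or.inl hη)
        (fun h => hη h.2)
      have h2 := mul_pos hB h1
      exact ⟨h2.le, fun h3 => absurd h3 h2.ne'⟩

theorem continuousOn_levi_prod {Ω K : Set V} (hΩ : IsOpen Ω) (hKΩ : K ⊆ Ω) {f : V × W → ℝ}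
    (hf : ContDiffOn ℝ ∞ f (Ω ×ˢ Set.univ)) (A : Set W) (B : Set (V × W)) :
    ContinuousOn (fun x : V × (W × (V × W)) => levi f (x.1, x.2.1) x.2.2) (K ×ˢ (A ×ˢ B)) := by
  have h1 := continuousOn_levi (hΩ.prod isOpen_univ) (hf.of_le two_le_inf)
  have h2 : Continuous (fun x : V × (W × (V × W)) => (((x.1, x.2.1) : V × W), x.2.2)) := by
    fun_prop
  have h3 : Set.MapsTo (fun x : V × (W × (V × W)) => (((x.1, x.2.1) : V × W), x.2.2))
      (K ×ˢ (A ×ˢ B)) ((Ω ×ˢ (Set.univ : Set W)) ×ˢ (Set.univ : Set (V × W))) := by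
    intro x hx
    exact Set.mk_mem_prod (Set.mk_mem_prod (hKΩ hx.1) (Set.mem_univ _)) (Set.mem_univ _)
  have h4 := h1.comp h2.continuousOn h3
  exact h4

theorem Good.ext [FiniteDimensional ℂ V] [FiniteDimensional ℂ W] {Ω K : Set V}
    (hΩ : IsOpen Ω) (hK : IsCompact K) (hKΩ : K ⊆ Ω) {H : V × W → ℝ} (hH : Good Ω K H)
    {w : V → ℝ} (hw : ContDiff ℝ ∞ w) (hwpos : ∀ z ∈ K, ∀ ξ : V, ξ ≠ 0 → 0 < levi w z ξ)
    {ρ : V → W →L[ℂ] ℂ} (hρ : ContDiffOn ℝ ∞ ρ Ω) :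
    ∃ β : ℝ, 0 < β ∧ ∀ B : ℝ, 0 < B → B ≤ β →
      Good Ω K (fun p : V × (ℂ × W) =>
        B * ‖p.2.1 + ρ p.1 p.2.2‖ ^ 2 * Real.exp (w p.1) + H (p.1, p.2.2)) := by
  have hw2 : ContDiff ℝ 2 w := hw.of_le two_le_inf
  have hopen : IsOpen (Ω ×ˢ (Set.univ : Set (ℂ × W))) := hΩ.prod isOpen_univ
  have hopenW : IsOpen (Ω ×ˢ (Set.univ : Set W)) := hΩ.prod isOpen_univ
  -- the two functions
  set F1 : V × (ℂ × W) → ℝ := fun p => ‖p.2.1 + ρ p.1 p.2.2‖ ^ 2 * Real.exp (w p.1) with hF1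
  set G1 : V × (ℂ × W) → ℝ := fun p => H (p.1, p.2.2) with hG1
  have hF1s : ContDiffOn ℝ ∞ F1 (Ω ×ˢ Set.univ) := by
    have h1 : ContDiffOn ℝ ∞ (fun p : V × (ℂ × W) => ρ p.1) (Ω ×ˢ Set.univ) :=
      hρ.comp contDiff_fst.contDiffOn (fun p hp => hp.1)
    have hev : ContDiff ℝ ∞ (fun q : (W →L[ℂ] ℂ) × W => q.1 q.2) :=
      (isBoundedBilinearMap_apply (𝕜 := ℂ) (E := W) (F := ℂ)).contDiff.restrict_scalars ℝ
    have h2 : ContDiffOn ℝ ∞ (fun p : V × (ℂ × W) => ρ p.1 p.2.2) (Ω ×ˢ Set.univ) :=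
      hev.comp_contDiffOn (h1.prodMk (by fun_prop))
    have h3 : ContDiffOn ℝ ∞ (fun p : V × (ℂ × W) => p.2.1 + ρ p.1 p.2.2) (Ω ×ˢ Set.univ) :=
      ContDiffOn.add (by fun_prop) h2
    have h4 : ContDiff ℝ ∞ (fun p : V × (ℂ × W) => w p.1) := hw.comp contDiff_fst
    exact (h3.norm_sq ℝ).mul h4.exp.contDiffOn
  have hG1s : ContDiffOn ℝ ∞ G1 (Ω ×ˢ Set.univ) :=
    hH.smooth.comp (ContDiff.contDiffOn (by fun_prop)) (fun p hp => ⟨hp.1, trivial⟩)
  have hG1levi : ∀ z ∈ K, ∀ (y : ℂ × W) (ξ : V) (η : ℂ × W),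
      levi G1 (z, y) (ξ, η) = levi H (z, y.2) (ξ, η.2) := by
    intro z hz y ξ η
    have hat : ContDiffAt ℝ 2 H (z, y.2) :=
      (hH.smooth.contDiffAt (hopenW.mem_nhds ⟨hKΩ hz, trivial⟩)).of_le two_le_inf
    have hΘ : ContDiff ℂ 2 (fun q : V × (ℂ × W) => (q.1, q.2.2)) := by fun_prop
    have h1 := levi_comp_hol (f := H) (Θ := fun q : V × (ℂ × W) => (q.1, q.2.2)) (p := (z, y))
      hat hΘ.contDiffAt (ξ, η)
    have hd : fderiv ℂ (fun q : V × (ℂ × W) => (q.1, q.2.2)) (z, y) =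
        (ContinuousLinearMap.fst ℂ V (ℂ × W)).prod
          ((ContinuousLinearMap.snd ℂ ℂ W).comp (ContinuousLinearMap.snd ℂ V (ℂ × W))) := by
      have := ((ContinuousLinearMap.fst ℂ V (ℂ × W)).prod
          ((ContinuousLinearMap.snd ℂ ℂ W).comp
            (ContinuousLinearMap.snd ℂ V (ℂ × W)))).hasFDerivAt (x := (z, y))
      exact this.fderiv
    rw [hd] at h1
    exact h1
  have hF1line : ∀ z ∈ K, ∀ (y : ℂ × W) (ξ : V) (η : ℂ × W), y.2 = 0 → η.2 = 0 →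
      levi F1 (z, y) (ξ, η) =
        levi (fun τ : ℂ => ‖y.1 + τ * η.1‖ ^ 2 * Real.exp (w (z + τ • ξ))) 0 1 := by
    intro z hz y ξ η hy hη
    have hat : ContDiffAt ℝ 2 F1 (z, y) :=
      (hF1s.contDiffAt (hopen.mem_nhds ⟨hKΩ hz, trivial⟩)).of_le two_le_inf
    rw [← levi_line hat]
    congr 1
    funext τ
    simp [hF1, hy, hη]
  have hF1vert : ∀ z ∈ K, ∀ (y : ℂ × W) (c : ℂ),
      levi F1 (z, y) (0, (c, 0)) = ‖c‖ ^ 2 * Real.exp (w z) := by
    intro z hz y c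
    have hat : ContDiffAt ℝ 2 F1 (z, y) :=
      (hF1s.contDiffAt (hopen.mem_nhds ⟨hKΩ hz, trivial⟩)).of_le two_le_inf
    rw [← levi_line hat]
    have e : (fun τ : ℂ => F1 ((z, y) + τ • ((0 : V), ((c, 0) : ℂ × W)))) =
        fun τ : ℂ => ‖(y.1 + ρ z y.2) + τ * c‖ ^ 2 *
          Real.exp ((fun _ : V => w z) ((0 : V) + τ • (0 : V))) := by
      funext τ
      simp only [hF1, Prod.smul_mk, smul_zero, smul_eq_mul, Prod.snd_add, Prod.fst_add, add_zero]
      congr 3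
      ring
    rw [e, levi_line_normSq_exp (w := fun _ : V => w z) contDiff_const (0 : V) 0]
    have hl : levi (fun _ : V => w z) (0 : V) (0 : V) = 0 := by
      have := levi_smul_dir (f := fun _ : V => w z) (p := (0 : V)) contDiffAt_const 0 (0 : V)
      simpa using this
    rw [hl]
    simp only [fderiv_fun_const, Pi.zero_apply, zero_apply, ofReal_zero, smul_eq_mul, mul_one, mul_zero, sub_self, zero_div, add_zero]
    ring
  have levi0 : ∀ z ∈ K, ∀ y : W, levi H (z, y) (0 : V × W) = 0 := by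
    intro z hz y
    have hat : ContDiffAt ℝ 2 H (z, y) :=
      (hH.smooth.contDiffAt (hopenW.mem_nhds ⟨hKΩ hz, trivial⟩)).of_le two_le_inf
    have := levi_smul_dir hat 0 (0 : V × W)
    simpa using this
  -- nonnegativity
  have hGnn : ∀ z ∈ K, ∀ (y : ℂ × W) (ξ : V) (η : ℂ × W), 0 ≤ levi G1 (z, y) (ξ, η) := by
    intro z hz y ξ η
    rw [hG1levi z hz]
    by_cases hy : y.2 = 0
    · rw [hy]; exact (hH.zero z hz ξ η.2).1
    · by_cases hX : ((ξ, η.2) : V × W) = 0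
      · rw [hX, levi0 z hz]
      · exact (hH.pos z hz _ hy _ hX).le
  have hFnn : ∀ z ∈ K, ∀ (ξ : V) (η : ℂ × W), 0 ≤ levi F1 (z, 0) (ξ, η) := by
    intro z hz ξ η
    have hat : ContDiffAt ℝ 2 F1 (z, 0) :=
      (hF1s.contDiffAt (hopen.mem_nhds ⟨hKΩ hz, trivial⟩)).of_le two_le_inf
    have hneg : ContDiffAt ℝ 2 (fun q => (-1 : ℝ) • F1 q) (z, 0) := hat.const_smul (-1 : ℝ)
    have h1 := levi_nonpos_of_isLocalMax (f := fun q => (-1 : ℝ) • F1 q) hneg
      (Filter.Eventually.of_forall fun q => by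
        have h2 : 0 ≤ F1 q := by simp only [hF1]; (clear * -; positivity)
        have h3 : F1 (z, 0) = 0 := by simp only [hF1, Prod.fst_zero, Prod.snd_zero, map_zero, add_zero, norm_zero, ne_eq, OfNat.ofNat_ne_zero, not_false_eq_true, zero_pow, zero_mul]
        simp only [smul_eq_mul, neg_mul, one_mul, h3]
        linarith only [h2]) (ξ, η)
    rw [levi_const_smul hat] at h1
    simp only [smul_eq_mul, neg_mul, one_mul] at h1
    linarith
  -- the compact set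
  have : ProperSpace (ℂ × W) := FiniteDimensional.proper ℂ _
  have : ProperSpace (V × (ℂ × W)) := FiniteDimensional.proper ℂ _
  set S : Set (V × ((ℂ × W) × (V × (ℂ × W)))) :=
    K ×ˢ (Metric.sphere (0 : ℂ × W) 1 ×ˢ Metric.sphere (0 : V × (ℂ × W)) 1) with hS
  have hSc : IsCompact S := hK.prod ((isCompact_sphere _ _).prod (isCompact_sphere _ _))
  obtain ⟨β, hβ, hβ'⟩ := exists_small_pos hSc (continuousOn_levi_prod hΩ hKΩ hF1s _ _)
    (continuousOn_levi_prod hΩ hKΩ hG1s _ _)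
    (fun x hx => hGnn x.1 hx.1 x.2.1 x.2.2.1 x.2.2.2) (by
      rintro ⟨z, y, ξ, η⟩ ⟨hz, hy, hX⟩ hG0
      have hy' : ‖y‖ = 1 := by simpa only [mem_sphere_iff_norm, sub_zero] using hy
      have hX' : ‖((ξ, η) : V × (ℂ × W))‖ = 1 := by simpa only [Prod.norm_mk, mem_sphere_iff_norm, sub_zero] using hX
      have hX0 : ((ξ, η) : V × (ℂ × W)) ≠ 0 := by
        intro h0; rw [h0, norm_zero] at hX'; exact zero_ne_one hX'
      have hy0 : y ≠ 0 := by
        intro h0; rw [h0, norm_zero] at hy'; exact zero_ne_one hy'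
      have hG0' : levi H (z, y.2) (ξ, η.2) = 0 := by
        rw [← hG1levi z hz]; exact hG0
      show 0 < levi F1 (z, y) (ξ, η)
      by_cases hy2 : y.2 = 0
      · rw [hy2] at hG0'
        have hη2 : η.2 = 0 := (hH.zero z hz ξ η.2).2 hG0'
        have hy1 : y.1 ≠ 0 := fun h => hy0 (Prod.ext h hy2)
        rw [hF1line z hz y ξ η hy2 hη2]
        refine levi_line_normSq_exp_pos hw2 z ξ y.1 η.1 (hwpos z hz ξ) (Or.inr hy1) ?_
        rintro ⟨h1, h2⟩
        exact hX0 (Prod.ext h1 (Prod.ext h2 hη2))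
      · have hX2 : ((ξ, η.2) : V × W) = 0 := by
          by_contra h0
          exact (hH.pos z hz _ hy2 _ h0).ne' hG0'
        rw [Prod.mk_eq_zero] at hX2
        obtain ⟨hξ, hη2⟩ := hX2
        have hη1 : η.1 ≠ 0 := fun h => hX0 (Prod.ext hξ (Prod.ext h hη2))
        have e : η = (η.1, 0) := Prod.ext rfl hη2
        rw [hξ, e, hF1vert z hz]
        have := norm_pos_iff.mpr hη1
        positivity)
  refine ⟨β, hβ, fun B hB hBβ => ?_⟩
  set P : V × (ℂ × W) → ℝ := fun p =>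
    B * ‖p.2.1 + ρ p.1 p.2.2‖ ^ 2 * Real.exp (w p.1) + H (p.1, p.2.2) with hP
  have hPe : P = fun p => B • F1 p + G1 p := by
    funext p
    simp only [hP, hF1, hG1, smul_eq_mul]
    ring
  have hPs : ContDiffOn ℝ ∞ P (Ω ×ˢ Set.univ) := by
    rw [hPe]
    exact (hF1s.const_smul B).add hG1s
  have hPh : ∀ z ∈ Ω, ∀ (t : ℂ) (y : ℂ × W), P (z, t • y) = ‖t‖ ^ 2 * P (z, y) := by
    intro z hz t y
    have h1 := hH.homog z hz t y.2
    have h2 : ρ z (t • y.2) = t * ρ z y.2 := by rw [map_smul, smul_eq_mul]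
    simp only [hP, Prod.smul_fst, Prod.smul_snd, smul_eq_mul]
    rw [h1, h2, ← mul_add, norm_mul]
    ring
  have hPlevi : ∀ z ∈ K, ∀ (y : ℂ × W) (X : V × (ℂ × W)),
      levi P (z, y) X = B * levi F1 (z, y) X + levi G1 (z, y) X := by
    intro z hz y X
    have hat1 : ContDiffAt ℝ 2 F1 (z, y) :=
      (hF1s.contDiffAt (hopen.mem_nhds ⟨hKΩ hz, trivial⟩)).of_le two_le_inf
    have hat2 : ContDiffAt ℝ 2 G1 (z, y) :=
      (hG1s.contDiffAt (hopen.mem_nhds ⟨hKΩ hz, trivial⟩)).of_le two_le_inf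
    rw [hPe, levi_add (f := fun p => B • F1 p) (hat1.const_smul B) hat2, levi_const_smul hat1,
      smul_eq_mul]
  refine ⟨hPs, hPh, ?_, ?_⟩
  · refine pos_of_unit hΩ hKΩ hPs hPh ?_
    intro z hz y hy X hX
    rw [hPlevi z hz]
    exact hβ' B hB hBβ (z, y, X) ⟨hz, by simpa only [mem_sphere_iff_norm, sub_zero] using hy, by simpa only [mem_sphere_iff_norm, sub_zero] using hX⟩
  · intro z hz ξ η
    have h1 := hFnn z hz ξ η
    have h2 := hGnn z hz 0 ξ η
    rw [hPlevi z hz]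
    refine ⟨add_nonneg (mul_nonneg hB.le h1) h2, ?_⟩
    intro h0
    have h3 : levi G1 (z, 0) (ξ, η) = 0 := by
      have := mul_nonneg hB.le h1
      linarith only [h2, h0, this]
    have h4 : levi F1 (z, 0) (ξ, η) = 0 := by
      have h5 : B * levi F1 (z, 0) (ξ, η) = 0 := by linarith only [h0, h3]
      rcases mul_eq_zero.mp h5 with h6 | h6
      · exact absurd h6 hB.ne'
      · exact h6
    rw [hG1levi z hz] at h3
    have hη2 : η.2 = 0 := (hH.zero z hz ξ η.2).2 h3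
    rw [hF1line z hz 0 ξ η rfl hη2] at h4
    have hη1 : η.1 = 0 := by
      by_contra hne
      have h5 := levi_line_normSq_exp_pos hw2 z ξ 0 η.1 (hwpos z hz ξ) (Or.inl hne)
        (fun h => hne h.2)
      exact h5.ne' h4
    exact Prod.ext hη1 hη2

end

end Vale.Agent.P296
end
end

section

section

/-!
# P296: simultaneous choice of the constants for two flags of functionals
-/

namespace Vale.Agent.P296

open Complex Matrix Theta
open scoped ContDiff ComplexOrder Topology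

/-- the linear form `r y₀ + s y₁` -/
noncomputable def lin2 (r s : ℂ) : ℂ × ℂ →L[ℂ] ℂ :=
  r • ContinuousLinearMap.fst ℂ ℂ ℂ + s • ContinuousLinearMap.snd ℂ ℂ ℂ

/-- the linear form `r y₀ + s y₁ + t y₂` -/
noncomputable def lin3 (r s t : ℂ) : ℂ × ℂ × ℂ →L[ℂ] ℂ :=
  r • ContinuousLinearMap.fst ℂ ℂ (ℂ × ℂ) +
    s • (ContinuousLinearMap.fst ℂ ℂ ℂ ∘L ContinuousLinearMap.snd ℂ ℂ (ℂ × ℂ)) +
    t • (ContinuousLinearMap.snd ℂ ℂ ℂ ∘L ContinuousLinearMap.snd ℂ ℂ (ℂ × ℂ))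

/-- the linear form `r y` -/
noncomputable def lin1 (r : ℂ) : ℂ →L[ℂ] ℂ := r • ContinuousLinearMap.id ℂ ℂ

@[simp] theorem lin1_apply (r y : ℂ) : lin1 r y = r * y := by simp [lin1]

@[simp] theorem lin2_apply (r s : ℂ) (y : ℂ × ℂ) : lin2 r s y = r * y.1 + s * y.2 := by
  simp only [lin2, _root_.add_apply, _root_.smul_apply, ContinuousLinearMap.coe_fst', smul_eq_mul, ContinuousLinearMap.coe_snd']

@[simp] theorem lin3_apply (r s t : ℂ) (y : ℂ × ℂ × ℂ) :
    lin3 r s t y = r * y.1 + s * y.2.1 + t * y.2.2 := by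
  simp only [lin3, _root_.add_apply, _root_.smul_apply, ContinuousLinearMap.coe_fst', smul_eq_mul, ContinuousLinearMap.comp_apply, ContinuousLinearMap.coe_snd']

/-- Coefficients of a flag of functionals. -/
structure FlagCoef (V : Type*) where
  r01 : V → ℂ
  r02 : V → ℂ
  r03 : V → ℂ
  r12 : V → ℂ
  r13 : V → ℂ
  r23 : V → ℂ

section

variable {V : Type*} [NormedAddCommGroup V] [NormedSpace ℂ V]

/-- The coefficients are smooth on `Ω`. -/
structure FlagCoef.Smooth (R : FlagCoef V) (Ω : Set V) : Prop where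
  s01 : ContDiffOn ℝ ∞ R.r01 Ω
  s02 : ContDiffOn ℝ ∞ R.r02 Ω
  s03 : ContDiffOn ℝ ∞ R.r03 Ω
  s12 : ContDiffOn ℝ ∞ R.r12 Ω
  s13 : ContDiffOn ℝ ∞ R.r13 Ω
  s23 : ContDiffOn ℝ ∞ R.r23 Ω

/-- The quadratic function of the flag. -/
noncomputable def Hfl (w : Fin 4 → V → ℝ) (A : Fin 4 → ℝ) (R : FlagCoef V)
    (p : V × (ℂ × ℂ × ℂ × ℂ)) : ℝ :=
  A 0 * ‖p.2.1 + lin3 (R.r01 p.1) (R.r02 p.1) (R.r03 p.1) p.2.2‖ ^ 2 * Real.exp (w 0 p.1) +
    (A 1 * ‖p.2.2.1 + lin2 (R.r12 p.1) (R.r13 p.1) p.2.2.2‖ ^ 2 * Real.exp (w 1 p.1) +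
      (A 2 * ‖p.2.2.2.1 + lin1 (R.r23 p.1) p.2.2.2.2‖ ^ 2 * Real.exp (w 2 p.1) +
        A 3 * ‖p.2.2.2.2‖ ^ 2 * Real.exp (w 3 p.1)))

theorem min_div_le {β₁ β₂ c₁ c₂ : ℝ} (hc₁ : 0 < c₁) (hc₂ : 0 < c₂) :
    min (β₁ / c₁) (β₂ / c₂) * c₁ ≤ β₁ ∧ min (β₁ / c₁) (β₂ / c₂) * c₂ ≤ β₂ := by
  constructor
  · calc min (β₁ / c₁) (β₂ / c₂) * c₁ ≤ β₁ / c₁ * c₁ :=
        mul_le_mul_of_nonneg_right (min_le_left _ _) hc₁.le
      _ = β₁ := by field_simp
  · calc min (β₁ / c₁) (β₂ / c₂) * c₂ ≤ β₂ / c₂ * c₂ :=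
        mul_le_mul_of_nonneg_right (min_le_right _ _) hc₂.le
      _ = β₂ := by field_simp

theorem flag_two [FiniteDimensional ℂ V] {Ω₁ K₁ Ω₂ K₂ : Set V}
    (hΩ₁ : IsOpen Ω₁) (hK₁ : IsCompact K₁) (hKΩ₁ : K₁ ⊆ Ω₁)
    (hΩ₂ : IsOpen Ω₂) (hK₂ : IsCompact K₂) (hKΩ₂ : K₂ ⊆ Ω₂)
    {w : Fin 4 → V → ℝ} (hw : ∀ k, ContDiff ℝ ∞ (w k))
    (hwpos : ∀ k z ξ, ξ ≠ 0 → 0 < levi (w k) z ξ)
    {R₁ R₂ : FlagCoef V} (hR₁ : R₁.Smooth Ω₁) (hR₂ : R₂.Smooth Ω₂)
    {c₁ c₂ : Fin 4 → ℝ} (hc₁ : ∀ k, 0 < c₁ k) (hc₂ : ∀ k, 0 < c₂ k) :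
    ∃ B : Fin 4 → ℝ, (∀ k, 0 < B k) ∧
      Good Ω₁ K₁ (Hfl w (fun k => B k * c₁ k) R₁) ∧
      Good Ω₂ K₂ (Hfl w (fun k => B k * c₂ k) R₂) := by
  -- step 3
  have g1 := Good.base (Ω := Ω₁) (K := K₁) (hw 3) (fun z _ ξ hξ => hwpos 3 z ξ hξ)
    (mul_pos one_pos (hc₁ 3))
  have g2 := Good.base (Ω := Ω₂) (K := K₂) (hw 3) (fun z _ ξ hξ => hwpos 3 z ξ hξ)
    (mul_pos one_pos (hc₂ 3))
  -- step 2
  have s1 : ContDiffOn ℝ ∞ (fun z => lin1 (R₁.r23 z)) Ω₁ := hR₁.s23.smul contDiffOn_const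
  have s2 : ContDiffOn ℝ ∞ (fun z => lin1 (R₂.r23 z)) Ω₂ := hR₂.s23.smul contDiffOn_const
  obtain ⟨β₁, hβ₁, h₁⟩ := g1.ext hΩ₁ hK₁ hKΩ₁ (hw 2)
    (fun z _ ξ hξ => hwpos 2 z ξ hξ) s1
  obtain ⟨β₂, hβ₂, h₂⟩ := g2.ext hΩ₂ hK₂ hKΩ₂ (hw 2)
    (fun z _ ξ hξ => hwpos 2 z ξ hξ) s2
  obtain ⟨B2, hB2, hle1, hle2⟩ : ∃ B2 : ℝ, 0 < B2 ∧ B2 * c₁ 2 ≤ β₁ ∧ B2 * c₂ 2 ≤ β₂ :=
    ⟨min (β₁ / c₁ 2) (β₂ / c₂ 2), lt_min (div_pos hβ₁ (hc₁ 2)) (div_pos hβ₂ (hc₂ 2)),
      min_div_le (hc₁ 2) (hc₂ 2)⟩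
  have g1 := h₁ (B2 * c₁ 2) (mul_pos hB2 (hc₁ 2)) hle1
  have g2 := h₂ (B2 * c₂ 2) (mul_pos hB2 (hc₂ 2)) hle2
  clear h₁ h₂ hle1 hle2 hβ₁ hβ₂ β₁ β₂
  -- step 1
  have s1 : ContDiffOn ℝ ∞ (fun z => lin2 (R₁.r12 z) (R₁.r13 z)) Ω₁ :=
    (hR₁.s12.smul contDiffOn_const).add (hR₁.s13.smul contDiffOn_const)
  have s2 : ContDiffOn ℝ ∞ (fun z => lin2 (R₂.r12 z) (R₂.r13 z)) Ω₂ :=
    (hR₂.s12.smul contDiffOn_const).add (hR₂.s13.smul contDiffOn_const)
  obtain ⟨β₁, hβ₁, h₁⟩ := g1.ext hΩ₁ hK₁ hKΩ₁ (hw 1)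
    (fun z _ ξ hξ => hwpos 1 z ξ hξ) s1
  obtain ⟨β₂, hβ₂, h₂⟩ := g2.ext hΩ₂ hK₂ hKΩ₂ (hw 1)
    (fun z _ ξ hξ => hwpos 1 z ξ hξ) s2
  obtain ⟨B1, hB1, hle1, hle2⟩ : ∃ B1 : ℝ, 0 < B1 ∧ B1 * c₁ 1 ≤ β₁ ∧ B1 * c₂ 1 ≤ β₂ :=
    ⟨min (β₁ / c₁ 1) (β₂ / c₂ 1), lt_min (div_pos hβ₁ (hc₁ 1)) (div_pos hβ₂ (hc₂ 1)),
      min_div_le (hc₁ 1) (hc₂ 1)⟩
  have g1 := h₁ (B1 * c₁ 1) (mul_pos hB1 (hc₁ 1)) hle1
  have g2 := h₂ (B1 * c₂ 1) (mul_pos hB1 (hc₂ 1)) hle2
  clear h₁ h₂ hle1 hle2 hβ₁ hβ₂ β₁ β₂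
  -- step 0
  have s1 : ContDiffOn ℝ ∞ (fun z => lin3 (R₁.r01 z) (R₁.r02 z) (R₁.r03 z)) Ω₁ :=
    ((hR₁.s01.smul contDiffOn_const).add (hR₁.s02.smul contDiffOn_const)).add
      (hR₁.s03.smul contDiffOn_const)
  have s2 : ContDiffOn ℝ ∞ (fun z => lin3 (R₂.r01 z) (R₂.r02 z) (R₂.r03 z)) Ω₂ :=
    ((hR₂.s01.smul contDiffOn_const).add (hR₂.s02.smul contDiffOn_const)).add
      (hR₂.s03.smul contDiffOn_const)
  obtain ⟨β₁, hβ₁, h₁⟩ := g1.ext hΩ₁ hK₁ hKΩ₁ (hw 0)
    (fun z _ ξ hξ => hwpos 0 z ξ hξ) s1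
  obtain ⟨β₂, hβ₂, h₂⟩ := g2.ext hΩ₂ hK₂ hKΩ₂ (hw 0)
    (fun z _ ξ hξ => hwpos 0 z ξ hξ) s2
  obtain ⟨B0, hB0, hle1, hle2⟩ : ∃ B0 : ℝ, 0 < B0 ∧ B0 * c₁ 0 ≤ β₁ ∧ B0 * c₂ 0 ≤ β₂ :=
    ⟨min (β₁ / c₁ 0) (β₂ / c₂ 0), lt_min (div_pos hβ₁ (hc₁ 0)) (div_pos hβ₂ (hc₂ 0)),
      min_div_le (hc₁ 0) (hc₂ 0)⟩
  have g1 := h₁ (B0 * c₁ 0) (mul_pos hB0 (hc₁ 0)) hle1
  have g2 := h₂ (B0 * c₂ 0) (mul_pos hB0 (hc₂ 0)) hle2
  refine ⟨![B0, B1, B2, 1], ?_, ?_, ?_⟩
  · intro k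
    fin_cases k
    · exact hB0
    · exact hB1
    · exact hB2
    · exact one_pos
  · exact g1
  · exact g2

end

end Vale.Agent.P296
end
end

section

section

/-!
# P296: positivity in the charts 1 and 2
-/

namespace Vale.Agent.P296

open Complex Matrix Theta
open scoped ContDiff ComplexOrder Topology

theorem two_le_infty : (2 : WithTop ℕ∞) ≤ ∞ := WithTop.coe_le_coe.mpr le_top

theorem cdiv {V : Type*} [NormedAddCommGroup V] [NormedSpace ℝ V] {f g : V → ℂ} {s : Set V}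
    (hf : ContDiffOn ℝ ∞ f s) (hg : ContDiffOn ℝ ∞ g s) (h0 : ∀ z ∈ s, g z ≠ 0) :
    ContDiffOn ℝ ∞ (fun z => f z / g z) s := by
  simp_rw [div_eq_mul_inv]
  exact hf.mul (hg.inv h0)

theorem Good.comp_pos {V W U : Type*} [NormedAddCommGroup V] [NormedSpace ℂ V]
    [NormedAddCommGroup W] [NormedSpace ℂ W] [NormedAddCommGroup U] [NormedSpace ℂ U]
    {Ω K : Set V} (hΩ : IsOpen Ω) (hKΩ : K ⊆ Ω) {H : V × W → ℝ} (hH : Good Ω K H)
    {Y : V × U → W} (hY : ContDiff ℂ 2 Y) {z : V} (hz : z ∈ K) {u : U}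
    (hY0 : Y (z, u) ≠ 0)
    (hinj : ∀ w : U, HasDerivAt (fun τ : ℂ => Y (z, u + τ • w)) 0 0 → w = 0)
    {P : V × U → ℝ} (hP : ∀ p : V × U, p.1 ∈ Ω → P p = H (p.1, Y p)) {X : V × U} (hX : X ≠ 0) :
    0 < levi P (z, u) X := by
  have hzΩ := hKΩ hz
  have hopen : IsOpen (Ω ×ˢ (Set.univ : Set U)) := hΩ.prod isOpen_univ
  have hev : P =ᶠ[𝓝 (z, u)] fun p => H (p.1, Y p) := by
    filter_upwards [hopen.mem_nhds (show (z, u) ∈ Ω ×ˢ (Set.univ : Set U) from ⟨hzΩ, trivial⟩)]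
      with p hp
    exact hP p hp.1
  rw [levi_congr hev]
  have hΘ : ContDiff ℂ 2 (fun p : V × U => (p.1, Y p)) := contDiff_fst.prodMk hY
  have hHat : ContDiffAt ℝ 2 H ((fun p : V × U => (p.1, Y p)) (z, u)) := by
    have h1 := hH.smooth.contDiffAt ((hΩ.prod isOpen_univ).mem_nhds
      (show (z, Y (z, u)) ∈ Ω ×ˢ (Set.univ : Set W) from ⟨hzΩ, trivial⟩))
    exact h1.of_le two_le_infty
  rw [levi_comp_hol (Θ := fun p : V × U => (p.1, Y p)) hHat hΘ.contDiffAt]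
  apply hH.pos z hz _ hY0
  intro h0
  apply hX
  obtain ⟨ξ, w⟩ := X
  have hd : HasFDerivAt Y (fderiv ℂ Y (z, u)) (z, u) :=
    (hY.differentiable (by norm_num)).differentiableAt.hasFDerivAt
  have hd2 : HasFDerivAt (fun p : V × U => (p.1, Y p))
      ((ContinuousLinearMap.fst ℂ V U).prod (fderiv ℂ Y (z, u))) (z, u) :=
    hasFDerivAt_fst.prodMk hd
  rw [hd2.fderiv] at h0
  simp only [ContinuousLinearMap.prod_apply, ContinuousLinearMap.coe_fst', Prod.mk_eq_zero] at h0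
  obtain ⟨h1, h2⟩ := h0
  subst h1
  have h3 : HasDerivAt (fun τ : ℂ => (z, u + τ • w)) ((0 : V), w) 0 := by
    apply HasDerivAt.prodMk
    · exact hasDerivAt_const _ _
    · simpa using ((hasDerivAt_id (0 : ℂ)).smul_const w).const_add u
  have h4 : HasDerivAt (fun τ : ℂ => Y (z, u + τ • w)) (fderiv ℂ Y (z, u) (0, w)) 0 := by
    have hd' : HasFDerivAt Y (fderiv ℂ Y (z, u)) ((fun τ : ℂ => (z, u + τ • w)) 0) := by
      simpa using hd
    exact hd'.comp_hasDerivAt (0 : ℂ) h3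
  rw [h2] at h4
  rw [hinj w h4]
  rfl

theorem differentiable_dslope_th : Differentiable ℂ (dslope th 0) := by
  have h := (Complex.differentiableOn_dslope (s := Set.univ) (c := (0 : ℂ)) (f := th)
    Filter.univ_mem).mpr differentiable_th.differentiableOn
  exact differentiableOn_univ.mp h

theorem contDiff_del1 : ContDiff ℂ ∞ del1 := by
  have h : Differentiable ℂ del1 := by
    unfold del1
    exact differentiable_dslope_th.mul (differentiable_th.comp (by fun_prop))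
  exact h.contDiff

theorem contDiff_del2 : ContDiff ℂ ∞ del2 := by
  have h : Differentiable ℂ del2 := by
    unfold del2
    exact differentiable_th.mul (differentiable_dslope_th.comp (by fun_prop))
  exact h.contDiff

theorem dslope_th_ne_zero {s : ℂ} (hs : ‖s‖ < 1) : dslope th 0 s ≠ 0 := by
  by_cases h0 : s = 0
  · subst h0
    rw [dslope_same]
    exact deriv_th_zero
  · rw [dslope_of_ne _ h0, slope_def_field, th_zero, sub_zero, sub_zero]
    exact div_ne_zero (th_ne_zero fun h => h0 (h.zero_of_norm hs)) h0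

theorem not_isLat_of_half {s : ℂ} (hs : ‖s - 1 / 2‖ < 1 / 4) : ¬ IsLat s := by
  rintro ⟨m, n, rfl⟩
  have h := (Complex.abs_re_le_norm _).trans_lt hs
  have e : (((m : ℂ) + n * I) - 1 / 2).re = m - 1 / 2 := by simp only [one_div, sub_re, add_re, intCast_re, mul_re, I_re, mul_zero, intCast_im, I_im, mul_one, sub_self, add_zero, inv_re, re_ofNat, normSq_ofNat, div_self_mul_self']
  rw [e, abs_lt] at h
  obtain ⟨h1, h2⟩ := h
  have h3 : (0 : ℝ) < m := by linarith only [h1]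
  have h4 : (m : ℝ) < 1 := by linarith only [h2]
  have h5 : (0 : ℤ) < m := by exact_mod_cast h3
  have h6 : m < 1 := by exact_mod_cast h4
  omega

theorem IsLat.one : IsLat 1 := ⟨1, 0, by simp⟩

theorem del1_ne_zero {s : ℂ} (hs : ‖s‖ < 1 / 5) : del1 s ≠ 0 := by
  refine mul_ne_zero (dslope_th_ne_zero (hs.trans (by norm_num))) (th_ne_zero ?_)
  intro h
  have h2 : IsLat (s - 1 / 2 + 1) := h.add IsLat.one
  refine not_isLat_of_half ?_ h2
  have : s - 1 / 2 + 1 - 1 / 2 = s := by ring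
  rw [this]
  linarith only [hs]

theorem del2_ne_zero {s : ℂ} (hs : ‖s - 1 / 2‖ < 1 / 5) : del2 s ≠ 0 := by
  refine mul_ne_zero (th_ne_zero (not_isLat_of_half (by linarith only [hs])))
    (dslope_th_ne_zero (hs.trans (by norm_num)))


/-- the region of chart 1 -/
def Om1 : Set (Fin 2 → ℂ) := {z | ‖z 0‖ < 1 / 5}

/-- the region of chart 2 -/
def Om2 : Set (Fin 2 → ℂ) := {z | ‖z 0 - 1 / 2‖ < 1 / 5}

theorem isOpen_Om1 : IsOpen Om1 := isOpen_lt (by fun_prop) continuous_const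

theorem isOpen_Om2 : IsOpen Om2 := isOpen_lt (by fun_prop) continuous_const

/-- coefficients of the flag in chart 1 -/
noncomputable def R1 (ε : ℝ) : FlagCoef (Fin 2 → ℂ) where
  r01 z := (-3 * mfun 1 (z 0) (z 1) + 3 * mfun 1 (z 0) (z 1) ^ 2 * z 0 -
    mfun 1 (z 0) (z 1) ^ 3 * z 0 ^ 2) / del1 (z 0)
  r02 z := (-3 * mfun 1 (z 0) (z 1) ^ 2 * ε + mfun 1 (z 0) (z 1) ^ 3 * z 0 * ε) / del1 (z 0) ^ 2
  r03 z := mfun 1 (z 0) (z 1) ^ 3 * ε / del1 (z 0) ^ 3
  r12 z := (-2 * ε * mfun (-1) (z 0) (z 1) + ε * mfun (-1) (z 0) (z 1) ^ 2 * z 0) / del1 (z 0)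
  r13 z := -(ε * mfun (-1) (z 0) (z 1) ^ 2) / del1 (z 0) ^ 2
  r23 z := -mfun 1 (z 0) (z 1) / del1 (z 0)

/-- coefficients of the flag in chart 2 -/
noncomputable def R2 (ε : ℝ) : FlagCoef (Fin 2 → ℂ) where
  r01 z := (-3 * ε * mfun 1 (z 0 - 1 / 2) (z 1) +
    3 * ε * mfun 1 (z 0 - 1 / 2) (z 1) ^ 2 * (z 0 - 1 / 2) -
    ε * mfun 1 (z 0 - 1 / 2) (z 1) ^ 3 * (z 0 - 1 / 2) ^ 2) / del2 (z 0)
  r02 z := (-3 * ε * mfun 1 (z 0 - 1 / 2) (z 1) ^ 2 +
    ε * mfun 1 (z 0 - 1 / 2) (z 1) ^ 3 * (z 0 - 1 / 2)) / del2 (z 0) ^ 2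
  r03 z := ε ^ 2 * mfun 1 (z 0 - 1 / 2) (z 1) ^ 3 / del2 (z 0) ^ 3
  r12 z := (-2 * mfun (-1) (z 0 - 1 / 2) (z 1) +
    mfun (-1) (z 0 - 1 / 2) (z 1) ^ 2 * (z 0 - 1 / 2)) / del2 (z 0)
  r13 z := -(ε * mfun (-1) (z 0 - 1 / 2) (z 1) ^ 2) / del2 (z 0) ^ 2
  r23 z := -(ε * mfun 1 (z 0 - 1 / 2) (z 1)) / del2 (z 0)

/-- holomorphic flag coordinates in chart 1 -/
noncomputable def Y1 (ε : ℝ) (p : (Fin 2 → ℂ) × (Fin 2 → ℂ)) : ℂ × ℂ × ℂ × ℂ :=
  (p.2 0 ^ 3, del1 (p.1 0) * ((p.1 0 * p.2 0 - ε * p.2 1) * p.2 0 ^ 2),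
    del1 (p.1 0) ^ 2 * (p.2 1 * (p.1 0 * p.2 0 - ε * p.2 1) * p.2 0),
    del1 (p.1 0) ^ 3 * (p.2 1 * (p.1 0 * p.2 0 - ε * p.2 1) ^ 2))

/-- holomorphic flag coordinates in chart 2 -/
noncomputable def Y2 (ε : ℝ) (p : (Fin 2 → ℂ) × (Fin 2 → ℂ)) : ℂ × ℂ × ℂ × ℂ :=
  (p.2 0 ^ 3, del2 (p.1 0) * (p.2 1 * p.2 0 ^ 2),
    del2 (p.1 0) ^ 2 * (((p.1 0 - 1 / 2) * p.2 0 - ε * p.2 1) * p.2 1 * p.2 0),
    del2 (p.1 0) ^ 3 * (((p.1 0 - 1 / 2) * p.2 0 - ε * p.2 1) * p.2 1 ^ 2))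

theorem contDiff_Y1 (ε : ℝ) : ContDiff ℂ 2 (Y1 ε) := by
  have h1 : ContDiff ℂ 2 (fun p : (Fin 2 → ℂ) × (Fin 2 → ℂ) => del1 (p.1 0)) :=
    (contDiff_del1.of_le two_le_infty).comp (by fun_prop)
  unfold Y1
  fun_prop

theorem contDiff_Y2 (ε : ℝ) : ContDiff ℂ 2 (Y2 ε) := by
  have h1 : ContDiff ℂ 2 (fun p : (Fin 2 → ℂ) × (Fin 2 → ℂ) => del2 (p.1 0)) :=
    (contDiff_del2.of_le two_le_infty).comp (by fun_prop)
  unfold Y2
  fun_prop

theorem R1_smooth (ε : ℝ) : (R1 ε).Smooth Om1 := by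
  have hd : ContDiffOn ℝ ∞ (fun z : Fin 2 → ℂ => del1 (z 0)) Om1 :=
    ((contDiff_del1.restrict_scalars ℝ).comp (by fun_prop)).contDiffOn
  have hd0 : ∀ z ∈ Om1, del1 (z 0) ≠ 0 := fun z hz => del1_ne_zero hz
  have hm : ∀ ς : ℝ, ContDiffOn ℝ ∞ (fun z : Fin 2 → ℂ => mfun ς (z 0) (z 1)) Om1 :=
    fun ς => (contDiffOn_mfun ς).contDiffOn
  have hm1 := hm 1
  have hm2 := hm (-1)
  have hz0 : ContDiffOn ℝ ∞ (fun z : Fin 2 → ℂ => z 0) Om1 := by fun_prop
  constructor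
  · exact cdiv (by (clear * - hm; fun_prop)) hd hd0
  · exact cdiv (by (clear * - hm; fun_prop)) (hd.pow 2) (fun z hz => pow_ne_zero _ (hd0 z hz))
  · exact cdiv (by (clear * - hm; fun_prop)) (hd.pow 3) (fun z hz => pow_ne_zero _ (hd0 z hz))
  · exact cdiv (by fun_prop) hd hd0
  · exact cdiv (by fun_prop) (hd.pow 2) (fun z hz => pow_ne_zero _ (hd0 z hz))
  · exact cdiv (by (clear * - hm; fun_prop)) hd hd0

theorem R2_smooth (ε : ℝ) : (R2 ε).Smooth Om2 := by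
  have hd : ContDiffOn ℝ ∞ (fun z : Fin 2 → ℂ => del2 (z 0)) Om2 :=
    ((contDiff_del2.restrict_scalars ℝ).comp (by fun_prop)).contDiffOn
  have hd0 : ∀ z ∈ Om2, del2 (z 0) ≠ 0 := fun z hz => del2_ne_zero hz
  have hm : ∀ ς : ℝ, ContDiffOn ℝ ∞ (fun z : Fin 2 → ℂ => mfun ς (z 0 - 1 / 2) (z 1)) Om2 := by
    intro ς
    have h := (contDiffOn_mfun ς).comp
      (show ContDiff ℝ ∞ (fun z : Fin 2 → ℂ => ![z 0 - 1 / 2, z 1]) from by
        rw [contDiff_pi]
        intro k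
        fin_cases k
        · simp only [Fin.zero_eta, Matrix.cons_val_zero]
          fun_prop
        · simp only [Fin.mk_one, Matrix.cons_val_one, Matrix.cons_val_zero]
          fun_prop)
    exact h.contDiffOn
  have hm1 := hm 1
  have hm2 := hm (-1)
  have hz0 : ContDiffOn ℝ ∞ (fun z : Fin 2 → ℂ => z 0) Om2 := by fun_prop
  constructor
  · exact cdiv (by (clear * - hm; fun_prop)) hd hd0
  · exact cdiv (by fun_prop) (hd.pow 2) (fun z hz => pow_ne_zero _ (hd0 z hz))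
  · exact cdiv (by (clear * - hm; fun_prop)) (hd.pow 3) (fun z hz => pow_ne_zero _ (hd0 z hz))
  · exact cdiv (by fun_prop) hd hd0
  · exact cdiv (by fun_prop) (hd.pow 2) (fun z hz => pow_ne_zero _ (hd0 z hz))
  · exact cdiv (by (clear * - hm; fun_prop)) hd hd0

/-- scaling constants, chart 1 -/
noncomputable def cc1 (ε : ℝ) : Fin 4 → ℝ := ![(ε⁻¹) ^ 6, 1, (ε⁻¹) ^ 2, 1]

/-- scaling constants, chart 2 -/
noncomputable def cc2 (ε : ℝ) : Fin 4 → ℝ := ![1, (ε⁻¹) ^ 4, 1, 1]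

theorem cc1_pos {ε : ℝ} (hε : 0 < ε) (k : Fin 4) : 0 < cc1 ε k := by
  fin_cases k <;> (simp [cc1]; try positivity)

theorem cc2_pos {ε : ℝ} (hε : 0 < ε) (k : Fin 4) : 0 < cc2 ε k := by
  fin_cases k <;> (simp [cc2]; try positivity)

theorem normsq_of_eq {ε : ℝ} (hε : 0 < ε) {a b : ℂ} (n : ℕ) (h : a = (ε : ℂ)⁻¹ ^ n * b) :
    ‖a‖ ^ 2 = (ε⁻¹) ^ (2 * n) * ‖b‖ ^ 2 := by
  rw [h, norm_mul, norm_pow, norm_inv, Complex.norm_real, Real.norm_eq_abs, abs_of_pos hε,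
    mul_pow, ← pow_mul, mul_comm n 2]

theorem PP1_eq {ε : ℝ} (hε : 0 < ε) (B : Fin 4 → ℝ) (p : (Fin 2 → ℂ) × (Fin 2 → ℂ))
    (hp : p.1 ∈ Om1) :
    PP1 ε B p = Hfl om (fun k => B k * cc1 ε k) (R1 ε) (p.1, Y1 ε p) := by
  have hD := del1_ne_zero hp
  have hε' : (ε : ℂ) ≠ 0 := by exact_mod_cast hε.ne'
  have e0 : f1 ε p.1 p.2 0 = (ε : ℂ)⁻¹ ^ 3 * ((Y1 ε p).1 +
      lin3 ((R1 ε).r01 p.1) ((R1 ε).r02 p.1) ((R1 ε).r03 p.1) (Y1 ε p).2) := by
    simp only [f1, Y1, R1, lin3_apply, Matrix.cons_val_zero]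
    generalize mfun 1 (p.1 0) (p.1 1) = m
    generalize del1 (p.1 0) = D at *
    field_simp
    ring
  have e1 : f1 ε p.1 p.2 1 = (ε : ℂ)⁻¹ ^ 0 * ((Y1 ε p).2.1 +
      lin2 ((R1 ε).r12 p.1) ((R1 ε).r13 p.1) (Y1 ε p).2.2) := by
    simp only [f1, Y1, R1, lin2_apply, Matrix.cons_val_one, Matrix.cons_val_zero]
    generalize mfun (-1) (p.1 0) (p.1 1) = m
    generalize del1 (p.1 0) = D at *
    field_simp
    ring
  have e2 : f1 ε p.1 p.2 2 = (ε : ℂ)⁻¹ ^ 1 * ((Y1 ε p).2.2.1 +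
      lin1 ((R1 ε).r23 p.1) (Y1 ε p).2.2.2) := by
    simp only [f1, Y1, R1, lin1_apply, Matrix.cons_val]
    generalize mfun 1 (p.1 0) (p.1 1) = m
    generalize del1 (p.1 0) = D at *
    field_simp
    ring
  have e3 : f1 ε p.1 p.2 3 = (ε : ℂ)⁻¹ ^ 0 * (Y1 ε p).2.2.2 := by
    simp only [f1, Y1, Matrix.cons_val]
    ring
  unfold PP1 Pgen Hfl
  rw [Fin.sum_univ_four, normsq_of_eq hε 3 e0, normsq_of_eq hε 0 e1, normsq_of_eq hε 1 e2,
    normsq_of_eq hε 0 e3]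
  simp only [cc1, Matrix.cons_val]
  ring

theorem PP2_eq {ε : ℝ} (hε : 0 < ε) (B : Fin 4 → ℝ) (p : (Fin 2 → ℂ) × (Fin 2 → ℂ))
    (hp : p.1 ∈ Om2) :
    PP2 ε B p = Hfl om (fun k => B k * cc2 ε k) (R2 ε) (p.1, Y2 ε p) := by
  have hD := del2_ne_zero hp
  have hε' : (ε : ℂ) ≠ 0 := by exact_mod_cast hε.ne'
  have e0 : f2 ε p.1 p.2 0 = (ε : ℂ)⁻¹ ^ 0 * ((Y2 ε p).1 +
      lin3 ((R2 ε).r01 p.1) ((R2 ε).r02 p.1) ((R2 ε).r03 p.1) (Y2 ε p).2) := by
    simp only [f2, Y2, R2, lin3_apply, Matrix.cons_val_zero]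
    generalize mfun 1 (p.1 0 - 1 / 2) (p.1 1) = m
    generalize del2 (p.1 0) = D at *
    field_simp
    ring
  have e1 : f2 ε p.1 p.2 1 = (ε : ℂ)⁻¹ ^ 2 * ((Y2 ε p).2.1 +
      lin2 ((R2 ε).r12 p.1) ((R2 ε).r13 p.1) (Y2 ε p).2.2) := by
    simp only [f2, Y2, R2, lin2_apply, Matrix.cons_val_one, Matrix.cons_val_zero]
    generalize mfun (-1) (p.1 0 - 1 / 2) (p.1 1) = m
    generalize del2 (p.1 0) = D at *
    field_simp
    ring
  have e2 : f2 ε p.1 p.2 2 = (ε : ℂ)⁻¹ ^ 0 * ((Y2 ε p).2.2.1 +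
      lin1 ((R2 ε).r23 p.1) (Y2 ε p).2.2.2) := by
    simp only [f2, Y2, R2, lin1_apply, Matrix.cons_val]
    generalize mfun 1 (p.1 0 - 1 / 2) (p.1 1) = m
    generalize del2 (p.1 0) = D at *
    field_simp
    ring
  have e3 : f2 ε p.1 p.2 3 = (ε : ℂ)⁻¹ ^ 0 * (Y2 ε p).2.2.2 := by
    simp only [f2, Y2, Matrix.cons_val]
    ring
  unfold PP2 Pgen Hfl
  rw [Fin.sum_univ_four, normsq_of_eq hε 0 e0, normsq_of_eq hε 2 e1, normsq_of_eq hε 0 e2,
    normsq_of_eq hε 0 e3]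
  simp only [cc2, Matrix.cons_val]
  ring

theorem Y1_ne_zero {ε : ℝ} (hε : 0 < ε) {z u : Fin 2 → ℂ} (hz : z ∈ Om1) (hu : u ≠ 0) :
    Y1 ε (z, u) ≠ 0 := by
  have hD := del1_ne_zero hz
  have hε' : (ε : ℂ) ≠ 0 := by exact_mod_cast hε.ne'
  intro h
  have h0 : u 0 ^ 3 = 0 := congrArg (fun y : ℂ × ℂ × ℂ × ℂ => y.1) h
  have h3 : del1 (z 0) ^ 3 * (u 1 * (z 0 * u 0 - ε * u 1) ^ 2) = 0 :=
    congrArg (fun y : ℂ × ℂ × ℂ × ℂ => y.2.2.2) h
  have ha : u 0 = 0 := by simpa using h0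
  rw [ha] at h3
  have hb : u 1 = 0 := by
    simp only [mul_zero, zero_sub] at h3
    simpa only [Fin.isValue, even_two, Even.neg_pow, mul_eq_zero, ne_eq, OfNat.ofNat_ne_zero, not_false_eq_true,     pow_eq_zero_iff, hD, hε', false_or, or_self] using h3
  apply hu
  funext k
  fin_cases k
  · exact ha
  · exact hb

theorem Y2_ne_zero {ε : ℝ} (hε : 0 < ε) {z u : Fin 2 → ℂ} (hz : z ∈ Om2) (hu : u ≠ 0) :
    Y2 ε (z, u) ≠ 0 := by
  have hD := del2_ne_zero hz
  have hε' : (ε : ℂ) ≠ 0 := by exact_mod_cast hε.ne'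
  intro h
  have h0 : u 0 ^ 3 = 0 := congrArg (fun y : ℂ × ℂ × ℂ × ℂ => y.1) h
  have h3 : del2 (z 0) ^ 3 * (((z 0 - 1 / 2) * u 0 - ε * u 1) * u 1 ^ 2) = 0 :=
    congrArg (fun y : ℂ × ℂ × ℂ × ℂ => y.2.2.2) h
  have ha : u 0 = 0 := by simpa using h0
  rw [ha] at h3
  have hb : u 1 = 0 := by
    simp only [mul_zero, zero_sub] at h3
    simpa only [Fin.isValue, neg_mul, mul_neg, neg_eq_zero, mul_eq_zero, ne_eq, OfNat.ofNat_ne_zero,     not_false_eq_true, pow_eq_zero_iff, hD, hε', false_or, or_self] using h3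
  apply hu
  funext k
  fin_cases k
  · exact ha
  · exact hb

theorem hasDerivAt_coord (u w : Fin 2 → ℂ) (k : Fin 2) :
    HasDerivAt (fun τ : ℂ => (u + τ • w) k) (w k) 0 := by
  have h := ((hasDerivAt_id (0 : ℂ)).mul_const (w k)).const_add (u k)
  simpa using h

theorem hda_fst {E F : Type*} [NormedAddCommGroup E] [NormedSpace ℂ E] [NormedAddCommGroup F]
    [NormedSpace ℂ F] {f : ℂ → E × F} (h : HasDerivAt f 0 0) :
    HasDerivAt (fun τ => (f τ).1) 0 0 := by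
  have := (ContinuousLinearMap.fst ℂ E F).hasFDerivAt.comp_hasDerivAt (0 : ℂ) h
  rw [map_zero] at this
  exact this

theorem hda_snd {E F : Type*} [NormedAddCommGroup E] [NormedSpace ℂ E] [NormedAddCommGroup F]
    [NormedSpace ℂ F] {f : ℂ → E × F} (h : HasDerivAt f 0 0) :
    HasDerivAt (fun τ => (f τ).2) 0 0 := by
  have := (ContinuousLinearMap.snd ℂ E F).hasFDerivAt.comp_hasDerivAt (0 : ℂ) h
  rw [map_zero] at this
  exact this

theorem Y1_inj {ε : ℝ} (hε : 0 < ε) {z u : Fin 2 → ℂ} (hz : z ∈ Om1) (hu : u ≠ 0)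
    (w : Fin 2 → ℂ) (h : HasDerivAt (fun τ : ℂ => Y1 ε (z, u + τ • w)) 0 0) : w = 0 := by
  have hD := del1_ne_zero hz
  have hε' : (ε : ℂ) ≠ 0 := by exact_mod_cast hε.ne'
  have a0 := hasDerivAt_coord u w 0
  have a1 := hasDerivAt_coord u w 1
  have al := (a0.const_mul (z 0)).sub (a1.const_mul (ε : ℂ))
  have d0 := a0.pow 3
  have d1 := (al.mul (a0.pow 2)).const_mul (del1 (z 0))
  have d2 := ((a1.mul al).mul a0).const_mul (del1 (z 0) ^ 2)
  have d3 := (a1.mul (al.pow 2)).const_mul (del1 (z 0) ^ 3)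
  have e0 := d0.unique (hda_fst h)
  have e1 := d1.unique (hda_fst (hda_snd h))
  have e2 := d2.unique (hda_fst (hda_snd (hda_snd h)))
  have e3 := d3.unique (hda_snd (hda_snd (hda_snd h)))
  simp only [zero_smul, add_zero, Pi.mul_apply, Pi.pow_apply, Pi.sub_apply] at e0 e1 e2 e3
  generalize del1 (z 0) = D at *
  have hw0 : w 0 = 0 := by
    by_cases ha : u 0 = 0
    · have hb : u 1 ≠ 0 := by
        intro hb
        apply hu
        funext k
        fin_cases k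
        · exact ha
        · exact hb
      rw [ha] at e2
      have : D ^ 2 * ε * u 1 ^ 2 * w 0 = 0 := by linear_combination -e2
      simpa only [Fin.isValue, mul_eq_zero, ne_eq, OfNat.ofNat_ne_zero, not_false_eq_true, pow_eq_zero_iff, hD, hε',     or_self, hb, false_or] using this
    · have h3 : (3 : ℂ) ≠ 0 := by norm_num
      simpa only [Fin.isValue, Nat.cast_ofNat, Nat.add_one_sub_one, mul_eq_zero, h3, ne_eq, OfNat.ofNat_ne_zero,     not_false_eq_true, pow_eq_zero_iff, ha, or_self, false_or] using e0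
  have hw1 : w 1 = 0 := by
    by_cases ha : u 0 = 0
    · have hb : u 1 ≠ 0 := by
        intro hb
        apply hu
        funext k
        fin_cases k
        · exact ha
        · exact hb
      rw [ha, hw0] at e3
      have : D ^ 3 * ε ^ 2 * u 1 ^ 2 * w 1 = 0 := by linear_combination e3 / 3
      simpa [hD, hε', hb] using this
    · rw [hw0] at e1
      have : D * ε * u 0 ^ 2 * w 1 = 0 := by linear_combination -e1
      simpa [hD, hε', ha] using this
  funext k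
  fin_cases k
  · exact hw0
  · exact hw1

theorem Y2_inj {ε : ℝ} (hε : 0 < ε) {z u : Fin 2 → ℂ} (hz : z ∈ Om2) (hu : u ≠ 0)
    (w : Fin 2 → ℂ) (h : HasDerivAt (fun τ : ℂ => Y2 ε (z, u + τ • w)) 0 0) : w = 0 := by
  have hD := del2_ne_zero hz
  have hε' : (ε : ℂ) ≠ 0 := by exact_mod_cast hε.ne'
  have a0 := hasDerivAt_coord u w 0
  have a1 := hasDerivAt_coord u w 1
  have al := (a0.const_mul (z 0 - 1 / 2)).sub (a1.const_mul (ε : ℂ))
  have d0 := a0.pow 3
  have d1 := (a1.mul (a0.pow 2)).const_mul (del2 (z 0))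
  have d2 := ((al.mul a1).mul a0).const_mul (del2 (z 0) ^ 2)
  have d3 := (al.mul (a1.pow 2)).const_mul (del2 (z 0) ^ 3)
  have e0 := d0.unique (hda_fst h)
  have e1 := d1.unique (hda_fst (hda_snd h))
  have e2 := d2.unique (hda_fst (hda_snd (hda_snd h)))
  have e3 := d3.unique (hda_snd (hda_snd (hda_snd h)))
  simp only [zero_smul, add_zero, Pi.mul_apply, Pi.pow_apply, Pi.sub_apply] at e0 e1 e2 e3
  generalize del2 (z 0) = D at *
  have hw0 : w 0 = 0 := by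
    by_cases ha : u 0 = 0
    · have hb : u 1 ≠ 0 := by
        intro hb
        apply hu
        funext k
        fin_cases k
        · exact ha
        · exact hb
      rw [ha] at e2
      have : D ^ 2 * ε * u 1 ^ 2 * w 0 = 0 := by linear_combination -e2
      simpa [hD, hε', hb] using this
    · have h3 : (3 : ℂ) ≠ 0 := by norm_num
      simpa only [Fin.isValue, Nat.cast_ofNat, Nat.add_one_sub_one, mul_eq_zero, h3, ne_eq, OfNat.ofNat_ne_zero,     not_false_eq_true, pow_eq_zero_iff, ha, or_self, false_or] using e0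
  have hw1 : w 1 = 0 := by
    by_cases ha : u 0 = 0
    · have hb : u 1 ≠ 0 := by
        intro hb
        apply hu
        funext k
        fin_cases k
        · exact ha
        · exact hb
      rw [ha, hw0] at e3
      have : D ^ 3 * ε * u 1 ^ 2 * w 1 = 0 := by linear_combination -e3 / 3
      simpa only [Fin.isValue, mul_eq_zero, ne_eq, OfNat.ofNat_ne_zero, not_false_eq_true, pow_eq_zero_iff, hD, hε',     or_self, hb, false_or] using this
    · rw [hw0] at e1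
      have : D * u 0 ^ 2 * w 1 = 0 := by linear_combination e1
      simpa [hD, ha] using this
  funext k
  fin_cases k
  · exact hw0
  · exact hw1

def Kset1 : Set (Fin 2 → ℂ) := {z | ‖z 0‖ ≤ 1 / 10 ∧ ‖z 1‖ ≤ 2}
def Kset2 : Set (Fin 2 → ℂ) := {z | ‖z 0 - 1 / 2‖ ≤ 1 / 10 ∧ ‖z 1‖ ≤ 2}

theorem isCompact_Kset1 : IsCompact Kset1 := by
  apply Metric.isCompact_of_isClosed_isBounded
  · have h1 : IsClosed {z : Fin 2 → ℂ | ‖z 0‖ ≤ 1 / 10} :=
      isClosed_le (by fun_prop) continuous_const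
    have h2 : IsClosed {z : Fin 2 → ℂ | ‖z 1‖ ≤ 2} := isClosed_le (by fun_prop) continuous_const
    exact h1.inter h2
  · rw [isBounded_iff_forall_norm_le]
    refine ⟨2, fun z hz => ?_⟩
    rw [pi_norm_le_iff_of_nonneg (by norm_num)]
    intro k
    fin_cases k
    · exact hz.1.trans (by norm_num)
    · exact hz.2

theorem isCompact_Kset2 : IsCompact Kset2 := by
  apply Metric.isCompact_of_isClosed_isBounded
  · have h1 : IsClosed {z : Fin 2 → ℂ | ‖z 0 - 1 / 2‖ ≤ 1 / 10} :=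
      isClosed_le (by fun_prop) continuous_const
    have h2 : IsClosed {z : Fin 2 → ℂ | ‖z 1‖ ≤ 2} := isClosed_le (by fun_prop) continuous_const
    exact h1.inter h2
  · rw [isBounded_iff_forall_norm_le]
    refine ⟨2, fun z hz => ?_⟩
    rw [pi_norm_le_iff_of_nonneg (by norm_num)]
    intro k
    fin_cases k
    · have h1 := hz.1
      have h2 : ‖z 0‖ ≤ ‖z 0 - 1 / 2‖ + ‖(1 / 2 : ℂ)‖ := by
        simpa only [Fin.isValue, one_div, norm_inv, norm_ofNat, sub_add_cancel] using     norm_add_le (z 0 - 1 / 2) (1 / 2)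
      have h3 : ‖(1 / 2 : ℂ)‖ = 1 / 2 := by norm_num
      simp only [Fin.zero_eta]
      linarith only [h1, h2, h3]
    · exact hz.2

theorem Kset1_subset : Kset1 ⊆ Om1 := fun z hz => lt_of_le_of_lt hz.1 (by norm_num)

theorem Kset2_subset : Kset2 ⊆ Om2 := fun z hz => lt_of_le_of_lt hz.1 (by norm_num)

/-- the choice of the constants -/
theorem exists_B {ε : ℝ} (hε : 0 < ε) : ∃ B : Fin 4 → ℝ, (∀ k, 0 < B k) ∧
    (∀ z ∈ Kset1, ∀ u : Fin 2 → ℂ, u ≠ 0 → ∀ X, X ≠ 0 → 0 < levi (PP1 ε B) (z, u) X) ∧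
    (∀ z ∈ Kset2, ∀ u : Fin 2 → ℂ, u ≠ 0 → ∀ X, X ≠ 0 → 0 < levi (PP2 ε B) (z, u) X) := by
  obtain ⟨B, hB, g1, g2⟩ := flag_two isOpen_Om1 isCompact_Kset1 Kset1_subset isOpen_Om2
    isCompact_Kset2 Kset2_subset contDiff_om om_levi_pos (R1_smooth ε) (R2_smooth ε)
    (cc1_pos hε) (cc2_pos hε)
  refine ⟨B, hB, ?_, ?_⟩
  · intro z hz u hu X hX
    exact g1.comp_pos isOpen_Om1 Kset1_subset (contDiff_Y1 ε) hz
      (Y1_ne_zero hε (Kset1_subset hz) hu) (Y1_inj hε (Kset1_subset hz) hu)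
      (fun p hp => PP1_eq hε B p hp) hX
  · intro z hz u hu X hX
    exact g2.comp_pos isOpen_Om2 Kset2_subset (contDiff_Y2 ε) hz
      (Y2_ne_zero hε (Kset2_subset hz) hu) (Y2_inj hε (Kset2_subset hz) hu)
      (fun p hp => PP2_eq hε B p hp) hX

end Vale.Agent.P296
end
end

section

section

/-!
# P296: the bundle is ample
-/

namespace Vale.Agent.P296

open Complex Matrix Theta
open scoped ContDiff ComplexOrder Topology

theorem isClosed_Lset : IsClosed Lset := by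
  have h : IsClosed (Set.range ((↑) : ℤ → ℝ)) := Int.isClosedEmbedding_coe_real.isClosed_range
  have e : Lset = (Complex.re ⁻¹' Set.range ((↑) : ℤ → ℝ)) ∩
      (Complex.im ⁻¹' Set.range ((↑) : ℤ → ℝ)) := by
    ext s
    constructor
    · rintro ⟨m, n, rfl⟩
      exact ⟨⟨m, by simp⟩, ⟨n, by simp⟩⟩
    · rintro ⟨⟨m, hm⟩, ⟨n, hn⟩⟩
      refine ⟨m, n, ?_⟩
      apply Complex.ext
      · simpa using hm.symm
      · simpa using hn.symm
  rw [e]
  exact (h.preimage Complex.continuous_re).inter (h.preimage Complex.continuous_im)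

theorem exists_lat_of_infDist {s : ℂ} (h : ¬ 1 / 10 < Metric.infDist s Lset) :
    ∃ l : ℂ, IsLat l ∧ ‖s - l‖ ≤ 1 / 10 := by
  obtain ⟨l, hl, hd⟩ := isClosed_Lset.exists_infDist_eq_dist ⟨0, 0, 0, by simp⟩ s
  refine ⟨l, hl, ?_⟩
  rw [← dist_eq_norm, ← hd]
  exact not_lt.mp h

theorem neg_pair_mem {l m : ℂ} (hl : IsLat l) (hm : IsLat m) :
    (![-l, -m] : Fin 2 → ℂ) ∈ gaussLattice 2 := by
  intro k
  fin_cases k
  · exact hl.neg
  · exact hm.neg

theorem bundle_isAmple {ε : ℝ} (hε : 0 < ε) : (bundle ε hε).IsAmple := by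
  obtain ⟨B, hB, h1, h2⟩ := exists_B hε
  refine isAmple_of_P (bundle ε hε) 3 (by norm_num) (PPi ε B) (fun i => PPi_smooth hε B i)
    (fun i z hz u hu => PPi_pos hε hB i z hz u hu) (fun i z _ u t => PPi_homog ε B i z u t)
    (fun i j l hl z hz hzl u => PPi_compat hε B i j hl hz hzl u) ?_
  intro z
  by_cases hz : z ∈ Uset 0
  · refine ⟨(0 : Fin 3), 0, zero_mem _, ?_, ?_⟩
    · rw [add_zero]; exact hz
    · rw [add_zero]
      intro u hu X hX
      exact chart0_pos hB z hz u hu X hX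
  · have hz' : ¬ (1 / 10 < Metric.infDist (z 0) Lset ∧
        1 / 10 < Metric.infDist (z 0 - 1 / 2) Lset) := hz
    obtain ⟨m, hm, hzm⟩ := exists_lat (z 1)
    by_cases h0 : 1 / 10 < Metric.infDist (z 0) Lset
    · have h3 : ¬ 1 / 10 < Metric.infDist (z 0 - 1 / 2) Lset := fun h => hz' ⟨h0, h⟩
      obtain ⟨l, hl, hd⟩ := exists_lat_of_infDist h3
      have hK : z + ![-l, -m] ∈ Kset2 := by
        constructor
        · have e : (z + ![-l, -m]) 0 - 1 / 2 = z 0 - 1 / 2 - l := by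
            simp only [Pi.add_apply, Matrix.cons_val_zero]; ring
          rw [e]; exact hd
        · have e : (z + ![-l, -m]) 1 = z 1 - m := by
            simp only [Pi.add_apply, Matrix.cons_val_one, Matrix.cons_val_zero]; ring
          rw [e]; exact hzm.trans (by norm_num)
      refine ⟨(2 : Fin 3), ![-l, -m], neg_pair_mem hl hm, Kset2_subset hK, ?_⟩
      intro u hu X hX
      exact h2 _ hK u hu X hX
    · obtain ⟨l, hl, hd⟩ := exists_lat_of_infDist h0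
      have hK : z + ![-l, -m] ∈ Kset1 := by
        constructor
        · have e : (z + ![-l, -m]) 0 = z 0 - l := by
            simp only [Pi.add_apply, Matrix.cons_val_zero]; ring
          rw [e]; exact hd
        · have e : (z + ![-l, -m]) 1 = z 1 - m := by
            simp only [Pi.add_apply, Matrix.cons_val_one, Matrix.cons_val_zero]; ring
          rw [e]; exact hzm.trans (by norm_num)
      refine ⟨(1 : Fin 3), ![-l, -m], neg_pair_mem hl hm, Kset1_subset hK, ?_⟩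
      intro u hu X hX
      exact h1 _ hK u hu X hX

end Vale.Agent.P296
end
end

section

section

/-!
# P296: calculus of the Levi form
-/

namespace Vale.Agent.P296

namespace LC

open Complex Filter Topology
open scoped ContDiff

section Gen

variable {V F : Type*} [NormedAddCommGroup V] [NormedSpace ℂ V]
  [NormedAddCommGroup F] [NormedSpace ℝ F]

/-- second directional derivative -/
noncomputable def d2 (f : V → F) (z w : V) : F := iteratedFDeriv ℝ 2 f z ![w, w]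

/-- the `(0,1)`-derivative -/
noncomputable def dAnti (f : V → ℂ) (z ξ : V) : ℂ :=
  (fderiv ℝ f z ξ + I * fderiv ℝ f z (I • ξ)) / 2

theorem levi_eq (f : V → F) (z ξ : V) :
    levi f z ξ = (4⁻¹ : ℝ) • (d2 f z ξ + d2 f z (I • ξ)) := rfl

theorem deriv_line {f : V → F} {z w : V} {x : ℝ} (hf : DifferentiableAt ℝ f (z + x • w)) :
    deriv (fun x : ℝ => f (z + x • w)) x = fderiv ℝ f (z + x • w) w := by
  have h1 : HasDerivAt (fun x : ℝ => z + x • w) w x := by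
    simpa using ((hasDerivAt_id x).smul_const w).const_add z
  exact (hf.hasFDerivAt.comp_hasDerivAt x h1).deriv

theorem d2_eq_line {f : V → F} {z : V} (w : V) (hf : ContDiffAt ℝ 2 f z) :
    d2 f z w = deriv (deriv (fun x : ℝ => f (z + x • w))) 0 := by
  unfold d2
  rw [iteratedFDeriv_two_apply]
  simp only [Matrix.cons_val_zero, Matrix.cons_val_one]
  have hcont : Continuous fun x : ℝ => z + x • w := by fun_prop
  have h0 : ContDiffAt ℝ 2 f (z + (0 : ℝ) • w) := by simpa using hf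
  have hev : ∀ᶠ x : ℝ in 𝓝 0, deriv (fun x : ℝ => f (z + x • w)) x = fderiv ℝ f (z + x • w) w := by
    have : ∀ᶠ y in 𝓝 (z + (0 : ℝ) • w), DifferentiableAt ℝ f y := by
      have h1 := h0.eventually (by norm_num)
      filter_upwards [h1] with y hy
      exact hy.differentiableAt (by norm_num)
    filter_upwards [hcont.continuousAt.eventually this] with x hx
    exact deriv_line hx
  rw [Filter.EventuallyEq.deriv_eq hev]
  have h2 : DifferentiableAt ℝ (fderiv ℝ f) (z + (0 : ℝ) • w) :=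
    (h0.fderiv_right (m := 1) (by norm_num)).differentiableAt (by norm_num)
  have h3 := deriv_line (f := fun y => fderiv ℝ f y w) (z := z) (w := w) (x := 0)
    (h2.clm_apply (differentiableAt_const w))
  rw [h3]
  have h4 : fderiv ℝ (fun y => fderiv ℝ f y w) (z + (0 : ℝ) • w) w =
      fderiv ℝ (fderiv ℝ f) (z + (0 : ℝ) • w) w w := by
    have h5 := (h2.hasFDerivAt.clm_apply (hasFDerivAt_const w (z + (0 : ℝ) • w)))
    rw [h5.fderiv]
    simp
  rw [h4]
  simp only [zero_smul, add_zero]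

theorem contDiffAt_line {f : V → F} {z : V} (w : V) (hf : ContDiffAt ℝ 2 f z) :
    ContDiffAt ℝ 2 (fun x : ℝ => f (z + x • w)) 0 := by
  have h1 : ContDiffAt ℝ 2 (fun x : ℝ => z + x • w) 0 := by fun_prop
  exact ContDiffAt.comp (g := f) (0 : ℝ) (by simpa using hf) h1

theorem deriv_line_zero {f : V → F} {z : V} (w : V) (hf : ContDiffAt ℝ 2 f z) :
    deriv (fun x : ℝ => f (z + x • w)) 0 = fderiv ℝ f z w := by
  have h := deriv_line (f := f) (z := z) (w := w) (x := 0)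
    (by simpa using hf.differentiableAt (by norm_num))
  simpa only [zero_smul, add_zero] using h

theorem deriv2_mul {f g : ℝ → ℂ} (hf : ContDiffAt ℝ 2 f 0) (hg : ContDiffAt ℝ 2 g 0) :
    deriv (deriv (fun x => f x * g x)) 0 =
      deriv (deriv f) 0 * g 0 + 2 * (deriv f 0 * deriv g 0) + f 0 * deriv (deriv g) 0 := by
  have hfe : ∀ᶠ x in 𝓝 (0 : ℝ), DifferentiableAt ℝ f x := by
    filter_upwards [hf.eventually (by norm_num)] with y hy
    exact hy.differentiableAt (by norm_num)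
  have hge : ∀ᶠ x in 𝓝 (0 : ℝ), DifferentiableAt ℝ g x := by
    filter_upwards [hg.eventually (by norm_num)] with y hy
    exact hy.differentiableAt (by norm_num)
  have hev : ∀ᶠ x in 𝓝 (0 : ℝ), deriv (fun x => f x * g x) x = deriv f x * g x + f x * deriv g x := by
    filter_upwards [hfe, hge] with x h1 h2
    exact deriv_fun_mul h1 h2
  rw [Filter.EventuallyEq.deriv_eq hev]
  have hf' : DifferentiableAt ℝ (deriv f) 0 :=
    (hf.derivWithin (m := 1) (by norm_num)).differentiableAt (by norm_num)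
  have hg' : DifferentiableAt ℝ (deriv g) 0 :=
    (hg.derivWithin (m := 1) (by norm_num)).differentiableAt (by norm_num)
  have hf0 := hfe.self_of_nhds
  have hg0 := hge.self_of_nhds
  have h := (hf'.hasDerivAt.mul hg0.hasDerivAt).add (hf0.hasDerivAt.mul hg'.hasDerivAt)
  have h2 : deriv (fun x => deriv f x * g x + f x * deriv g x) 0 = _ := h.deriv
  rw [h2]
  ring


theorem d2_mul {f g : V → ℂ} {z : V} (w : V) (hf : ContDiffAt ℝ 2 f z) (hg : ContDiffAt ℝ 2 g z) :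
    d2 (fun y => f y * g y) z w =
      d2 f z w * g z + 2 * (fderiv ℝ f z w * fderiv ℝ g z w) + f z * d2 g z w := by
  rw [d2_eq_line w (hf.mul hg), d2_eq_line w hf, d2_eq_line w hg,
    deriv2_mul (contDiffAt_line w hf) (contDiffAt_line w hg), deriv_line_zero w hf,
    deriv_line_zero w hg]
  simp only [zero_smul, add_zero]

theorem levi_mul {f g : V → ℂ} {z : V} (ξ : V) (hf : ContDiffAt ℝ 2 f z)
    (hg : ContDiffAt ℝ 2 g z) :
    levi (fun y => f y * g y) z ξ = levi f z ξ * g z + f z * levi g z ξ +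
      (dHol f z ξ * dAnti g z ξ + dAnti f z ξ * dHol g z ξ) := by
  rw [levi_eq, levi_eq, levi_eq, d2_mul ξ hf hg, d2_mul (I • ξ) hf hg]
  unfold dHol dAnti
  simp only [Complex.real_smul]
  push_cast
  linear_combination ((fderiv ℝ f z (I • ξ) * fderiv ℝ g z (I • ξ)) / 2) * I_sq

theorem dHol_mul {f g : V → ℂ} {z : V} (ξ : V) (hf : DifferentiableAt ℝ f z)
    (hg : DifferentiableAt ℝ g z) :
    dHol (fun y => f y * g y) z ξ = dHol f z ξ * g z + f z * dHol g z ξ := by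
  unfold dHol
  have h := (hf.hasFDerivAt.mul hg.hasFDerivAt).fderiv
  have h' : fderiv ℝ (fun y => f y * g y) z = f z • fderiv ℝ g z + g z • fderiv ℝ f z := h
  rw [h']
  simp only [_root_.add_apply, _root_.smul_apply, smul_eq_mul]
  ring

theorem d2_add {f g : V → F} {z : V} (w : V) (hf : ContDiffAt ℝ 2 f z) (hg : ContDiffAt ℝ 2 g z) :
    d2 (fun y => f y + g y) z w = d2 f z w + d2 g z w := by
  unfold d2
  have : iteratedFDeriv ℝ 2 (fun y => f y + g y) z = iteratedFDeriv ℝ 2 f z + iteratedFDeriv ℝ 2 g z :=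
    iteratedFDeriv_add_apply hf hg
  rw [this]; rfl

theorem levi_add {f g : V → F} {z : V} (ξ : V) (hf : ContDiffAt ℝ 2 f z)
    (hg : ContDiffAt ℝ 2 g z) :
    levi (fun y => f y + g y) z ξ = levi f z ξ + levi g z ξ := by
  rw [levi_eq, levi_eq, levi_eq, d2_add ξ hf hg, d2_add (I • ξ) hf hg, ← smul_add]
  congr 1
  abel

theorem levi_clm {G : Type*} [NormedAddCommGroup G] [NormedSpace ℝ G] (L : F →L[ℝ] G) {f : V → F}
    {z : V} (ξ : V) (hf : ContDiffAt ℝ 2 f z) :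
    levi (fun y => L (f y)) z ξ = L (levi f z ξ) := by
  have h : iteratedFDeriv ℝ 2 (fun y => L (f y)) z =
      L.compContinuousMultilinearMap (iteratedFDeriv ℝ 2 f z) :=
    L.iteratedFDeriv_comp_left hf (by norm_num)
  unfold levi
  rw [h]
  simp

theorem levi_const (c : F) (z ξ : V) : levi (fun _ : V => c) z ξ = 0 := by
  unfold levi
  rw [iteratedFDeriv_const_of_ne (by norm_num)]
  simp

/-- second derivative test -/
theorem levi_nonneg_of_isLocalMin {f : V → ℝ} {z : V} (ξ : V) (hf : ContDiffAt ℝ 2 f z)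
    (hmin : IsLocalMin f z) : 0 ≤ levi f z ξ := by
  have key : ∀ w : V, 0 ≤ d2 f z w := by
    intro w
    rw [d2_eq_line w hf]
    set g : ℝ → ℝ := fun x => f (z + x • w) with hg
    have hcont : Continuous fun x : ℝ => z + x • w := by fun_prop
    have hgmin : IsLocalMin g 0 := by
      have : Tendsto (fun x : ℝ => z + x • w) (𝓝 0) (𝓝 z) := by
        simpa only [zero_smul, add_zero] using hcont.tendsto 0
      have h2 := this.eventually hmin
      filter_upwards [h2] with x hx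
      simpa only [hg, zero_smul, add_zero] using hx
    by_contra hneg
    push Not at hneg
    have hmax := isLocalMax_of_deriv_deriv_neg hneg hgmin.deriv_eq_zero
      (contDiffAt_line w hf).continuousAt
    have hconst : g =ᶠ[𝓝 0] fun _ => g 0 := by
      filter_upwards [hgmin, hmax] with x h1 h2
      exact le_antisymm h2 h1
    have h1 : deriv g =ᶠ[𝓝 0] fun _ => 0 := by
      filter_upwards [hconst.deriv] with x hx
      rw [hx]; simp
    have h2 := h1.deriv_eq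
    simp at h2
    linarith only [hneg, h2]
  rw [levi_eq]
  have h1 := key ξ
  have h2 := key (I • ξ)
  simp only [smul_eq_mul]
  (clear * - h1 h2; positivity)


theorem contDiffAt_cline {f : V → F} {z : V} (ξ : V) (hf : ContDiffAt ℝ 2 f z) :
    ContDiffAt ℝ 2 (fun ζ : ℂ => f (z + ζ • ξ)) 0 := by
  have h1 : ContDiffAt ℝ 2 (fun ζ : ℂ => z + ζ • ξ) 0 := by fun_prop
  exact ContDiffAt.comp (g := f) (0 : ℂ) (by simpa using hf) h1

theorem fderiv_cline {f : V → F} {z : V} (ξ : V) (hf : DifferentiableAt ℝ f z) (c : ℂ) :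
    fderiv ℝ (fun ζ : ℂ => f (z + ζ • ξ)) 0 c = fderiv ℝ f z (c • ξ) := by
  have h1 : HasFDerivAt (fun ζ : ℂ => z + ζ • ξ)
      (((ContinuousLinearMap.id ℂ ℂ).smulRight ξ).restrictScalars ℝ) 0 := by
    have h2 : HasFDerivAt (fun ζ : ℂ => z + ζ • ξ) ((ContinuousLinearMap.id ℂ ℂ).smulRight ξ) 0 :=
      (((ContinuousLinearMap.id ℂ ℂ).smulRight ξ).hasFDerivAt (x := (0 : ℂ))).const_add z
    exact h2.restrictScalars ℝ
  have h3 : HasFDerivAt f (fderiv ℝ f z) (z + (0 : ℂ) • ξ) := by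
    simpa using hf.hasFDerivAt
  have h4 := h3.comp (0 : ℂ) h1
  have h5 : fderiv ℝ (fun ζ : ℂ => f (z + ζ • ξ)) 0 = _ := h4.fderiv
  rw [h5]; rfl

theorem d2_cline {f : V → F} {z : V} (ξ : V) (hf : ContDiffAt ℝ 2 f z) (c : ℂ) :
    d2 (fun ζ : ℂ => f (z + ζ • ξ)) 0 c = d2 f z (c • ξ) := by
  rw [d2_eq_line c (contDiffAt_cline ξ hf), d2_eq_line (c • ξ) hf]
  congr 2
  funext x
  rw [zero_add, smul_assoc]

theorem levi_cline {f : V → F} {z : V} (ξ : V) (hf : ContDiffAt ℝ 2 f z) :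
    levi (fun ζ : ℂ => f (z + ζ • ξ)) 0 1 = levi f z ξ := by
  rw [levi_eq, levi_eq, d2_cline ξ hf, d2_cline ξ hf]
  simp

theorem dHol_cline {f : V → ℂ} {z : V} (ξ : V) (hf : DifferentiableAt ℝ f z) :
    dHol (fun ζ : ℂ => f (z + ζ • ξ)) 0 1 = dHol f z ξ := by
  unfold dHol
  rw [fderiv_cline ξ hf, fderiv_cline ξ hf]
  simp only [one_smul, smul_eq_mul, mul_one]

theorem dAnti_cline {f : V → ℂ} {z : V} (ξ : V) (hf : DifferentiableAt ℝ f z) :
    dAnti (fun ζ : ℂ => f (z + ζ • ξ)) 0 1 = dAnti f z ξ := by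
  unfold dAnti
  rw [fderiv_cline ξ hf, fderiv_cline ξ hf]
  simp only [one_smul, smul_eq_mul, mul_one]

theorem levi_conj {f : V → ℂ} {z : V} (ξ : V) (hf : ContDiffAt ℝ 2 f z) :
    levi (fun y => starRingEnd ℂ (f y)) z ξ = starRingEnd ℂ (levi f z ξ) :=
  levi_clm (conjCLE : ℂ →L[ℝ] ℂ) ξ hf

theorem dAnti_conj {f : V → ℂ} {z : V} (ξ : V) (hf : DifferentiableAt ℝ f z) :
    dAnti (fun y => starRingEnd ℂ (f y)) z ξ = starRingEnd ℂ (dHol f z ξ) := by
  have h : fderiv ℝ (fun y => starRingEnd ℂ (f y)) z = (conjCLE : ℂ →L[ℝ] ℂ).comp (fderiv ℝ f z) :=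
    ((conjCLE : ℂ →L[ℝ] ℂ).hasFDerivAt.comp z hf.hasFDerivAt).fderiv
  unfold dAnti dHol
  rw [h]
  have h2 : (starRingEnd ℂ) (2 : ℂ) = 2 := map_ofNat _ 2
  simp only [ContinuousLinearMap.comp_apply, ContinuousLinearEquiv.coe_coe, ContinuousAlgEquiv.coeCLE_apply, conjCAE_apply, map_div₀, map_sub, map_mul, conj_I, neg_mul, sub_neg_eq_add, h2]

theorem dHol_conj {f : V → ℂ} {z : V} (ξ : V) (hf : DifferentiableAt ℝ f z) :
    dHol (fun y => starRingEnd ℂ (f y)) z ξ = starRingEnd ℂ (dAnti f z ξ) := by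
  have h : fderiv ℝ (fun y => starRingEnd ℂ (f y)) z = (conjCLE : ℂ →L[ℝ] ℂ).comp (fderiv ℝ f z) :=
    ((conjCLE : ℂ →L[ℝ] ℂ).hasFDerivAt.comp z hf.hasFDerivAt).fderiv
  unfold dAnti dHol
  rw [h]
  have h2 : (starRingEnd ℂ) (2 : ℂ) = 2 := map_ofNat _ 2
  simp only [ContinuousLinearMap.comp_apply, ContinuousLinearEquiv.coe_coe, ContinuousAlgEquiv.coeCLE_apply, conjCAE_apply, sub_eq_add_neg, map_div₀, map_add, map_mul, conj_I, neg_mul, h2]

theorem dAnti_congr {f g : V → ℂ} {z : V} (ξ : V) (h : f =ᶠ[𝓝 z] g) :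
    dAnti f z ξ = dAnti g z ξ := by
  unfold dAnti; rw [h.fderiv_eq]

theorem levi_sum {ι : Type*} (s : Finset ι) {f : ι → V → F} {z : V} (ξ : V)
    (hf : ∀ i ∈ s, ContDiffAt ℝ 2 (f i) z) :
    levi (fun y => ∑ i ∈ s, f i y) z ξ = ∑ i ∈ s, levi (f i) z ξ := by
  classical
  induction s using Finset.induction_on with
  | empty => simp [levi_const]
  | insert a s ha ih =>
    simp only [Finset.sum_insert ha]
    rw [levi_add ξ (hf a (Finset.mem_insert_self a s))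
      (ContDiffAt.sum fun i hi => hf i (Finset.mem_insert_of_mem hi)),
      ih fun i hi => hf i (Finset.mem_insert_of_mem hi)]

/-- affine functions of one complex variable -/
theorem affine_levi (a b : ℂ) : levi (fun ζ : ℂ => a + ζ * b) 0 1 = 0 := by
  have h : ∀ c : ℂ, d2 (fun ζ : ℂ => a + ζ * b) 0 c = 0 := by
    intro c
    have hc : ContDiffAt ℝ 2 (fun ζ : ℂ => a + ζ * b) 0 := by fun_prop
    rw [d2_eq_line c hc]
    have h1 : deriv (fun x : ℝ => a + (0 + x • c) * b) = fun _ => c * b := by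
      funext x
      have h2 : HasDerivAt (fun x : ℝ => a + (0 + x • c) * b) (c * b) x := by
        have h3 : HasDerivAt (fun x : ℝ => x • c) c x := by
          simpa using (hasDerivAt_id x).smul_const c
        simpa using (((h3.const_add 0).mul_const b).const_add a)
      exact h2.deriv
    rw [h1]; simp
  rw [levi_eq, h, h]; simp

theorem affine_dHol (a b : ℂ) : dHol (fun ζ : ℂ => a + ζ * b) 0 1 = b := by
  have h1 : HasFDerivAt (fun ζ : ℂ => a + ζ * b)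
      (((ContinuousLinearMap.id ℂ ℂ).smulRight b).restrictScalars ℝ) 0 := by
    have h2 : HasFDerivAt (fun ζ : ℂ => a + ζ * b) ((ContinuousLinearMap.id ℂ ℂ).smulRight b) 0 :=
      (((ContinuousLinearMap.id ℂ ℂ).smulRight b).hasFDerivAt (x := (0 : ℂ))).const_add a
    exact h2.restrictScalars ℝ
  unfold dHol
  rw [h1.fderiv]
  simp only [ContinuousLinearMap.coe_restrictScalars', ContinuousLinearMap.smulRight_apply,
    ContinuousLinearMap.id_apply, smul_eq_mul, one_mul, mul_one]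
  linear_combination (-b / 2) * I_sq

theorem affine_dAnti (a b : ℂ) : dAnti (fun ζ : ℂ => a + ζ * b) 0 1 = 0 := by
  have h1 : HasFDerivAt (fun ζ : ℂ => a + ζ * b)
      (((ContinuousLinearMap.id ℂ ℂ).smulRight b).restrictScalars ℝ) 0 := by
    have h2 : HasFDerivAt (fun ζ : ℂ => a + ζ * b) ((ContinuousLinearMap.id ℂ ℂ).smulRight b) 0 :=
      (((ContinuousLinearMap.id ℂ ℂ).smulRight b).hasFDerivAt (x := (0 : ℂ))).const_add a
    exact h2.restrictScalars ℝ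
  unfold dAnti
  rw [h1.fderiv]
  simp only [ContinuousLinearMap.coe_restrictScalars', ContinuousLinearMap.smulRight_apply,
    ContinuousLinearMap.id_apply, smul_eq_mul, one_mul, mul_one]
  linear_combination (b / 2) * I_sq

theorem fderiv_analytic {c : ℂ → ℂ} {z : ℂ} (hc : DifferentiableAt ℂ c z) (w : ℂ) :
    fderiv ℝ c z w = deriv c z * w := by
  have h1 := hc.hasDerivAt.hasFDerivAt.restrictScalars ℝ
  rw [h1.fderiv]
  simp [mul_comm]

theorem analytic_dAnti {c : ℂ → ℂ} {z : ℂ} (hc : DifferentiableAt ℂ c z) (w : ℂ) :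
    dAnti c z w = 0 := by
  unfold dAnti
  rw [fderiv_analytic hc, fderiv_analytic hc, smul_eq_mul]
  linear_combination (deriv c z * w / 2) * I_sq

theorem analytic_dHol {c : ℂ → ℂ} {z : ℂ} (hc : DifferentiableAt ℂ c z) (w : ℂ) :
    dHol c z w = deriv c z * w := by
  unfold dHol
  rw [fderiv_analytic hc, fderiv_analytic hc, smul_eq_mul]
  linear_combination (-deriv c z * w / 2) * I_sq

theorem analytic_d2 {c : ℂ → ℂ} {z : ℂ} (hc : AnalyticAt ℂ c z) (w : ℂ) :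
    d2 c z w = deriv (deriv c) z * w ^ 2 := by
  have hcd : ContDiffAt ℝ 2 c z := (hc.contDiffAt (n := 2)).restrict_scalars ℝ
  rw [d2_eq_line w hcd]
  have hev : ∀ᶠ x : ℝ in 𝓝 0, deriv (fun x : ℝ => c (z + x • w)) x = deriv c (z + x • w) * w := by
    have hcont : Continuous fun x : ℝ => z + x • w := by fun_prop
    have : ∀ᶠ y in 𝓝 (z + (0 : ℝ) • w), DifferentiableAt ℂ c y := by
      have h1 : ∀ᶠ y in 𝓝 z, AnalyticAt ℂ c y := hc.eventually_analyticAt
      rw [zero_smul, add_zero]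
      filter_upwards [h1] with y hy
      exact hy.differentiableAt
    filter_upwards [hcont.continuousAt.eventually this] with x hx
    rw [deriv_line (hx.restrictScalars ℝ), fderiv_analytic hx]
  rw [Filter.EventuallyEq.deriv_eq hev]
  have hd : DifferentiableAt ℂ (deriv c) (z + (0 : ℝ) • w) := by
    rw [zero_smul, add_zero]
    exact hc.deriv.differentiableAt
  have h3 := deriv_line (f := fun y => deriv c y * w) (z := z) (w := w) (x := 0)
    ((hd.restrictScalars ℝ).mul_const w)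
  rw [h3, fderiv_analytic (hd.mul_const w), zero_smul, add_zero]
  rw [zero_smul, add_zero] at hd
  rw [deriv_mul_const hd]
  ring

theorem analytic_levi {c : ℂ → ℂ} {z : ℂ} (hc : AnalyticAt ℂ c z) (w : ℂ) : levi c z w = 0 := by
  rw [levi_eq, analytic_d2 hc, analytic_d2 hc]
  have : deriv (deriv c) z * w ^ 2 + deriv (deriv c) z * (I • w) ^ 2 = 0 := by
    rw [smul_eq_mul, mul_pow]
    linear_combination (deriv (deriv c) z * w ^ 2) * I_sq
  rw [this, smul_zero]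

theorem analytic_levi_normSq {c : ℂ → ℂ} {z : ℂ} (hc : AnalyticAt ℂ c z) (w : ℂ) :
    levi (fun y => ‖c y‖ ^ 2) z w = ‖deriv c z * w‖ ^ 2 := by
  have hcd : ContDiffAt ℝ 2 c z := (hc.contDiffAt (n := 2)).restrict_scalars ℝ
  have hcc : ContDiffAt ℝ 2 (fun y => starRingEnd ℂ (c y)) z :=
    (conjCLE : ℂ →L[ℝ] ℂ).contDiff.contDiffAt.comp z hcd
  have h1 : (fun y => ‖c y‖ ^ 2) = fun y => reCLM (starRingEnd ℂ (c y) * c y) := by
    funext y
    rw [← Complex.normSq_eq_norm_sq, ← Complex.normSq_eq_conj_mul_self]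
    simp
  rw [h1, levi_clm reCLM w (hcc.mul hcd), levi_mul w hcc hcd, levi_conj w hcd, analytic_levi hc,
    dHol_conj w (hcd.differentiableAt (by norm_num)), dAnti_conj w
    (hcd.differentiableAt (by norm_num)), analytic_dAnti hc.differentiableAt,
    analytic_dHol hc.differentiableAt]
  rw [map_zero, zero_mul, mul_zero, zero_mul, zero_add, zero_add, zero_add,
    ← Complex.normSq_eq_conj_mul_self, Complex.normSq_eq_norm_sq]
  simp only [reCLM_apply, ofReal_re]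

end Gen

end LC

end Vale.Agent.P296
end
end

section

section

/-!
# P296: dual norms of a Griffiths positive metric have no local maximum along holomorphic sections
-/

namespace Vale.Agent.P296

open Complex Filter Topology Matrix
open scoped ContDiff ComplexOrder

/-- squared norm on the dual space, for row vectors -/
noncomputable def dualNorm {r : ℕ} (h : Matrix (Fin r) (Fin r) ℂ) (u : Fin r → ℂ) : ℝ :=
  (u ⬝ᵥ (h⁻¹ *ᵥ star u)).re

namespace Curv

variable {r n : ℕ}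

/-- squared euclidean norm -/
noncomputable def nsq (u : Fin r → ℂ) : ℝ := ∑ a, ‖u a‖ ^ 2

theorem nsq_eq (u : Fin r → ℂ) : u ⬝ᵥ star u = (nsq u : ℂ) := by
  unfold nsq dotProduct
  push_cast
  refine Finset.sum_congr rfl fun a _ => ?_
  rw [Pi.star_apply, RCLike.star_def, Complex.mul_conj, Complex.normSq_eq_norm_sq]
  push_cast; rfl

theorem nsq_eq' (u : Fin r → ℂ) : star u ⬝ᵥ u = (nsq u : ℂ) := by
  rw [dotProduct_comm, nsq_eq]

theorem nsq_nonneg (u : Fin r → ℂ) : 0 ≤ nsq u := Finset.sum_nonneg fun _ _ => by positivity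

theorem cauchy_schwarz (u v : Fin r → ℂ) : ‖u ⬝ᵥ v‖ ^ 2 ≤ nsq u * nsq v := by
  have h1 : ‖u ⬝ᵥ v‖ ≤ ∑ a, ‖u a‖ * ‖v a‖ := by
    unfold dotProduct
    refine (norm_sum_le _ _).trans (Finset.sum_le_sum fun a _ => ?_)
    rw [norm_mul]
  calc ‖u ⬝ᵥ v‖ ^ 2 ≤ (∑ a, ‖u a‖ * ‖v a‖) ^ 2 := by gcongr
    _ ≤ nsq u * nsq v := Finset.sum_mul_sq_le_sq_mul_sq _ _ _

open scoped MatrixOrder Matrix.Norms.L2Operator in
/-- factorisation of a positive definite matrix -/
theorem exists_factor {h : Matrix (Fin r) (Fin r) ℂ} (hh : h.PosDef) :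
    ∃ C : Matrix (Fin r) (Fin r) ℂ, IsUnit C ∧ h = Cᴴ * C := by
  obtain ⟨C, hC⟩ := CStarAlgebra.nonneg_iff_eq_star_mul_self.mp hh.posSemidef.nonneg
  rw [Matrix.star_eq_conjTranspose] at hC
  refine ⟨C, ?_, hC⟩
  have h1 := hh.isUnit
  rw [hC] at h1
  rw [Matrix.isUnit_iff_isUnit_det] at h1 ⊢
  rw [det_mul] at h1
  exact isUnit_of_mul_isUnit_right h1

theorem dualNorm_factor (C : Matrix (Fin r) (Fin r) ℂ) (u : Fin r → ℂ) :
    dualNorm (Cᴴ * C) u = nsq (u ᵥ* C⁻¹) := by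
  unfold dualNorm
  rw [Matrix.mul_inv_rev, ← mulVec_mulVec, dotProduct_mulVec, ← conjTranspose_nonsing_inv]
  have h1 : (C⁻¹)ᴴ *ᵥ star u = star (u ᵥ* C⁻¹) := by
    rw [star_vecMul]
  rw [h1, nsq_eq, ofReal_re]

theorem isUnit_conjTranspose {C : Matrix (Fin r) (Fin r) ℂ} (hC : IsUnit C) : IsUnit Cᴴ := by
  rw [Matrix.isUnit_iff_isUnit_det] at hC ⊢
  rw [det_conjTranspose]
  exact hC.star

/-- invariance under change of frame -/
theorem dualNorm_compat {h g : Matrix (Fin r) (Fin r) ℂ} (hg : IsUnit g)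
    (u : Fin r → ℂ) : dualNorm (gᴴ * h * g) (u ᵥ* g) = dualNorm h u := by
  unfold dualNorm
  have hgd : IsUnit g.det := (Matrix.isUnit_iff_isUnit_det g).mp hg
  have hgd' : IsUnit (gᴴ).det := (Matrix.isUnit_iff_isUnit_det _).mp (isUnit_conjTranspose hg)
  rw [Matrix.mul_inv_rev, Matrix.mul_inv_rev, star_vecMul, mulVec_mulVec, ← dotProduct_mulVec, mulVec_mulVec]
  congr 2
  congr 1
  rw [← Matrix.mul_assoc, ← Matrix.mul_assoc, Matrix.mul_nonsing_inv g hgd, Matrix.one_mul,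
    Matrix.mul_assoc, Matrix.nonsing_inv_mul _ hgd', Matrix.mul_one]

theorem sqrt_dualNorm_smul (h : Matrix (Fin r) (Fin r) ℂ) (c : ℂ) (u : Fin r → ℂ) :
    Real.sqrt (dualNorm h (c • u)) = ‖c‖ * Real.sqrt (dualNorm h u) := by
  have h1 : dualNorm h (c • u) = ‖c‖ ^ 2 * dualNorm h u := by
    unfold dualNorm
    rw [star_smul, mulVec_smul, dotProduct_smul, smul_dotProduct, smul_smul, smul_eq_mul,
      RCLike.star_def, ← Complex.normSq_eq_conj_mul_self, Complex.normSq_eq_norm_sq,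
      Complex.re_ofReal_mul]
  rw [h1, Real.sqrt_mul (by positivity), Real.sqrt_sq (norm_nonneg _)]

theorem dualNorm_smul (h : Matrix (Fin r) (Fin r) ℂ) (c : ℂ) (u : Fin r → ℂ) :
    dualNorm h (c • u) = ‖c‖ ^ 2 * dualNorm h u := by
  unfold dualNorm
  rw [star_smul, mulVec_smul, dotProduct_smul, smul_dotProduct, smul_smul, smul_eq_mul,
    RCLike.star_def, ← Complex.normSq_eq_conj_mul_self, Complex.normSq_eq_norm_sq,
    Complex.re_ofReal_mul]

theorem dualNorm_pos {h : Matrix (Fin r) (Fin r) ℂ} (hh : h.PosDef) {u : Fin r → ℂ} (hu : u ≠ 0) :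
    0 < dualNorm h u := by
  obtain ⟨C, hC, rfl⟩ := exists_factor hh
  rw [dualNorm_factor]
  refine lt_of_le_of_ne (nsq_nonneg _) fun h0 => hu ?_
  have h1 : u ᵥ* C⁻¹ = 0 := by
    funext a
    unfold nsq at h0
    have := (Finset.sum_eq_zero_iff_of_nonneg (fun a _ => by (clear * -; positivity))).mp h0.symm a
      (Finset.mem_univ a)
    simpa using this
  have hCd : IsUnit C.det := (Matrix.isUnit_iff_isUnit_det C).mp hC
  have h2 := congrArg (fun w => w ᵥ* C) h1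
  simpa [vecMul_vecMul, Matrix.nonsing_inv_mul C hCd] using h2

theorem sqrt_dualNorm_add {h : Matrix (Fin r) (Fin r) ℂ} (hh : h.PosDef) (u v : Fin r → ℂ) :
    Real.sqrt (dualNorm h (u + v)) ≤ Real.sqrt (dualNorm h u) + Real.sqrt (dualNorm h v) := by
  obtain ⟨C, hC, rfl⟩ := exists_factor hh
  rw [dualNorm_factor, dualNorm_factor, dualNorm_factor, add_vecMul]
  have e : ∀ w : Fin r → ℂ, Real.sqrt (nsq w) = ‖(WithLp.toLp 2 w : EuclideanSpace ℂ (Fin r))‖ := by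
    intro w
    rw [EuclideanSpace.norm_eq]
    rfl
  rw [e, e, e]
  exact norm_add_le (WithLp.toLp 2 (u ᵥ* C⁻¹) : EuclideanSpace ℂ (Fin r))
    (WithLp.toLp 2 (v ᵥ* C⁻¹))

/-- Cauchy-Schwarz between a space and its dual -/
theorem pairing_le {h : Matrix (Fin r) (Fin r) ℂ} (hh : h.PosDef) (u v : Fin r → ℂ) :
    ‖u ⬝ᵥ v‖ ^ 2 ≤ dualNorm h u * (star v ⬝ᵥ (h *ᵥ v)).re := by
  obtain ⟨C, hC, rfl⟩ := exists_factor hh
  have hCd : IsUnit C.det := (Matrix.isUnit_iff_isUnit_det C).mp hC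
  rw [dualNorm_factor]
  have h1 : (star v ⬝ᵥ ((Cᴴ * C) *ᵥ v)).re = nsq (C *ᵥ v) := by
    rw [← mulVec_mulVec, dotProduct_mulVec]
    have : star v ᵥ* Cᴴ = star (C *ᵥ v) := by rw [star_mulVec]
    rw [this, nsq_eq', ofReal_re]
  have h2 : u ⬝ᵥ v = (u ᵥ* C⁻¹) ⬝ᵥ (C *ᵥ v) := by
    rw [← dotProduct_mulVec, mulVec_mulVec, Matrix.nonsing_inv_mul C hCd, one_mulVec]
  rw [h1, h2]
  exact cauchy_schwarz _ _

/-- `no local maximum` property of the dual norms along holomorphic sections -/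
def NLMv (h : (Fin n → ℂ) → Matrix (Fin r) (Fin r) ℂ) (z : Fin n → ℂ) : Prop :=
  ∀ (ξ : Fin n → ℂ) (u : ℂ → Fin r → ℂ), ξ ≠ 0 → (∀ a, AnalyticAt ℂ (fun ζ => u ζ a) 0) →
    u 0 ≠ 0 → ¬ IsLocalMax (fun ζ : ℂ => dualNorm (h (z + ζ • ξ)) (u ζ)) 0

theorem levi_form_adapted {U : Set (Fin n → ℂ)} (hU : IsOpen U)
    {h : (Fin n → ℂ) → Matrix (Fin r) (Fin r) ℂ}
    (hh : ∀ a b, ContDiffOn ℝ 2 (fun z => h z a b) U) (hpd : ∀ z ∈ U, (h z).PosDef)
    {z : Fin n → ℂ} (hz : z ∈ U) (ξ : Fin n → ℂ) (v0 : Fin r → ℂ) :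
    ∃ v1 : Fin r → ℂ,
      levi (fun ζ : ℂ => star (v0 + ζ • v1) ⬝ᵥ (h (z + ζ • ξ) *ᵥ (v0 + ζ • v1))) 0 1 =
        - chernCurvature h z ξ v0 ∧
      ContDiffAt ℝ 2 (fun ζ : ℂ => star (v0 + ζ • v1) ⬝ᵥ (h (z + ζ • ξ) *ᵥ (v0 + ζ • v1))) 0 := by
  set dh : Matrix (Fin r) (Fin r) ℂ := Matrix.of fun a b => dHol (fun w => h w a b) z ξ with hdh
  set ddh : Matrix (Fin r) (Fin r) ℂ := Matrix.of fun a b => levi (fun w => h w a b) z ξ with hddh
  set v1 : Fin r → ℂ := -((h z)⁻¹ *ᵥ (dh *ᵥ v0)) with hv1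
  have hUn : U ∈ 𝓝 z := hU.mem_nhds hz
  have hc : ∀ a b, ContDiffAt ℝ 2 (fun w => h w a b) z := fun a b => (hh a b).contDiffAt hUn
  have hd : ∀ a b, DifferentiableAt ℝ (fun w => h w a b) z := fun a b =>
    (hc a b).differentiableAt (by norm_num)
  have haff : ∀ a, ContDiffAt ℝ 2 (fun ζ : ℂ => v0 a + ζ * v1 a) 0 := fun a => by fun_prop
  have haffc : ∀ a, ContDiffAt ℝ 2 (fun ζ : ℂ => starRingEnd ℂ (v0 a + ζ * v1 a)) 0 := fun a =>
    (conjCLE : ℂ →L[ℝ] ℂ).contDiff.contDiffAt.comp (0 : ℂ) (haff a)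
  have hline : ∀ a b, ContDiffAt ℝ 2 (fun ζ : ℂ => h (z + ζ • ξ) a b) 0 := fun a b =>
    LC.contDiffAt_cline ξ (hc a b)
  have heq : (fun ζ : ℂ => star (v0 + ζ • v1) ⬝ᵥ (h (z + ζ • ξ) *ᵥ (v0 + ζ • v1))) =
      fun ζ : ℂ => ∑ a, ∑ b, starRingEnd ℂ (v0 a + ζ * v1 a) *
        (h (z + ζ • ξ) a b * (v0 b + ζ * v1 b)) := by
    funext ζ
    unfold dotProduct mulVec dotProduct
    refine Finset.sum_congr rfl fun a _ => ?_
    rw [Finset.mul_sum]
    refine Finset.sum_congr rfl fun b _ => ?_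
    simp [Pi.star_apply]
  have hterm : ∀ a b, ContDiffAt ℝ 2 (fun ζ : ℂ => starRingEnd ℂ (v0 a + ζ * v1 a) *
        (h (z + ζ • ξ) a b * (v0 b + ζ * v1 b))) 0 := fun a b =>
    (haffc a).mul ((hline a b).mul (haff b))
  refine ⟨v1, ?_, ?_⟩
  · rw [heq, LC.levi_sum _ _ fun a _ => ContDiffAt.sum fun b _ => hterm a b]
    have e1 : ∀ a, levi (fun ζ : ℂ => ∑ b, starRingEnd ℂ (v0 a + ζ * v1 a) *
        (h (z + ζ • ξ) a b * (v0 b + ζ * v1 b))) 0 1 =
        ∑ b, levi (fun ζ : ℂ => starRingEnd ℂ (v0 a + ζ * v1 a) *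
        (h (z + ζ • ξ) a b * (v0 b + ζ * v1 b))) 0 1 := fun a =>
      LC.levi_sum _ _ fun b _ => hterm a b
    simp only [e1]
    have e2 : ∀ a b, levi (fun ζ : ℂ => starRingEnd ℂ (v0 a + ζ * v1 a) *
        (h (z + ζ • ξ) a b * (v0 b + ζ * v1 b))) 0 1 =
        starRingEnd ℂ (v0 a) * (ddh a b * v0 b) + starRingEnd ℂ (v0 a) *
          (dhᴴ a b * v1 b) + starRingEnd ℂ (v1 a) * (dh a b * v0 b) +
          starRingEnd ℂ (v1 a) * (h z a b * v1 b) := by
      intro a b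
      have hherm : (fun w => h w a b) =ᶠ[𝓝 z] fun w => starRingEnd ℂ (h w b a) := by
        filter_upwards [hUn] with w hw
        have := (hpd w hw).isHermitian
        have h2 := this.apply a b
        rw [← h2]; rfl
      rw [LC.levi_mul _ (haffc a) ((hline a b).mul (haff b)), LC.levi_mul _ (hline a b) (haff b),
        LC.levi_conj _ (haff a), LC.affine_levi, LC.affine_levi,
        LC.dHol_conj _ ((haff a).differentiableAt (by norm_num)),
        LC.dAnti_conj _ ((haff a).differentiableAt (by norm_num)), LC.affine_dHol,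
        LC.affine_dAnti, LC.dHol_mul _ ((hline a b).differentiableAt (by norm_num))
          ((haff b).differentiableAt (by norm_num)), LC.levi_cline _ (hc a b),
        LC.dHol_cline _ (hd a b), LC.dAnti_cline _ (hd a b), LC.affine_dHol, LC.affine_dAnti,
        LC.dAnti_congr _ hherm, LC.dAnti_conj _ (hd b a)]
      simp only [hddh, hdh, Matrix.of_apply, conjTranspose_apply, map_zero, zero_smul, add_zero,
        zero_mul, mul_zero, RCLike.star_def, LC.affine_dHol]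
      ring
    simp only [e2]
    have hinv : h z *ᵥ v1 = -(dh *ᵥ v0) := by
      have hu : IsUnit (h z).det := (Matrix.isUnit_iff_isUnit_det _).mp (hpd z hz).isUnit
      rw [hv1, mulVec_neg, mulVec_mulVec, Matrix.mul_nonsing_inv _ hu, one_mulVec]
    have e3 : ∀ (M : Matrix (Fin r) (Fin r) ℂ) (x y : Fin r → ℂ),
        ∑ a, ∑ b, starRingEnd ℂ (x a) * (M a b * y b) = star x ⬝ᵥ (M *ᵥ y) := by
      intro M x y
      unfold dotProduct mulVec dotProduct
      refine Finset.sum_congr rfl fun a _ => ?_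
      rw [Finset.mul_sum]
      rfl
    simp only [Finset.sum_add_distrib, e3]
    rw [hinv, dotProduct_neg, add_neg_cancel_right]
    unfold chernCurvature
    simp only
    rw [← hdh, ← hddh, sub_mulVec, dotProduct_sub, neg_sub, hv1, mulVec_neg, dotProduct_neg,
      mulVec_mulVec, mulVec_mulVec, ← sub_eq_add_neg, Matrix.mul_assoc]
  · rw [heq]
    exact ContDiffAt.sum fun a _ => ContDiffAt.sum fun b _ => hterm a b

/-- **Griffiths positivity implies that dual norms have no local maximum along sections.** -/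
theorem nlm_of_curvature {U : Set (Fin n → ℂ)} (hU : IsOpen U)
    {h : (Fin n → ℂ) → Matrix (Fin r) (Fin r) ℂ}
    (hh : ∀ a b, ContDiffOn ℝ 2 (fun z => h z a b) U) (hpd : ∀ z ∈ U, (h z).PosDef)
    {z : Fin n → ℂ} (hz : z ∈ U)
    (hG : ∀ ξ : Fin n → ℂ, ξ ≠ 0 → ∀ v : Fin r → ℂ, v ≠ 0 → 0 < (chernCurvature h z ξ v).re) :
    NLMv h z := by
  intro ξ u hξ hu hu0 hmax
  have hposn : 0 < dualNorm (h z) (u 0) := dualNorm_pos (hpd z hz) hu0
  set v0 : Fin r → ℂ := (h z)⁻¹ *ᵥ star (u 0) with hv0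
  obtain ⟨v1, hv1, hq⟩ := levi_form_adapted hU hh hpd hz ξ v0
  set q : ℂ → ℂ := fun ζ => star (v0 + ζ • v1) ⬝ᵥ (h (z + ζ • ξ) *ᵥ (v0 + ζ • v1)) with hqdef
  set c : ℂ → ℂ := fun ζ => u ζ ⬝ᵥ (v0 + ζ • v1) with hcdef
  have hdet : IsUnit (h z).det := (Matrix.isUnit_iff_isUnit_det _).mp (hpd z hz).isUnit
  have hcan : AnalyticAt ℂ c 0 := by
    have : c = fun ζ => ∑ a, u ζ a * (v0 a + ζ * v1 a) := by
      funext ζ; rfl
    rw [this]
    apply Finset.analyticAt_fun_sum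
    intro a _
    exact (hu a).mul (by fun_prop)
  have hc0 : c 0 = (dualNorm (h z) (u 0) : ℂ) := by
    have h1 : c 0 = u 0 ⬝ᵥ ((h z)⁻¹ *ᵥ star (u 0)) := by simp only [hcdef, hv0, dotProduct_add, dotProduct_smul, smul_eq_mul, zero_mul, add_zero]
    obtain ⟨C, hC, hCeq⟩ := exists_factor (hpd z hz)
    have h2 : (u 0 ⬝ᵥ ((h z)⁻¹ *ᵥ star (u 0))) = (nsq (u 0 ᵥ* C⁻¹) : ℂ) := by
      rw [hCeq, Matrix.mul_inv_rev, ← mulVec_mulVec, dotProduct_mulVec,
        ← conjTranspose_nonsing_inv]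
      have h1 : (C⁻¹)ᴴ *ᵥ star (u 0) = star (u 0 ᵥ* C⁻¹) := by
        rw [star_vecMul]
      rw [h1, nsq_eq]
    rw [h1, h2]
    congr 1
    rw [hCeq, dualNorm_factor]
  have hv0ne : v0 ≠ 0 := by
    intro h0
    have : c 0 = 0 := by simp only [hcdef, h0, zero_add, dotProduct_smul, smul_eq_mul, zero_mul]
    rw [hc0] at this
    have h2 : dualNorm (h z) (u 0) = 0 := by exact_mod_cast this
    linarith only [hposn, h2]
  have hq0 : (q 0).re = dualNorm (h z) (u 0) := by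
    have h1 : q 0 = star v0 ⬝ᵥ star (u 0) := by
      simp only [hqdef, zero_smul, add_zero]
      rw [hv0, mulVec_mulVec, Matrix.mul_nonsing_inv _ hdet, one_mulVec]
    have h2 : star v0 ⬝ᵥ star (u 0) = starRingEnd ℂ (c 0) := by
      simp only [hcdef, zero_smul, add_zero]
      rw [Matrix.star_dotProduct_star]; rfl
    rw [h1, h2, hc0]
    simp
  -- the comparison function
  set N0 := dualNorm (h z) (u 0) with hN0
  have hcd : ContDiffAt ℝ 2 c 0 := (hcan.contDiffAt (n := 2)).restrict_scalars ℝ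
  have hc2 : ContDiffAt ℝ 2 (fun ζ => ‖c ζ‖ ^ 2) 0 := hcd.norm_sq ℝ
  have hqre : ContDiffAt ℝ 2 (fun ζ => reCLM (q ζ)) 0 := reCLM.contDiff.contDiffAt.comp (0 : ℂ) hq
  have hc2' : ContDiffAt ℝ 2 (fun ζ => ((-N0⁻¹) • ContinuousLinearMap.id ℝ ℝ) (‖c ζ‖ ^ 2)) 0 :=
    ((-N0⁻¹) • ContinuousLinearMap.id ℝ ℝ).contDiff.contDiffAt.comp (0 : ℂ) hc2
  have hmin : IsLocalMin (fun ζ => reCLM (q ζ) +
      ((-N0⁻¹) • ContinuousLinearMap.id ℝ ℝ) (‖c ζ‖ ^ 2)) 0 := by
    have hcont : Continuous fun ζ : ℂ => z + ζ • ξ := by fun_prop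
    have hUe : ∀ᶠ ζ : ℂ in 𝓝 0, z + ζ • ξ ∈ U := by
      apply hcont.continuousAt.eventually
      simpa only [zero_smul, add_zero, eventually_mem_set] using hU.mem_nhds hz
    filter_upwards [hUe, hmax] with ζ h1 h2
    have h3 := pairing_le (hpd _ h1) (u ζ) (v0 + ζ • v1)
    have h4 : dualNorm (h (z + (0 : ℂ) • ξ)) (u 0) = N0 := by simp [hN0]
    rw [h4] at h2
    have h5 : 0 ≤ (q ζ).re := by
      have := (hpd _ h1).posSemidef.re_dotProduct_nonneg (v0 + ζ • v1)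
      exact this
    have h6 : ‖c ζ‖ ^ 2 ≤ N0 * (q ζ).re := h3.trans (mul_le_mul_of_nonneg_right h2 h5)
    have h7 : N0⁻¹ * ‖c ζ‖ ^ 2 ≤ (q ζ).re := by
      rw [inv_mul_le_iff₀ hposn]; exact h6
    have h8 : ‖c 0‖ ^ 2 = N0 ^ 2 := by
      rw [hc0, Complex.norm_real, Real.norm_eq_abs, sq_abs]
    simp only [reCLM_apply, _root_.smul_apply, ContinuousLinearMap.id_apply, smul_eq_mul]
    rw [hq0, h8]
    have h9 : -N0⁻¹ * N0 ^ 2 = -N0 := by
      (clear * - hposn; field_simp)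
    rw [h9]
    linarith only [h7]
  have hlevi := LC.levi_nonneg_of_isLocalMin (1 : ℂ) (hqre.add hc2') hmin
  rw [LC.levi_add _ hqre hc2', LC.levi_clm _ _ hq, LC.levi_clm _ _ hc2, hv1,
    LC.analytic_levi_normSq hcan] at hlevi
  have hpos := hG ξ hξ v0 hv0ne
  simp only [reCLM_apply, neg_re, _root_.smul_apply, ContinuousLinearMap.id_apply, smul_eq_mul] at hlevi
  have : 0 ≤ N0⁻¹ * ‖deriv c 0 * 1‖ ^ 2 := by (clear * - hposn; positivity)
  linarith only [hpos, hlevi, this]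

end Curv

end Vale.Agent.P296
end
end

section

section

/-!
# P296: the non-existence half, as an abstract maximum principle argument on `ℂ²`
-/

namespace Vale.Agent.P296

namespace NoG

open Complex Filter Topology Theta

/-- norms on `ℂ × ℂ` -/
structure IsNrm (n : ℂ × ℂ → ℝ) : Prop where
  add : ∀ v w, n (v + w) ≤ n v + n w
  smul : ∀ (c : ℂ) v, n (c • v) = ‖c‖ * n v
  pos : ∀ v, v ≠ 0 → 0 < n v

/-- norms of nowhere zero holomorphic sections along lines have no local maximum at `x` -/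
def NLM (n : ℂ × ℂ → ℂ × ℂ → ℝ) (x : ℂ × ℂ) : Prop :=
  ∀ (w : ℂ × ℂ) (a b : ℂ → ℂ), w ≠ 0 → AnalyticAt ℂ a 0 → AnalyticAt ℂ b 0 → (a 0, b 0) ≠ 0 →
    ¬ IsLocalMax (fun ζ : ℂ => n (x + ζ • w) (a ζ, b ζ)) 0

/-- the weight `2π(3y₀²+6σy₀y₁+4y₁²)` -/
noncomputable def phi (σ : ℝ) (x : ℂ × ℂ) : ℝ :=
  2 * Real.pi * (3 * x.1.im ^ 2 + 6 * σ * (x.1.im * x.2.im) + 4 * x.2.im ^ 2)

theorem norm_sq_eq (z : ℂ) : ‖z‖ ^ 2 = z.re ^ 2 + z.im ^ 2 := by
  rw [← Complex.normSq_eq_norm_sq, Complex.normSq_apply]; ring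

/-- holomorphic normalising factor on the line `t = const` near `s = l`, `l` real -/
noncomputable def EE (σ : ℝ) (l : ℝ) (t s : ℂ) : ℂ :=
  exp (-((4 * Real.pi * t.im ^ 2 : ℝ) : ℂ) + 6 * Real.pi * σ * t.im * I * (s - l)
    + 3 / 2 * Real.pi * (s - l) ^ 2)

theorem norm_EE (σ l : ℝ) (t s : ℂ) :
    ‖EE σ l t s‖ * Real.exp (phi σ (s, t) / 2) = Real.exp (3 * Real.pi / 2 * ‖s - l‖ ^ 2) := by
  unfold EE
  rw [norm_exp, ← Real.exp_add]
  congr 1
  unfold phi
  have e : (3 / 2 * (Real.pi : ℂ) * (s - l) ^ 2).re =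
      3 / 2 * Real.pi * ((s.re - l) ^ 2 - s.im ^ 2) := by
    have : (3 / 2 * (Real.pi : ℂ) * (s - l) ^ 2) = ((3 / 2 * Real.pi : ℝ) : ℂ) * (s - l) ^ 2 := by
      push_cast; ring
    rw [this, Complex.re_ofReal_mul, sq (s - (l : ℂ)), mul_re]
    simp only [sub_re, sub_im, ofReal_re, ofReal_im]
    ring
  simp only [norm_sq_eq, add_re, e, neg_re, ofReal_re, mul_re, mul_im, ofReal_im, re_ofNat,
    im_ofNat, sub_re, sub_im, I_re, I_im]
  ring

theorem differentiable_EE (σ l : ℝ) (t : ℂ) : Differentiable ℂ (EE σ l t) := by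
  unfold EE
  fun_prop

theorem EE_ne_zero (σ l : ℝ) (t s : ℂ) : EE σ l t s ≠ 0 := by
  unfold EE; exact exp_ne_zero _

theorem EE_self (σ l : ℝ) (t : ℂ) : EE σ l t l = EE (-σ) l t l := by
  unfold EE; simp only [ofReal_mul, ofReal_ofNat, ofReal_pow, sub_self, mul_zero, add_zero, ne_eq, OfNat.ofNat_ne_zero, not_false_eq_true, zero_pow, ofReal_neg, mul_neg, neg_mul]

theorem exp_aux : Real.exp (3 * Real.pi / 2 * (1 / 6) ^ 2) ≤ 7 / 6 := by
  have h1 := Real.pi_lt_d2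
  have h2 : 3 * Real.pi / 2 * (1 / 6) ^ 2 ≤ 0.132 := by linarith
  refine (Real.exp_le_exp.mpr h2).trans ?_
  have h3 := Real.exp_bound_div_one_sub_of_interval (x := 0.132) (by norm_num) (by norm_num)
  refine h3.trans ?_
  norm_num

/-- Step A: bound near one component of the divisor. -/
theorem stepA {σ : ℝ} (l : ℝ) (t : ℂ) {ε M : ℝ} (hε : 0 < ε) (hε1 : ε ≤ 1) (hM : 0 ≤ M)
    (n : ℂ × ℂ → ℂ × ℂ → ℝ)
    (hn : ∀ s : ℂ, ‖s - l‖ < 1 / 5 → IsNrm (n (s, t)))
    (hc : ContinuousOn (fun p : ℂ × (ℂ × ℂ) => n (p.1, t) p.2) {p | ‖p.1 - l‖ < 1 / 5})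
    (hmax : ∀ s : ℂ, ‖s - l‖ < 1 / 5 → NLM n (s, t))
    (h1 : ∀ s : ℂ, ‖s - l‖ < 1 / 5 →
      n (s, t) (ε, s - l) ≤ M * Real.exp (phi σ (s, t) / 2))
    (h2 : ∀ s : ℂ, ‖s - l‖ < 1 / 5 → n (s, t) (1, 0) ≤ M * Real.exp (phi (-σ) (s, t) / 2))
    (s : ℂ) (hs : ‖s - l‖ ≤ 1 / 6) :
    n (s, t) (ε, s - l) ≤ 14 * M * (‖s - l‖ + ε) * Real.exp (phi σ (s, t) / 2) := by
  set F : ℂ → ℂ := fun s => EE σ l t s - EE (-σ) l t s with hF
  have hFd : Differentiable ℂ F :=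
    (differentiable_EE σ l t).sub (differentiable_EE (-σ) l t)
  have hFl : F l = 0 := by
    rw [hF]
    simp only [EE_self σ l t, sub_self]
  set k : ℂ → ℂ := dslope F l with hk
  have hkd : Differentiable ℂ k := by
    have := (Complex.differentiableOn_dslope (f := F) (c := (l : ℂ)) (s := Set.univ)
      univ_mem).mpr hFd.differentiableOn
    exact differentiableOn_univ.mp this
  have hFk : ∀ s : ℂ, F s = (s - l) * k s := by
    intro s
    have := sub_smul_dslope F l s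
    rw [hFl, sub_zero, smul_eq_mul] at this
    exact this.symm
  set W : ℂ → ℝ := fun s => n (s, t) (ε * k s, EE σ l t s) with hW
  have hkey : ∀ s : ℂ, (s - l) • ((ε * k s, EE σ l t s) : ℂ × ℂ) =
      EE σ l t s • ((ε, s - l) : ℂ × ℂ) +
        (-(ε * EE (-σ) l t s)) • ((1, 0) : ℂ × ℂ) := by
    intro s
    have h3 := hFk s
    rw [hF] at h3
    simp only at h3
    ext
    · simp only [Prod.smul_mk, smul_eq_mul, Prod.mk_add_mk]
      linear_combination (-(ε : ℂ)) * h3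
    · simp only [Prod.smul_mk, smul_eq_mul, Prod.mk_add_mk]
      ring
  have hεn : ‖(ε : ℂ)‖ = ε := by rw [Complex.norm_real, Real.norm_eq_abs, abs_of_pos hε]
  have hb1 : ∀ s : ℂ, ‖s - l‖ < 1 / 5 → ‖EE σ l t s‖ * n (s, t) (ε, s - l) ≤
      M * Real.exp (3 * Real.pi / 2 * ‖s - l‖ ^ 2) := by
    intro s hs
    rw [← norm_EE σ l t s]
    calc _ ≤ ‖EE σ l t s‖ * (M * Real.exp (phi σ (s, t) / 2)) :=
          mul_le_mul_of_nonneg_left (h1 s hs) (norm_nonneg _)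
      _ = _ := by ring
  have hb2 : ∀ s : ℂ, ‖s - l‖ < 1 / 5 → ‖-(ε * EE (-σ) l t s)‖ * n (s, t) (1, 0) ≤
      ε * (M * Real.exp (3 * Real.pi / 2 * ‖s - l‖ ^ 2)) := by
    intro s hs
    rw [← norm_EE (-σ) l t s, norm_neg, norm_mul, hεn, mul_assoc]
    refine mul_le_mul_of_nonneg_left ?_ hε.le
    calc _ ≤ ‖EE (-σ) l t s‖ * (M * Real.exp (phi (-σ) (s, t) / 2)) :=
          mul_le_mul_of_nonneg_left (h2 s hs) (norm_nonneg _)
      _ = _ := by ring
  have hWb : ∀ s : ℂ, ‖s - l‖ < 1 / 5 → ‖s - l‖ * W s ≤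
      (1 + ε) * (M * Real.exp (3 * Real.pi / 2 * ‖s - l‖ ^ 2)) := by
    intro s hs
    have hN := hn s hs
    rw [hW]
    simp only
    rw [← hN.smul, hkey]
    refine (hN.add _ _).trans ?_
    rw [hN.smul, hN.smul]
    linarith only [hb1 s hs, hb2 s hs]
  have hWc : ContinuousOn W (Metric.closedBall l (1 / 6)) := by
    refine hc.comp (f := fun s : ℂ => ((s, (ε * k s, EE σ l t s)) : ℂ × (ℂ × ℂ)))
      (Continuous.continuousOn ?_) ?_
    · have := hkd.continuous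
      have := (differentiable_EE σ l t).continuous
      fun_prop
    · intro s hs
      rw [Metric.mem_closedBall, dist_eq_norm] at hs
      change ‖s - l‖ < 1 / 5
      linarith only [hs]
  obtain ⟨s1, hs1, hs1max⟩ := (isCompact_closedBall (l : ℂ) (1 / 6)).exists_isMaxOn
    ⟨l, by simp only [one_div, Metric.mem_closedBall, dist_self, inv_nonneg, Nat.ofNat_nonneg]⟩ hWc
  rw [Metric.mem_closedBall, dist_eq_norm] at hs1
  have hs1eq : ‖s1 - l‖ = 1 / 6 := by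
    by_contra hne
    have hlt : ‖s1 - l‖ < 1 / 6 := lt_of_le_of_ne hs1 hne
    refine hmax s1 (by linarith only [hlt]) (1, 0) (fun ζ => ε * k (s1 + ζ)) (fun ζ => EE σ l t (s1 + ζ))
      (by simp) ?_ ?_ ?_ ?_
    · have : Differentiable ℂ fun ζ => ε * k (s1 + ζ) :=
        (hkd.comp (differentiable_id.const_add s1)).const_mul _
      exact this.analyticAt 0
    · have : Differentiable ℂ fun ζ => EE σ l t (s1 + ζ) :=
        (differentiable_EE σ l t).comp (differentiable_id.const_add s1)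
      exact this.analyticAt 0
    · intro h0
      have := congrArg Prod.snd h0
      exact EE_ne_zero σ l t _ this
    · have hnb : ∀ᶠ ζ : ℂ in 𝓝 0, s1 + ζ ∈ Metric.closedBall (l : ℂ) (1 / 6) := by
        have hcont : Continuous fun ζ : ℂ => ‖s1 + ζ - l‖ := by fun_prop
        have : ∀ᶠ ζ : ℂ in 𝓝 0, ‖s1 + ζ - l‖ < 1 / 6 :=
          hcont.continuousAt.eventually_lt continuousAt_const (by simpa using hlt)
        filter_upwards [this] with ζ hζ
        rw [Metric.mem_closedBall, dist_eq_norm]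
        exact hζ.le
      filter_upwards [hnb] with ζ hζ
      have h3 := hs1max hζ
      simp only [Set.mem_ofPred_eq, hW] at h3
      simpa only [Prod.smul_mk, smul_eq_mul, mul_one, mul_zero, Prod.mk_add_mk, add_zero, zero_smul,     ge_iff_le] using h3
  have hWs1 : W s1 ≤ 14 * M := by
    have h3 := hWb s1 (by linarith only [hs1])
    rw [hs1eq] at h3
    have h4 := exp_aux
    have h5 : (1 + ε) * (M * Real.exp (3 * Real.pi / 2 * (1 / 6) ^ 2)) ≤ 2 * (M * (7 / 6)) := by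
      apply mul_le_mul (by linarith only [hε1]) (mul_le_mul_of_nonneg_left h4 hM) (by (clear * - hM; positivity)) (by norm_num)
    linarith only [h3, h5]
  have hWs : W s ≤ 14 * M := by
    have h3 := hs1max (show s ∈ Metric.closedBall (l : ℂ) (1 / 6) by
      rwa [Metric.mem_closedBall, dist_eq_norm])
    simp only [Set.mem_ofPred_eq] at h3
    linarith only [hWs1, h3]
  have hs2 : ‖s - l‖ < 1 / 5 := by linarith only [hs]
  have hN := hn s hs2
  have hfin : ‖EE σ l t s‖ * n (s, t) (ε, s - l) ≤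
      ‖s - l‖ * (14 * M) + ε * (M * Real.exp (3 * Real.pi / 2 * ‖s - l‖ ^ 2)) := by
    rw [← hN.smul]
    have h3 : EE σ l t s • ((ε, s - l) : ℂ × ℂ) =
        (s - l) • ((ε * k s, EE σ l t s) : ℂ × ℂ) +
          (ε * EE (-σ) l t s) • ((1, 0) : ℂ × ℂ) := by
      rw [hkey s, add_assoc, ← add_smul, neg_add_cancel, zero_smul, add_zero]
    rw [h3]
    refine (hN.add _ _).trans ?_
    rw [hN.smul, hN.smul]
    have h4 := hb2 s hs2
    rw [norm_neg] at h4
    have h5 : ‖s - l‖ * n (s, t) (ε * k s, EE σ l t s) ≤ ‖s - l‖ * (14 * M) :=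
      mul_le_mul_of_nonneg_left hWs (norm_nonneg _)
    linarith only [h4, h5]
  have hEpos : 0 < ‖EE σ l t s‖ := norm_pos_iff.mpr (EE_ne_zero σ l t s)
  have hexp1 : 1 ≤ Real.exp (3 * Real.pi / 2 * ‖s - l‖ ^ 2) := Real.one_le_exp (by (clear * -; positivity))
  have hEe := norm_EE σ l t s
  have hgoal : ‖EE σ l t s‖ * n (s, t) (ε, s - l) ≤
      ‖EE σ l t s‖ * (14 * M * (‖s - l‖ + ε) * Real.exp (phi σ (s, t) / 2)) := by
    calc ‖EE σ l t s‖ * n (s, t) (ε, s - l)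
        ≤ ‖s - l‖ * (14 * M) + ε * (M * Real.exp (3 * Real.pi / 2 * ‖s - l‖ ^ 2)) := hfin
      _ ≤ 14 * M * (‖s - l‖ + ε) * Real.exp (3 * Real.pi / 2 * ‖s - l‖ ^ 2) := by
        have h6 : 0 ≤ ‖s - l‖ * M := by (clear * - hM; positivity)
        have h7 : 0 ≤ ε * M := by (clear * - hε hM; positivity)
        nlinarith only [h7, h6, hexp1]
      _ = _ := by rw [← hEe]; ring
  exact le_of_mul_le_mul_left hgoal hEpos

theorem phi_line {σ : ℝ} (hσ : σ ^ 2 = 1) (x : ℂ × ℂ) (ζ : ℂ) :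
    phi σ (x + ζ • ((4, -3 * σ) : ℂ × ℂ)) =
      phi σ x + 12 * Real.pi * x.1.im * ζ.im + 24 * Real.pi * ζ.im ^ 2 := by
  unfold phi
  have e1 : (x + ζ • ((4, -3 * σ) : ℂ × ℂ)).1.im = x.1.im + 4 * ζ.im := by
    simp only [neg_mul, Prod.smul_mk, smul_eq_mul, mul_neg, Prod.fst_add, add_im, mul_im, im_ofNat, mul_zero, re_ofNat, zero_add, add_right_inj]; ring
  have e2 : (x + ζ • ((4, -3 * σ) : ℂ × ℂ)).2.im = x.2.im - 3 * σ * ζ.im := by
    simp only [neg_mul, Prod.smul_mk, smul_eq_mul, mul_neg, Prod.snd_add, add_im, neg_im, mul_im, re_ofNat, ofReal_im, mul_zero, im_ofNat, ofReal_re, zero_mul, add_zero, mul_re, sub_zero, zero_add]; ring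
  rw [e1, e2]
  have : σ ^ 2 = σ * σ := sq σ
  linear_combination (-36 * ζ.im * x.1.im - 72 * ζ.im ^ 2) * Real.pi * hσ

theorem stepB : ∃ ε0 : ℝ, 0 < ε0 ∧ ε0 ≤ 1 ∧ ∀ (σ : ℝ), σ ^ 2 = 1 → ∀ (l ε M : ℝ), 0 < ε → ε ≤ ε0 →
    0 ≤ M → ∀ (f : ℂ × ℂ → ℝ), Continuous f → (∀ x, 0 < f x) →
    (∀ x γ : ℂ × ℂ, IsLat γ.1 → IsLat γ.2 → f (x + γ) = f x) →
    (∀ x : ℂ × ℂ, ‖x.1 - l‖ ≤ 1 / 6 → f x ≤ 14 * M * (‖x.1 - l‖ + ε)) →
    (∀ x : ℂ × ℂ, ¬ IsLat (x.1 - l) → ∀ G : ℂ → ℂ, AnalyticAt ℂ G 0 →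
      ¬ IsLocalMax (fun ζ : ℂ => f (x + ζ • ((4, -3 * σ) : ℂ × ℂ)) *
        Real.exp (phi σ (x + ζ • ((4, -3 * σ) : ℂ × ℂ)) / 2) * Real.exp ((G ζ).re)) 0) →
    ∀ x, f x ≤ M / 2 := by
  obtain ⟨c, hc, hlow⟩ := hw_lower'
  obtain ⟨C, hC, hup⟩ := hw_upper
  set η : ℝ := min (c / 3136) (c ^ 8 / (C ^ 7 * 56 ^ 16)) with hη
  have hη0 : 0 < η := by rw [hη]; positivity
  have hη1 : η ≤ c / 3136 := min_le_left _ _
  have hη2 : η ≤ c ^ 8 / (C ^ 7 * 56 ^ 16) := min_le_right _ _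
  set ρ : ℝ := Real.sqrt (η / c) with hρ
  have hρ0 : 0 < ρ := Real.sqrt_pos.mpr (by positivity)
  have hρ2 : ρ ^ 2 = η / c := Real.sq_sqrt (by positivity)
  have hρ1 : ρ ≤ 1 / 56 := by
    rw [hρ]
    apply Real.sqrt_le_iff.mpr
    refine ⟨by norm_num, ?_⟩
    rw [div_le_iff₀ hc]
    linarith only [hη1]
  refine ⟨ρ, hρ0, by linarith only [hρ1], ?_⟩
  intro σ hσ l ε M hε hε0 hM f hf hpos hper hA hmax
  have htube : ∀ x : ℂ × ℂ, hw (x.1 - l) ≤ η → f x ≤ 28 * M * ρ := by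
    intro x hx
    obtain ⟨l', hl', hcl⟩ := hlow (x.1 - l)
    have h1 : ‖x.1 - l - l'‖ ^ 2 ≤ ρ ^ 2 := by
      rw [hρ2, le_div_iff₀ hc]
      linarith only [hx, hcl]
    have h2 : ‖x.1 - l - l'‖ ≤ ρ := le_of_sq_le_sq h1 hρ0.le
    have h3 : f x = f (x + (-l', 0)) :=
      (hper x (-l', 0) hl'.neg ⟨0, 0, by simp⟩).symm
    have h4 : (x + ((-l', 0) : ℂ × ℂ)).1 - l = x.1 - l - l' := by
      simp only [Prod.fst_add]; ring
    rw [h3]
    have h5 := hA (x + (-l', 0)) (by rw [h4]; linarith only [hρ1, h2])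
    rw [h4] at h5
    refine h5.trans ?_
    have : 14 * M * (‖x.1 - l - l'‖ + ε) ≤ 14 * M * (ρ + ρ) := by
      apply mul_le_mul_of_nonneg_left (by linarith only [hε0, h2]) (by (clear * - hM; positivity))
    linarith only [this]
  intro x
  by_cases hx : hw (x.1 - l) ≤ η
  · refine (htube x hx).trans ?_
    have : M * ρ ≤ M * (1 / 56) := mul_le_mul_of_nonneg_left hρ1 hM
    linarith only [this]
  push Not at hx
  set Ψ : ℂ × ℂ → ℝ := fun y => f y ^ 16 / hw (y.1 - l) ^ 7 with hΨ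
  set K : Set (ℂ × ℂ) := {y | η ≤ hw (y.1 - l)} ∩
    (Metric.closedBall (l : ℂ) (3 / 4) ×ˢ Metric.closedBall (0 : ℂ) (3 / 4)) with hK
  have hwc : Continuous fun y : ℂ × ℂ => hw (y.1 - l) :=
    continuous_hw.comp (continuous_fst.sub continuous_const)
  have hKc : IsCompact K :=
    ((isCompact_closedBall _ _).prod (isCompact_closedBall _ _)).inter_left
      (isClosed_le continuous_const hwc)
  have hred : ∀ y : ℂ × ℂ, η ≤ hw (y.1 - l) → ∃ y' ∈ K, f y = f y' ∧ Ψ y = Ψ y' := by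
    intro y hy
    obtain ⟨m1, hm1, hm1'⟩ := exists_lat (y.1 - l)
    obtain ⟨m2, hm2, hm2'⟩ := exists_lat y.2
    have e1 : (y + ((-m1, -m2) : ℂ × ℂ)).1 - l = (y.1 - l) + (-m1) := by simp only [Prod.fst_add]; ring
    have e2 : (y + ((-m1, -m2) : ℂ × ℂ)).2 = y.2 - m2 := by simp; ring
    have e3 : hw ((y + ((-m1, -m2) : ℂ × ℂ)).1 - l) = hw (y.1 - l) := by
      rw [e1]; exact hw_add_lat _ hm1.neg
    have e4 : f (y + (-m1, -m2)) = f y := hper y (-m1, -m2) hm1.neg hm2.neg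
    refine ⟨y + (-m1, -m2), ⟨?_, ?_, ?_⟩, e4.symm, ?_⟩
    · change η ≤ hw ((y + ((-m1, -m2) : ℂ × ℂ)).1 - l)
      rw [e3]; exact hy
    · rw [Metric.mem_closedBall, dist_eq_norm, e1]
      simpa only [sub_eq_add_neg] using hm1'
    · rw [Metric.mem_closedBall, dist_zero_right, e2]
      exact hm2'
    · rw [hΨ]
      simp only
      rw [e3, e4]
  have hΨc : ContinuousOn Ψ K := by
    apply ContinuousOn.div (hf.pow 16).continuousOn (hwc.pow 7).continuousOn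
    intro y hy
    have : 0 < hw (y.1 - l) := lt_of_lt_of_le hη0 hy.1
    exact (pow_pos this 7).ne'
  obtain ⟨x', hx'K, hfx', hΨx'⟩ := hred x hx.le
  obtain ⟨x0, hx0K, hx0max⟩ := hKc.exists_isMaxOn ⟨x', hx'K⟩ hΨc
  have hglob : ∀ y : ℂ × ℂ, η ≤ hw (y.1 - l) → Ψ y ≤ Ψ x0 := by
    intro y hy
    obtain ⟨y', hy'K, _, hΨy'⟩ := hred y hy
    rw [hΨy']
    exact hx0max hy'K
  have hx0η : η ≤ hw (x0.1 - l) := hx0K.1
  have hbd : hw (x0.1 - l) = η := by
    by_contra hne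
    have hlt : η < hw (x0.1 - l) := lt_of_le_of_ne hx0η (Ne.symm hne)
    have hnl : ¬ IsLat (x0.1 - l) := by
      intro hL
      have h1 := hw_add_lat (0 : ℂ) hL
      rw [zero_add] at h1
      have h2 : hw 0 = 0 := by unfold hw; rw [th_zero]; simp
      rw [h1, h2] at hlt
      linarith only [hη0, hlt]
    obtain ⟨g, hg, hgl⟩ := log_hw_local hnl
    refine hmax x0 hnl (fun ζ => (-7 * g (x0.1 - l + 4 * ζ) - (8 * phi σ x0 : ℝ) +
      96 * Real.pi * x0.1.im * I * ζ + 96 * Real.pi * ζ ^ 2) / 16) ?_ ?_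
    · have h1 : AnalyticAt ℂ (fun ζ : ℂ => g (x0.1 - l + 4 * ζ)) 0 := by
        apply AnalyticAt.fun_comp (g := g) (f := fun ζ : ℂ => x0.1 - l + 4 * ζ)
        · simpa using hg
        · fun_prop
      exact ((((analyticAt_const.mul h1).sub analyticAt_const).add
        (analyticAt_const.mul analyticAt_id)).add
        (analyticAt_const.mul (analyticAt_id.pow 2))).div analyticAt_const (by norm_num)
    · have hcont : Continuous fun ζ : ℂ => x0 + ζ • ((4, -3 * σ) : ℂ × ℂ) := by fun_prop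
      have hev1 : ∀ᶠ ζ : ℂ in 𝓝 0, η < hw ((x0 + ζ • ((4, -3 * σ) : ℂ × ℂ)).1 - l) :=
        continuousAt_const.eventually_lt (hwc.comp hcont).continuousAt (by simpa using hlt)
      have hev2 : ∀ᶠ ζ : ℂ in 𝓝 0, Real.log (hw (x0.1 - l + 4 * ζ)) =
          (g (x0.1 - l + 4 * ζ)).re - Real.pi * ‖x0.1 - l + 4 * ζ - (x0.1 - l)‖ ^ 2 := by
        have hc2 : ContinuousAt (fun ζ : ℂ => x0.1 - l + 4 * ζ) 0 := by fun_prop
        have : Tendsto (fun ζ : ℂ => x0.1 - l + 4 * ζ) (𝓝 0) (𝓝 (x0.1 - l)) := by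
          simpa only [ContinuousAt, mul_zero, add_zero] using hc2
        exact this.eventually hgl
      have hkey : ∀ ζ : ℂ, η < hw ((x0 + ζ • ((4, -3 * σ) : ℂ × ℂ)).1 - l) →
          Real.log (hw (x0.1 - l + 4 * ζ)) =
          (g (x0.1 - l + 4 * ζ)).re - Real.pi * ‖x0.1 - l + 4 * ζ - (x0.1 - l)‖ ^ 2 →
          (f (x0 + ζ • ((4, -3 * σ) : ℂ × ℂ)) *
            Real.exp (phi σ (x0 + ζ • ((4, -3 * σ) : ℂ × ℂ)) / 2) *
            Real.exp (((-7 * g (x0.1 - l + 4 * ζ) - (8 * phi σ x0 : ℝ) +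
              96 * Real.pi * x0.1.im * I * ζ + 96 * Real.pi * ζ ^ 2) / 16).re)) ^ 16 =
          Ψ (x0 + ζ • ((4, -3 * σ) : ℂ × ℂ)) * Real.exp (-(16 * Real.pi * ‖ζ‖ ^ 2)) := by
        intro ζ h1 h2
        have e1 : (x0 + ζ • ((4, -3 * σ) : ℂ × ℂ)).1 - l = x0.1 - l + 4 * ζ := by simp only [neg_mul, Prod.smul_mk, smul_eq_mul, mul_neg, Prod.fst_add]; ring
        have e2 : x0.1 - l + 4 * ζ - (x0.1 - l) = 4 * ζ := by ring
        rw [e1] at h1
        have hwpos : 0 < hw (x0.1 - l + 4 * ζ) := by linarith only [hη0, h1]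
        rw [e2] at h2
        have h3 : hw (x0.1 - l + 4 * ζ) =
            Real.exp ((g (x0.1 - l + 4 * ζ)).re - Real.pi * ‖4 * ζ‖ ^ 2) := by
          rw [← h2, Real.exp_log hwpos]
        rw [hΨ]
        simp only
        rw [e1, h3, mul_pow, mul_pow, ← Real.exp_nat_mul, ← Real.exp_nat_mul, ← Real.exp_nat_mul,
          mul_assoc, ← Real.exp_add, div_mul_eq_mul_div, mul_div_assoc, ← Real.exp_sub,
          phi_line hσ]
        congr 2
        have e3 : ((-7 * g (x0.1 - l + 4 * ζ) - (8 * phi σ x0 : ℝ) +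
              96 * Real.pi * x0.1.im * I * ζ + 96 * Real.pi * ζ ^ 2) / 16).re =
            (-7 * (g (x0.1 - l + 4 * ζ)).re - 8 * phi σ x0 -
              96 * Real.pi * x0.1.im * ζ.im + 96 * Real.pi * (ζ.re ^ 2 - ζ.im ^ 2)) / 16 := by
          have : (16 : ℂ) = ((16 : ℝ) : ℂ) := by norm_num
          rw [this, Complex.div_ofReal_re]
          congr 1
          simp only [add_re, sub_re, mul_re, mul_im, ofReal_re, ofReal_im, re_ofNat, im_ofNat,
            I_re, I_im, neg_re, neg_im, sq]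
          ring
        rw [e3, norm_mul, mul_pow, norm_sq_eq ζ]
        have e4 : ‖(4 : ℂ)‖ ^ 2 = 16 := by norm_num
        rw [e4]
        push_cast
        ring
      have h0e : η < hw ((x0 + (0 : ℂ) • ((4, -3 * σ) : ℂ × ℂ)).1 - l) := by simpa using hlt
      filter_upwards [hev1, hev2] with ζ h1 h2
      have hk1 := hkey ζ h1 h2
      have hk0 := hkey 0 h0e (hev2.self_of_nhds)
      have hnn : 0 ≤ f (x0 + (0 : ℂ) • ((4, -3 * σ) : ℂ × ℂ)) *
            Real.exp (phi σ (x0 + (0 : ℂ) • ((4, -3 * σ) : ℂ × ℂ)) / 2) *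
            Real.exp (((-7 * g (x0.1 - l + 4 * 0) - (8 * phi σ x0 : ℝ) +
              96 * Real.pi * x0.1.im * I * 0 + 96 * Real.pi * 0 ^ 2) / 16).re) := by
        have := hpos (x0 + (0 : ℂ) • ((4, -3 * σ) : ℂ × ℂ))
        (clear * - this; positivity)
      refine le_of_pow_le_pow_left₀ (n := 16) (by norm_num) hnn ?_
      rw [hk1, hk0]
      have h3 : Ψ (x0 + ζ • ((4, -3 * σ) : ℂ × ℂ)) ≤ Ψ x0 := hglob _ h1.le
      have h4 : Ψ (x0 + (0 : ℂ) • ((4, -3 * σ) : ℂ × ℂ)) = Ψ x0 := by simp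
      rw [h4, norm_zero]
      have h5 : Real.exp (-(16 * Real.pi * ‖ζ‖ ^ 2)) ≤ 1 := by
        rw [Real.exp_le_one_iff]
        have := Real.pi_pos
        have : 0 ≤ 16 * Real.pi * ‖ζ‖ ^ 2 := by (clear * -; positivity)
        linarith only [this]
      have h6 : 0 ≤ Ψ x0 := by
        rw [hΨ]
        simp only
        have := hpos x0
        have := hw_nonneg (x0.1 - l)
        (clear c hc hlow C hC hup η hη hη0 hη1 hη2 ρ hρ hρ0 hρ2 hρ1 σ hσ ε M hε hε0 hM hf hper hA hmax htube x hx Ψ hΨ K hK hwc hKc hred hΨc x' hx'K hfx' hΨx' hx0K hx0max hglob hx0η hne hlt hnl g hg hgl hcont hev1 hev2 hkey h0e ζ h1 h2 hk1 hk0 hnn h3 h4 h5; positivity)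
      calc Ψ (x0 + ζ • ((4, -3 * σ) : ℂ × ℂ)) * Real.exp (-(16 * Real.pi * ‖ζ‖ ^ 2))
          ≤ Ψ x0 * 1 := mul_le_mul h3 h5 (Real.exp_nonneg _) h6
        _ = _ := by simp
  have hfx0 : f x0 ≤ 28 * M * ρ := htube x0 hbd.le
  have hΨx0 : Ψ x0 ≤ (28 * M * ρ) ^ 16 / η ^ 7 := by
    rw [hΨ]
    simp only
    rw [hbd]
    have := hpos x0
    (clear * - this hfx0 hc hC; gcongr)
  have hfx : f x ^ 16 ≤ (M / 2) ^ 16 := by
    have h1 := hglob x hx.le
    have hwx : 0 < hw (x.1 - l) := by linarith only [hη0, hx]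
    have h2 : f x ^ 16 = Ψ x * hw (x.1 - l) ^ 7 := by
      rw [hΨ]
      simp only
      (clear * - hwx; field_simp)
    rw [h2]
    calc Ψ x * hw (x.1 - l) ^ 7 ≤ ((28 * M * ρ) ^ 16 / η ^ 7) * C ^ 7 := by
          apply mul_le_mul (h1.trans hΨx0) _ (by (clear * - hwx; positivity)) (by (clear * - hc hC; positivity))
          exact pow_le_pow_left₀ hwx.le (hup _) 7
      _ = (28 ^ 16 * M ^ 16 * C ^ 7 / c ^ 8) * η := by
          have : (28 * M * ρ) ^ 16 = 28 ^ 16 * M ^ 16 * (ρ ^ 2) ^ 8 := by ring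
          rw [this, hρ2]
          (clear * - hC hc hη0; field_simp)
      _ ≤ (28 ^ 16 * M ^ 16 * C ^ 7 / c ^ 8) * (c ^ 8 / (C ^ 7 * 56 ^ 16)) := by
          apply mul_le_mul_of_nonneg_left hη2 (by (clear * - hC hc; positivity))
      _ = (M / 2) ^ 16 := by
          field_simp
          ring
  exact le_of_pow_le_pow_left₀ (n := 16) (by norm_num) (by (clear * - hM; positivity)) hfx

/-- Data extracted from a Griffiths positive metric on the bundle with parameter `ε`. `f1`, `f2` are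
the normalised lengths of the two sections `v₁`, `v₂` of the (twisted) dual bundle, `n1`, `n2` the
norms in the frames `v₂, (v₁-εv₂)/s` near `s = 0` and `v₁, (v₂-εv₁)/(s-1/2)` near `s = 1/2`. -/
structure NoGData (ε : ℝ) (f1 f2 : ℂ × ℂ → ℝ) (n1 n2 : ℂ × ℂ → ℂ × ℂ → ℝ) : Prop where
  cont1 : Continuous f1
  cont2 : Continuous f2
  pos1 : ∀ x, 0 < f1 x
  pos2 : ∀ x, 0 < f2 x
  per1 : ∀ x γ : ℂ × ℂ, IsLat γ.1 → IsLat γ.2 → f1 (x + γ) = f1 x
  per2 : ∀ x γ : ℂ × ℂ, IsLat γ.1 → IsLat γ.2 → f2 (x + γ) = f2 x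
  nrm1 : ∀ x : ℂ × ℂ, ‖x.1‖ < 1 / 5 → IsNrm (n1 x)
  nrm2 : ∀ x : ℂ × ℂ, ‖x.1 - 1 / 2‖ < 1 / 5 → IsNrm (n2 x)
  nc1 : ContinuousOn (fun p : (ℂ × ℂ) × (ℂ × ℂ) => n1 p.1 p.2) {p | ‖p.1.1‖ < 1 / 5}
  nc2 : ContinuousOn (fun p : (ℂ × ℂ) × (ℂ × ℂ) => n2 p.1 p.2) {p | ‖p.1.1 - 1 / 2‖ < 1 / 5}
  nlm1 : ∀ x : ℂ × ℂ, ‖x.1‖ < 1 / 5 → NLM n1 x
  nlm2 : ∀ x : ℂ × ℂ, ‖x.1 - 1 / 2‖ < 1 / 5 → NLM n2 x
  link1a : ∀ x : ℂ × ℂ, ‖x.1‖ < 1 / 5 → n1 x (ε, x.1) = f1 x * Real.exp (phi 1 x / 2)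
  link1b : ∀ x : ℂ × ℂ, ‖x.1‖ < 1 / 5 → n1 x (1, 0) = f2 x * Real.exp (phi (-1) x / 2)
  link2a : ∀ x : ℂ × ℂ, ‖x.1 - 1 / 2‖ < 1 / 5 →
    n2 x (ε, x.1 - 1 / 2) = f2 x * Real.exp (phi (-1) x / 2)
  link2b : ∀ x : ℂ × ℂ, ‖x.1 - 1 / 2‖ < 1 / 5 → n2 x (1, 0) = f1 x * Real.exp (phi 1 x / 2)
  max1 : ∀ x : ℂ × ℂ, ¬ IsLat x.1 → ∀ G : ℂ → ℂ, AnalyticAt ℂ G 0 →
    ¬ IsLocalMax (fun ζ : ℂ => f1 (x + ζ • ((4, -3) : ℂ × ℂ)) *
      Real.exp (phi 1 (x + ζ • ((4, -3) : ℂ × ℂ)) / 2) * Real.exp ((G ζ).re)) 0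
  max2 : ∀ x : ℂ × ℂ, ¬ IsLat (x.1 - 1 / 2) → ∀ G : ℂ → ℂ, AnalyticAt ℂ G 0 →
    ¬ IsLocalMax (fun ζ : ℂ => f2 (x + ζ • ((4, 3) : ℂ × ℂ)) *
      Real.exp (phi (-1) (x + ζ • ((4, 3) : ℂ × ℂ)) / 2) * Real.exp ((G ζ).re)) 0

theorem exists_max_of_periodic {f : ℂ × ℂ → ℝ} (hf : Continuous f)
    (hper : ∀ x γ : ℂ × ℂ, IsLat γ.1 → IsLat γ.2 → f (x + γ) = f x) :
    ∃ x0, ∀ x, f x ≤ f x0 := by
  obtain ⟨x0, _, hx0⟩ := ((isCompact_closedBall (0 : ℂ) (3 / 4)).prod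
    (isCompact_closedBall (0 : ℂ) (3 / 4))).exists_isMaxOn ⟨(0, 0), by simp only [Set.mem_prod, Metric.mem_closedBall, dist_self, and_self]; norm_num⟩
    hf.continuousOn
  refine ⟨x0, fun x => ?_⟩
  obtain ⟨m1, hm1, hm1'⟩ := exists_lat x.1
  obtain ⟨m2, hm2, hm2'⟩ := exists_lat x.2
  have h1 : f (x + (-m1, -m2)) = f x := hper x (-m1, -m2) hm1.neg hm2.neg
  rw [← h1]
  refine hx0 (show x + (-m1, -m2) ∈ _ from ⟨?_, ?_⟩)
  · rw [Metric.mem_closedBall, dist_zero_right]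
    simpa only [Prod.fst_add, sub_eq_add_neg] using hm1'
  · rw [Metric.mem_closedBall, dist_zero_right]
    simpa only [Prod.snd_add, sub_eq_add_neg] using hm2'

/-- **Core of the non-existence half**: for small `ε` there are no such data. -/
theorem nog_core : ∃ ε0 : ℝ, 0 < ε0 ∧ ∀ ε : ℝ, 0 < ε → ε ≤ ε0 →
    ∀ (f1 f2 : ℂ × ℂ → ℝ) (n1 n2 : ℂ × ℂ → ℂ × ℂ → ℝ), ¬ NoGData ε f1 f2 n1 n2 := by
  obtain ⟨ε0, hε0, hε1, hB⟩ := stepB
  refine ⟨ε0, hε0, ?_⟩
  intro ε hε hεε f1 f2 n1 n2 D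
  obtain ⟨a1, ha1⟩ := exists_max_of_periodic D.cont1 D.per1
  obtain ⟨a2, ha2⟩ := exists_max_of_periodic D.cont2 D.per2
  set M := max (f1 a1) (f2 a2) with hM
  have hMpos : 0 < M := lt_max_of_lt_left (D.pos1 a1)
  have hM1 : ∀ x, f1 x ≤ M := fun x => (ha1 x).trans (le_max_left _ _)
  have hM2 : ∀ x, f2 x ≤ M := fun x => (ha2 x).trans (le_max_right _ _)
  have hA1 : ∀ x : ℂ × ℂ, ‖x.1 - (0 : ℝ)‖ ≤ 1 / 6 → f1 x ≤ 14 * M * (‖x.1 - (0 : ℝ)‖ + ε) := by
    intro x hx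
    have h := stepA (σ := 1) 0 x.2 hε (hεε.trans hε1) hMpos.le n1
      (fun s hs => D.nrm1 (s, x.2) (by simpa using hs)) ?_
      (fun s hs => D.nlm1 (s, x.2) (by simpa using hs)) ?_ ?_ x.1 hx
    · have h2 := D.link1a x (by simp only [ofReal_zero, sub_zero, one_div] at hx ⊢; linarith only [hx])
      simp only [ofReal_zero, sub_zero, Prod.mk.eta] at h ⊢
      rw [h2] at h
      exact le_of_mul_le_mul_right h (Real.exp_pos _)
    · refine D.nc1.comp (f := fun p : ℂ × (ℂ × ℂ) => (((p.1, x.2), p.2) : (ℂ × ℂ) × (ℂ × ℂ)))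
        (by fun_prop) ?_
      intro p hp
      simpa only [one_div, Set.mem_ofPred_eq, ofReal_zero, sub_zero] using hp
    · intro s hs
      have h2 := D.link1a (s, x.2) (by simpa using hs)
      simp only [ofReal_zero, sub_zero] at h2 ⊢
      rw [h2]
      exact mul_le_mul_of_nonneg_right (hM1 _) (Real.exp_nonneg _)
    · intro s hs
      have h2 := D.link1b (s, x.2) (by simpa using hs)
      rw [h2]
      exact mul_le_mul_of_nonneg_right (hM2 _) (Real.exp_nonneg _)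
  have hA2 : ∀ x : ℂ × ℂ, ‖x.1 - ((1 / 2 : ℝ) : ℂ)‖ ≤ 1 / 6 →
      f2 x ≤ 14 * M * (‖x.1 - ((1 / 2 : ℝ) : ℂ)‖ + ε) := by
    have hc : (((1 / 2 : ℝ) : ℂ)) = 1 / 2 := by push_cast; ring
    intro x hx
    have h := stepA (σ := -1) (1 / 2) x.2 hε (hεε.trans hε1) hMpos.le n2
      (fun s hs => D.nrm2 (s, x.2) (by rw [hc] at hs; exact hs)) ?_
      (fun s hs => D.nlm2 (s, x.2) (by rw [hc] at hs; exact hs)) ?_ ?_ x.1 hx
    · rw [hc] at hx h ⊢
      have h2 := D.link2a x (by linarith only [hx])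
      simp only [Prod.mk.eta] at h
      rw [h2] at h
      exact le_of_mul_le_mul_right h (Real.exp_pos _)
    · refine D.nc2.comp (f := fun p : ℂ × (ℂ × ℂ) => (((p.1, x.2), p.2) : (ℂ × ℂ) × (ℂ × ℂ)))
        (by fun_prop) ?_
      intro p hp
      rw [hc] at hp
      exact hp
    · intro s hs
      rw [hc] at hs ⊢
      have h2 := D.link2a (s, x.2) hs
      simp only at h2
      rw [h2]
      exact mul_le_mul_of_nonneg_right (hM2 _) (Real.exp_nonneg _)
    · intro s hs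
      rw [hc] at hs
      have h2 := D.link2b (s, x.2) hs
      rw [h2, neg_neg]
      exact mul_le_mul_of_nonneg_right (hM1 _) (Real.exp_nonneg _)
  have hB1 := hB 1 (by norm_num) 0 ε M hε hεε hMpos.le f1 D.cont1 D.pos1 D.per1 hA1 (by
    intro x hx G hG
    have h := D.max1 x (by simpa using hx) G hG
    simpa only [ofReal_one, mul_one, Prod.smul_mk, smul_eq_mul, mul_neg] using h)
  have hB2 := hB (-1) (by norm_num) (1 / 2) ε M hε hεε hMpos.le f2 D.cont2 D.pos2 D.per2 hA2 (by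
    intro x hx G hG
    have hc : (((1 / 2 : ℝ) : ℂ)) = 1 / 2 := by push_cast; ring
    rw [hc] at hx
    have h := D.max2 x hx G hG
    simpa only [ofReal_neg, ofReal_one, mul_neg, mul_one, neg_neg, Prod.smul_mk, smul_eq_mul] using h)
  have h1 := hB1 a1
  have h2 := hB2 a2
  have h3 : M ≤ M / 2 := max_le h1 h2
  linarith only [hMpos, h3]

end NoG

end Vale.Agent.P296
end
end

section

section

/-!
# P296: the bundle has no Griffiths positive metric (T11)
-/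

namespace Vale.Agent.P296

open Complex Matrix Theta Filter Topology
open scoped ContDiff ComplexOrder

namespace Glue

/-- coordinates -/
def zz (x : ℂ × ℂ) : Fin 2 → ℂ := ![x.1, x.2]

theorem zz_add (x y : ℂ × ℂ) : zz (x + y) = zz x + zz y := by
  ext a; fin_cases a <;> simp [zz]

theorem zz_smul (c : ℂ) (x : ℂ × ℂ) : zz (c • x) = c • zz x := by
  ext a; fin_cases a <;> simp [zz]

theorem continuous_zz : Continuous zz := by
  unfold zz
  refine continuous_pi fun a => ?_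
  fin_cases a
  · exact continuous_fst
  · exact continuous_snd

theorem zz_ne_zero {x : ℂ × ℂ} (h : x ≠ 0) : zz x ≠ 0 := by
  intro h0
  apply h
  have h1 := congrFun h0 0
  have h2 := congrFun h0 1
  simp [zz] at h1 h2
  exact Prod.ext h1 h2

theorem phi_zz (σ : ℝ) (x : ℂ × ℂ) : NoG.phi σ x = phi σ (zz x) := by
  unfold NoG.phi phi zz
  simp only [Fin.isValue, cons_val_zero, cons_val_one, cons_val_fin_one, mul_eq_mul_left_iff, add_left_inj, add_right_inj, mul_eq_zero, OfNat.ofNat_ne_zero, Real.pi_ne_zero, or_self, or_false]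
  ring

/-- sign attached to the sections `v₁`, `v₂` -/
def sg (k : Fin 2) : ℝ := if k = 0 then 1 else -1

theorem row_ne_zero {ε : ℝ} (hε : 0 < ε) (i : Fin 3) (z : Fin 2 → ℂ) (k : Fin 2) :
    Wm ε i z k ≠ 0 := by
  have hε' : (ε : ℂ) ≠ 0 := by exact_mod_cast hε.ne'
  intro h
  fin_cases i <;> fin_cases k
  · have := congrFun h 0; simp [Bdl.Wm_zero] at this
  · have := congrFun h 1; simp [Bdl.Wm_zero] at this
  · have := congrFun h 0; simp [Bdl.Wm_one] at this; exact hε.ne' this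
  · have := congrFun h 0; simp [Bdl.Wm_one] at this
  · have := congrFun h 0; simp [Bdl.Wm_two] at this
  · have := congrFun h 0; simp [Bdl.Wm_two] at this; exact hε.ne' this

theorem Dm_row (l z : Fin 2 → ℂ) (M : Matrix (Fin 2) (Fin 2) ℂ) (k : Fin 2) :
    (Dm l z * M) k = eAut (sg k) l z • M k := by
  ext a
  fin_cases k <;> simp [Dm, sg, Matrix.mul_apply, Fin.sum_univ_two]

variable {ε : ℝ} {hε : 0 < ε} (H : HermitianMetric (bundle ε hε))

/-- the Gram matrices -/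
def hM (i : Fin 3) : (Fin 2 → ℂ) → Matrix (Fin 2) (Fin 2) ℂ := H.h i

theorem posDef {i : Fin 3} {z : Fin 2 → ℂ} (hz : z ∈ Uset i) : (hM H i z).PosDef :=
  H.posDef i z hz

theorem smooth (i : Fin 3) (a b : Fin 2) : ContDiffOn ℝ 2 (fun z => hM H i z a b) (Uset i) :=
  (H.smooth i a b).of_le (by norm_cast)

/-- normalised squared length of `v_k` computed in chart `i` at the point `y` -/
noncomputable def NN (k : Fin 2) (i : Fin 3) (y : Fin 2 → ℂ) : ℝ :=
  dualNorm (hM H i y) (Wm ε i y k) * Real.exp (-phi (sg k) y)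

theorem NN_compat (k : Fin 2) (i j : Fin 3) {l z : Fin 2 → ℂ} (hl : l ∈ gaussLattice 2)
    (hz : z ∈ Uset j) (hzl : z + l ∈ Uset i) : NN H k i (z + l) = NN H k j z := by
  have h1 : hM H j z = (gmat ε i j l z)ᴴ * hM H i (z + l) * gmat ε i j l z :=
    H.compat i j l hl z hz hzl
  have h2 := Curv.dualNorm_compat (h := hM H i (z + l)) (isUnit_gmat hε i j hl hz hzl)
    (Wm ε i (z + l) k)
  rw [← h1] at h2
  have h3 : Wm ε i (z + l) k ᵥ* gmat ε i j l z = eAut (sg k) l z • Wm ε j z k := by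
    rw [← Dm_row, ← gmat_rel hε i j hl hz hzl]
    rfl
  unfold NN
  rw [← h2, h3, Curv.dualNorm_smul, norm_eAut, mul_right_comm, ← Real.exp_add, mul_comm]
  congr 2
  ring

theorem NN_indep (k : Fin 2) (i j : Fin 3) {l m z : Fin 2 → ℂ} (hl : l ∈ gaussLattice 2)
    (hm : m ∈ gaussLattice 2) (hzm : z + m ∈ Uset j) (hzl : z + l ∈ Uset i) :
    NN H k i (z + l) = NN H k j (z + m) := by
  have h := NN_compat H k i j (l := l - m) (z := z + m) (sub_mem hl hm) hzm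
    (by rw [add_assoc, add_sub_cancel]; exact hzl)
  rwa [add_assoc, add_sub_cancel] at h

/-- global normalised length of `v_k` -/
noncomputable def Ng (k : Fin 2) (z : Fin 2 → ℂ) : ℝ :=
  NN H k (Bdl.cover z).choose (z + (Bdl.cover z).choose_spec.choose)

theorem Ng_eq (k : Fin 2) {i : Fin 3} {l z : Fin 2 → ℂ} (hl : l ∈ gaussLattice 2)
    (hzl : z + l ∈ Uset i) : Ng H k z = NN H k i (z + l) :=
  NN_indep H k _ _ (Bdl.cover z).choose_spec.choose_spec.1 hl hzl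
    (Bdl.cover z).choose_spec.choose_spec.2

theorem continuousOn_dualNorm (i : Fin 3) :
    ContinuousOn (fun p : (Fin 2 → ℂ) × (Fin 2 → ℂ) => dualNorm (hM H i p.1) p.2)
      {p | p.1 ∈ Uset i} := by
  have hentry : ∀ a b, ContinuousOn (fun p : (Fin 2 → ℂ) × (Fin 2 → ℂ) => hM H i p.1 a b)
      {p | p.1 ∈ Uset i} := fun a b =>
    (smooth H i a b).continuousOn.comp continuousOn_fst fun p hp => hp
  have hdet : ContinuousOn (fun p : (Fin 2 → ℂ) × (Fin 2 → ℂ) => (hM H i p.1).det⁻¹)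
      {p | p.1 ∈ Uset i} := by
    apply ContinuousOn.inv₀
    · simp only [Matrix.det_fin_two]
      exact ((hentry 0 0).mul (hentry 1 1)).sub ((hentry 0 1).mul (hentry 1 0))
    · intro p hp
      exact ((Matrix.isUnit_iff_isUnit_det _).mp (posDef H hp).isUnit).ne_zero
  have hinv : ∀ a b, ContinuousOn (fun p : (Fin 2 → ℂ) × (Fin 2 → ℂ) => (hM H i p.1)⁻¹ a b)
      {p | p.1 ∈ Uset i} := by
    intro a b
    have : ∀ p : (Fin 2 → ℂ) × (Fin 2 → ℂ), (hM H i p.1)⁻¹ a b =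
        (hM H i p.1).det⁻¹ * (hM H i p.1).adjugate a b := by
      intro p
      rw [Matrix.inv_def, Ring.inverse_eq_inv', Matrix.smul_apply, smul_eq_mul]
    simp only [this]
    refine hdet.mul ?_
    fin_cases a <;> fin_cases b <;> simp [Matrix.adjugate_fin_two]
    · exact hentry 1 1
    · exact (hentry 0 1).neg
    · exact (hentry 1 0).neg
    · exact hentry 0 0
  unfold dualNorm
  have e : (fun p : (Fin 2 → ℂ) × (Fin 2 → ℂ) => (p.2 ⬝ᵥ ((hM H i p.1)⁻¹ *ᵥ star p.2)).re) =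
      fun p => (∑ a, p.2 a * ∑ b, (hM H i p.1)⁻¹ a b * star (p.2 b)).re := rfl
  rw [e]
  refine Complex.continuous_re.comp_continuousOn ?_
  refine continuousOn_finsetSum _ fun a _ => ContinuousOn.mul (by (clear * -; fun_prop)) ?_
  refine continuousOn_finsetSum _ fun b _ => (hinv a b).mul ?_
  fun_prop

/-- the norm on the fibre coordinates in chart `i` -/
noncomputable def nn (i : Fin 3) (x u : ℂ × ℂ) : ℝ := Real.sqrt (dualNorm (hM H i (zz x)) (zz u))

/-- the two functions of the core statement -/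
noncomputable def ff (k : Fin 2) (x : ℂ × ℂ) : ℝ := Real.sqrt (Ng H k (zz x))

theorem NN_pos (k : Fin 2) {i : Fin 3} {y : Fin 2 → ℂ} (hy : y ∈ Uset i) : 0 < NN H k i y :=
  mul_pos (Curv.dualNorm_pos (posDef H hy) (row_ne_zero hε i y k)) (Real.exp_pos _)

theorem ff_pos (k : Fin 2) (x : ℂ × ℂ) : 0 < ff H k x := by
  obtain ⟨i, l, hl, hzl⟩ := Bdl.cover (zz x)
  unfold ff
  rw [Ng_eq H k hl hzl]
  exact Real.sqrt_pos.mpr (NN_pos H k hzl)

theorem continuous_Wm (i : Fin 3) (k : Fin 2) : Continuous fun z : Fin 2 → ℂ => Wm ε i z k := by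
  refine continuous_pi fun a => ?_
  fin_cases i <;> fin_cases k <;> fin_cases a <;>
    simp [Bdl.Wm_zero, Bdl.Wm_one, Bdl.Wm_two] <;> fun_prop

theorem continuous_phi (σ : ℝ) : Continuous (phi σ) := by
  unfold phi; fun_prop

theorem continuous_ff (k : Fin 2) : Continuous (ff H k) := by
  rw [continuous_iff_continuousAt]
  intro x0
  obtain ⟨i, l, hl, hzl⟩ := Bdl.cover (zz x0)
  have hopen : ∀ᶠ x in 𝓝 x0, zz x + l ∈ Uset i :=
    (continuous_zz.add continuous_const).continuousAt.eventually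
      ((Bdl.isOpen_Uset i).mem_nhds hzl)
  have heq : ff H k =ᶠ[𝓝 x0] fun x => Real.sqrt (NN H k i (zz x + l)) := by
    filter_upwards [hopen] with x hx
    unfold ff
    rw [Ng_eq H k hl hx]
  refine ContinuousAt.congr ?_ heq.symm
  apply Real.continuous_sqrt.continuousAt.comp
  unfold NN
  refine ContinuousAt.mul ?_ ?_
  · have h1 : ContinuousAt (fun p : (Fin 2 → ℂ) × (Fin 2 → ℂ) => dualNorm (hM H i p.1) p.2)
        (zz x0 + l, Wm ε i (zz x0 + l) k) :=
      (continuousOn_dualNorm H i).continuousAt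
        (((Bdl.isOpen_Uset i).preimage continuous_fst).mem_nhds hzl)
    have h2 : ContinuousAt (fun x : ℂ × ℂ => ((zz x + l, Wm ε i (zz x + l) k) :
        (Fin 2 → ℂ) × (Fin 2 → ℂ))) x0 :=
      ((continuous_zz.add continuous_const).prodMk
        ((continuous_Wm i k).comp (continuous_zz.add continuous_const))).continuousAt
    exact ContinuousAt.comp (g := fun p : (Fin 2 → ℂ) × (Fin 2 → ℂ) => dualNorm (hM H i p.1) p.2)
      (f := fun x : ℂ × ℂ => ((zz x + l, Wm ε i (zz x + l) k) : (Fin 2 → ℂ) × (Fin 2 → ℂ))) h1 h2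
  · exact (Real.continuous_exp.comp
      ((continuous_phi _).comp (continuous_zz.add continuous_const)).neg).continuousAt

theorem ff_periodic (k : Fin 2) (x γ : ℂ × ℂ) (h1 : IsLat γ.1) (h2 : IsLat γ.2) :
    ff H k (x + γ) = ff H k x := by
  have hγ : zz γ ∈ gaussLattice 2 := by
    intro a
    fin_cases a
    · exact h1
    · exact h2
  obtain ⟨i, l, hl, hzl⟩ := Bdl.cover (zz (x + γ))
  unfold ff
  rw [Ng_eq H k hl hzl]
  rw [zz_add, add_assoc] at hzl ⊢
  rw [Ng_eq H k (add_mem hγ hl) hzl]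

theorem isNrm_nn {i : Fin 3} {x : ℂ × ℂ} (hx : zz x ∈ Uset i) : NoG.IsNrm (nn H i x) := by
  refine ⟨fun v w => ?_, fun c v => ?_, fun v hv => ?_⟩
  · unfold nn
    rw [zz_add]
    exact Curv.sqrt_dualNorm_add (posDef H hx) _ _
  · unfold nn
    rw [zz_smul]
    exact Curv.sqrt_dualNorm_smul _ _ _
  · exact Real.sqrt_pos.mpr (Curv.dualNorm_pos (posDef H hx) (zz_ne_zero hv))

theorem continuousOn_nn (i : Fin 3) :
    ContinuousOn (fun p : (ℂ × ℂ) × (ℂ × ℂ) => nn H i p.1 p.2) {p | zz p.1 ∈ Uset i} := by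
  unfold nn
  refine Real.continuous_sqrt.comp_continuousOn ?_
  refine (continuousOn_dualNorm H i).comp
    (f := fun p : (ℂ × ℂ) × (ℂ × ℂ) => ((zz p.1, zz p.2) : (Fin 2 → ℂ) × (Fin 2 → ℂ))) ?_ ?_
  · exact ((continuous_zz.comp continuous_fst).prodMk
      (continuous_zz.comp continuous_snd)).continuousOn
  · intro p hp
    exact hp

theorem nlmv (hG : H.GriffithsPositive) {i : Fin 3} {z : Fin 2 → ℂ} (hz : z ∈ Uset i) :
    Curv.NLMv (hM H i) z :=
  Curv.nlm_of_curvature (Bdl.isOpen_Uset i) (fun a b => smooth H i a b)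
    (fun _ hw => posDef H hw) hz fun ξ hξ v hv => hG i z hz ξ hξ v hv

theorem isLocalMax_of_sqrt {f : ℂ → ℝ} (h0 : 0 ≤ f 0)
    (h : IsLocalMax (fun ζ => Real.sqrt (f ζ)) 0) : IsLocalMax f 0 := by
  filter_upwards [h] with ζ hζ
  exact (Real.sqrt_le_sqrt_iff h0).mp hζ

theorem nlm_nn (hG : H.GriffithsPositive) {i : Fin 3} {x : ℂ × ℂ} (hx : zz x ∈ Uset i) :
    NoG.NLM (nn H i) x := by
  intro w a b hw ha hb hab hmax
  refine nlmv H hG hx (zz w) (fun ζ => zz (a ζ, b ζ)) (zz_ne_zero hw) ?_ (zz_ne_zero hab) ?_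
  · intro k
    fin_cases k
    · exact ha
    · exact hb
  · have h1 : (fun ζ : ℂ => nn H i (x + ζ • w) (a ζ, b ζ)) =
        fun ζ => Real.sqrt (dualNorm (hM H i (zz x + ζ • zz w)) (zz (a ζ, b ζ))) := by
      funext ζ
      unfold nn
      rw [zz_add, zz_smul]
    rw [h1] at hmax
    apply isLocalMax_of_sqrt _ hmax
    simp only [zero_smul, add_zero]
    exact (Curv.dualNorm_pos (posDef H hx) (zz_ne_zero hab)).le

theorem link (k : Fin 2) {i : Fin 3} {x : ℂ × ℂ} (hx : zz x ∈ Uset i) :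
    Real.sqrt (dualNorm (hM H i (zz x)) (Wm ε i (zz x) k)) =
      ff H k x * Real.exp (NoG.phi (sg k) x / 2) := by
  unfold ff
  rw [Ng_eq H k (zero_mem _) (by rw [add_zero]; exact hx), add_zero, phi_zz]
  unfold NN
  have h1 : Real.exp (phi (sg k) (zz x) / 2) = Real.sqrt (Real.exp (phi (sg k) (zz x))) := by
    rw [Real.exp_half]
  rw [h1, ← Real.sqrt_mul (mul_nonneg
    (Curv.dualNorm_pos (posDef H hx) (row_ne_zero hε i _ k)).le (Real.exp_nonneg _)), mul_assoc,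
    ← Real.exp_add, neg_add_cancel, Real.exp_zero, mul_one]

theorem nomax (hG : H.GriffithsPositive) (k : Fin 2) (x w : ℂ × ℂ) (hw : w ≠ 0) (G : ℂ → ℂ)
    (hGa : AnalyticAt ℂ G 0) :
    ¬ IsLocalMax (fun ζ : ℂ => ff H k (x + ζ • w) *
      Real.exp (NoG.phi (sg k) (x + ζ • w) / 2) * Real.exp ((G ζ).re)) 0 := by
  obtain ⟨i, l, hl, hzl⟩ := Bdl.cover (zz x)
  intro hmax
  set y : ℂ → (Fin 2 → ℂ) := fun ζ => zz x + ζ • zz w with hy
  set u : ℂ → (Fin 2 → ℂ) := fun ζ =>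
    (exp (G ζ) * (eAut (sg k) l (y ζ))⁻¹) • Wm ε i (y ζ + l) k with hu
  have hyc : Continuous y := by fun_prop
  have hev : ∀ᶠ ζ in 𝓝 (0 : ℂ), y ζ + l ∈ Uset i := by
    apply (hyc.add continuous_const).continuousAt.eventually
    apply (Bdl.isOpen_Uset i).mem_nhds
    simpa [hy] using hzl
  have hform : ∀ ζ : ℂ, y ζ + l ∈ Uset i → ff H k (x + ζ • w) *
      Real.exp (NoG.phi (sg k) (x + ζ • w) / 2) * Real.exp ((G ζ).re) =
      Real.sqrt (dualNorm (hM H i (zz x + l + ζ • zz w)) (u ζ)) := by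
    intro ζ hζ
    have e1 : zz (x + ζ • w) = y ζ := by rw [zz_add, zz_smul]
    have e2 : zz x + l + ζ • zz w = y ζ + l := by
      simp only [hy]; abel
    have hrow := (Curv.dualNorm_pos (posDef H hζ) (row_ne_zero hε i (y ζ + l) k)).le
    have e3 : ‖eAut (sg k) l (y ζ)‖ = Real.exp (phi (sg k) (y ζ + l) / 2 - phi (sg k) (y ζ) / 2) := by
      have h1 := norm_eAut (sg k) l (y ζ)
      have h2 : ‖eAut (sg k) l (y ζ)‖ = Real.sqrt (‖eAut (sg k) l (y ζ)‖ ^ 2) :=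
        (Real.sqrt_sq (norm_nonneg _)).symm
      rw [h2, h1, ← sub_div, Real.exp_half]
    rw [phi_zz, e1, e2, hu]
    simp only
    rw [Curv.sqrt_dualNorm_smul, norm_mul, norm_inv, e3, Complex.norm_exp]
    unfold ff
    rw [e1, Ng_eq H k hl hζ]
    unfold NN
    rw [Real.sqrt_mul hrow, ← Real.exp_half, ← Real.exp_neg, ← Real.exp_add,
      mul_assoc (Real.sqrt _), ← Real.exp_add, mul_assoc (Real.sqrt _), ← Real.exp_add, mul_comm]
    congr 2
    ring
  refine nlmv H hG hzl (zz w) u (zz_ne_zero hw) ?_ ?_ ?_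
  · intro a
    have hya : ∀ b, AnalyticAt ℂ (fun ζ => y ζ b) 0 := by
      intro b
      simp only [hy, Pi.add_apply, Pi.smul_apply, smul_eq_mul]
      fun_prop
    have h1 : AnalyticAt ℂ (fun ζ => exp (G ζ)) 0 := hGa.cexp
    have h2 : AnalyticAt ℂ (fun ζ => eAut (sg k) l (y ζ)) 0 := by
      unfold eAut
      have := hya 0
      have := hya 1
      fun_prop
    have h3 : AnalyticAt ℂ (fun ζ => (eAut (sg k) l (y ζ))⁻¹) 0 :=
      h2.inv (Bdl.eAut_ne_zero _ _ _)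
    have h4 : AnalyticAt ℂ (fun ζ => Wm ε i (y ζ + l) k a) 0 := by
      have := hya 0
      fin_cases i <;> fin_cases k <;> fin_cases a <;>
        simp [Bdl.Wm_zero, Bdl.Wm_one, Bdl.Wm_two] <;> fun_prop
    exact (h1.mul h3).mul h4
  · simp only [hu]
    exact smul_ne_zero (mul_ne_zero (exp_ne_zero _) (inv_ne_zero (Bdl.eAut_ne_zero _ _ _)))
      (row_ne_zero hε i _ k)
  · apply isLocalMax_of_sqrt
    · have hu0 : u 0 ≠ 0 := by
        simp only [hu]
        exact smul_ne_zero (mul_ne_zero (exp_ne_zero _) (inv_ne_zero (Bdl.eAut_ne_zero _ _ _)))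
          (row_ne_zero hε i _ k)
      simp only [zero_smul, add_zero]
      exact (Curv.dualNorm_pos (posDef H hzl) hu0).le
    · have h0 : y 0 + l ∈ Uset i := hev.self_of_nhds
      filter_upwards [hmax, hev] with ζ h1 h2
      rw [← hform ζ h2, ← hform 0 h0]
      exact h1

theorem data (hG : H.GriffithsPositive) :
    NoG.NoGData ε (ff H 0) (ff H 1) (nn H 1) (nn H 2) where
  cont1 := continuous_ff H 0
  cont2 := continuous_ff H 1
  pos1 := ff_pos H 0
  pos2 := ff_pos H 1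
  per1 := ff_periodic H 0
  per2 := ff_periodic H 1
  nrm1 := fun x hx => isNrm_nn H (i := 1) hx
  nrm2 := fun x hx => isNrm_nn H (i := 2) hx
  nc1 := continuousOn_nn H 1
  nc2 := continuousOn_nn H 2
  nlm1 := fun x hx => nlm_nn H hG (i := 1) hx
  nlm2 := fun x hx => nlm_nn H hG (i := 2) hx
  link1a := fun x hx => link H 0 (i := 1) hx
  link1b := fun x hx => link H 1 (i := 1) hx
  link2a := fun x hx => link H 1 (i := 2) hx
  link2b := fun x hx => link H 0 (i := 2) hx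
  max1 := fun x _ G hGa => nomax H hG 0 x (4, -3) (by simp) G hGa
  max2 := fun x _ G hGa => nomax H hG 1 x (4, 3) (by simp) G hGa

end Glue

/-- **The bundle has no Griffiths positive metric for small `ε`.** -/
theorem bundle_no_griffiths : ∃ ε₀ : ℝ, 0 < ε₀ ∧ ∀ ε : ℝ, ∀ hε : 0 < ε, ε ≤ ε₀ →
    ∀ H : HermitianMetric (bundle ε hε), ¬ H.GriffithsPositive := by
  obtain ⟨ε₀, h0, h⟩ := NoG.nog_core
  exact ⟨ε₀, h0, fun ε hε hle H hG => h ε hε hle _ _ _ _ (Glue.data H hG)⟩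

end Vale.Agent.P296
end
end
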